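import Mathlib

open MeasureTheory

namespace Vale.Agent.Lib.P113

/-- Points of `ℝ³`. Fields on the flat torus `𝕋³ = ℝ³/ℤ³` are `ℤ³`-periodic fields on `ℝ³`. -/
abbrev Pt : Type := Fin 3 → ℝ

/-- The derivative of `g` in the `j`-th coordinate direction at the point `x`. -/
noncomputable def dX (j : Fin 3) (g : Pt → ℝ) (x : Pt) : ℝ :=
  deriv (fun s : ℝ => g (Function.update x j s)) (x j)

/-- `ℤ³`-periodicity of a field on `ℝ³`. -/
def Periodic3 {α : Type} (g : Pt → α) : Prop :=
  ∀ (x : Pt) (n : Fin 3 → ℤ), g (fun i => x i + n i) = g x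

/-- The forced incompressible Navier-Stokes system on `[0,∞) × ℝ³` with viscosity `ν`, force `f`,
velocity `u` and pressure `p`, starting from rest: momentum equation, zero divergence and
zero initial velocity, all pointwise. -/
def SolvesNS (ν : ℝ) (f u : ℝ → Pt → Pt) (p : ℝ → Pt → ℝ) : Prop :=
  (∀ t : ℝ, 0 ≤ t → ∀ (x : Pt) (i : Fin 3),
      deriv (fun s : ℝ => u s x i) t + ∑ j : Fin 3, u t x j * dX j (fun y => u t y i) x
        = - dX i (p t) x + ν * ∑ j : Fin 3, dX j (dX j (fun y => u t y i)) x + f t x i) ∧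
  (∀ t : ℝ, 0 ≤ t → ∀ x : Pt, ∑ j : Fin 3, dX j (fun y => u t y j) x = 0) ∧
  (∀ x : Pt, u 0 x = 0)

/-- A classical solution on the time interval `[0,T]` of the forced Navier-Stokes system on the
flat torus, with velocity `v` and pressure `π`, starting from rest: `v` and `π` are `ℤ³`-periodic
in space; `v`, its time derivative, its space derivatives up to order two, `π` and its gradient
are continuous on `[0,T] × ℝ³`; `π` has mean zero over the unit cube; the momentum equation and
the divergence condition hold pointwise on `[0,T] × ℝ³` (time derivatives on the closed interval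
`[0,T]` are one-sided at its ends). -/
structure ClassicalOn (ν : ℝ) (f : ℝ → Pt → Pt) (T : ℝ) (v : ℝ → Pt → Pt) (π : ℝ → Pt → ℝ) :
    Prop where
  per_v : ∀ t, Periodic3 (v t)
  per_π : ∀ t, Periodic3 (π t)
  cont_v : ContinuousOn (fun q : ℝ × Pt => v q.1 q.2) (Set.Icc 0 T ×ˢ Set.univ)
  diff_t : ∀ (x : Pt) (i : Fin 3), DifferentiableOn ℝ (fun s : ℝ => v s x i) (Set.Icc 0 T)
  cont_dt : ∀ i : Fin 3, ContinuousOn
    (fun q : ℝ × Pt => derivWithin (fun s : ℝ => v s q.2 i) (Set.Icc 0 T) q.1)
    (Set.Icc 0 T ×ˢ Set.univ)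
  smooth_x : ∀ t ∈ Set.Icc 0 T, ∀ i : Fin 3, ContDiff ℝ 2 (fun y : Pt => v t y i)
  cont_dx : ∀ i j : Fin 3, ContinuousOn (fun q : ℝ × Pt => dX j (fun y => v q.1 y i) q.2)
    (Set.Icc 0 T ×ˢ Set.univ)
  cont_dxx : ∀ i j k : Fin 3, ContinuousOn
    (fun q : ℝ × Pt => dX k (dX j (fun y => v q.1 y i)) q.2) (Set.Icc 0 T ×ˢ Set.univ)
  smooth_π : ∀ t ∈ Set.Icc 0 T, ContDiff ℝ 1 (π t)
  cont_π : ContinuousOn (fun q : ℝ × Pt => π q.1 q.2) (Set.Icc 0 T ×ˢ Set.univ)
  cont_dπ : ∀ j : Fin 3, ContinuousOn (fun q : ℝ × Pt => dX j (π q.1) q.2)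
    (Set.Icc 0 T ×ˢ Set.univ)
  mean_π : ∀ t ∈ Set.Icc 0 T, ∫ x in Set.Icc (0 : Pt) 1, π t x = 0
  momentum : ∀ t ∈ Set.Icc 0 T, ∀ (x : Pt) (i : Fin 3),
      derivWithin (fun s : ℝ => v s x i) (Set.Icc 0 T) t
        + ∑ j : Fin 3, v t x j * dX j (fun y => v t y i) x
        = - dX i (π t) x + ν * ∑ j : Fin 3, dX j (dX j (fun y => v t y i)) x + f t x i
  div_free : ∀ t ∈ Set.Icc 0 T, ∀ x : Pt, ∑ j : Fin 3, dX j (fun y => v t y j) x = 0
  init : ∀ x : Pt, v 0 x = 0

/-- A one-tape Turing machine with states `Fin (k+1)`, tape alphabet `Fin (m+1)` (blank `0`),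
a start state, a set of halting states, and a total transition table
`(state, scanned symbol) ↦ (new state, written symbol, move)`, where the move is
`true` for right and `false` for left. -/
structure Machine where
  k : ℕ
  m : ℕ
  start : Fin (k + 1)
  halting : Fin (k + 1) → Bool
  trans : Fin (k + 1) → Fin (m + 1) → Fin (k + 1) × Fin (m + 1) × Bool

/-- A configuration: the current state and the two-sided tape, indexed so that the head
is always at cell `0`. -/
structure Cfg (M : Machine) where
  state : Fin (M.k + 1)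
  tape : ℤ → Fin (M.m + 1)

/-- One step: write the new symbol at the head, switch state, and move the head
(equivalently shift the tape the other way). -/
def Machine.next (M : Machine) (c : Cfg M) : Cfg M :=
  { state := (M.trans c.state (c.tape 0)).1
    tape := fun i => Function.update c.tape 0 (M.trans c.state (c.tape 0)).2.1
      (if (M.trans c.state (c.tape 0)).2.2 then i + 1 else i - 1) }

/-- The initial configuration on input `w`: start state, `w` written on cells `0, 1, …`,
all other cells blank, head on the first cell of `w`. -/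
def Machine.init (M : Machine) (w : List (Fin (M.m + 1))) : Cfg M :=
  { state := M.start
    tape := fun i => if 0 ≤ i then w.getD i.toNat 0 else 0 }

/-- `M` halts on `w`: a halting state is reached after finitely many steps (possibly none). -/
def Machine.HaltsOn (M : Machine) (w : List (Fin (M.m + 1))) : Prop :=
  ∃ n : ℕ, M.halting ((M.next^[n] (M.init w)).state) = true

/-- The base in which inputs of `M` are written as digit expansions. -/
def Machine.base (M : Machine) : ℕ := 2 * (M.m + 2 + 2 * ((M.k + 1) * (M.m + 1)))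

/-- The rational number coding the input `w`: its digits in base `M.base` are
`2 * start + 1` followed by the symbols of `w`. -/
noncomputable def inputCode (M : Machine) (w : List (Fin (M.m + 1))) : ℝ :=
  (2 * (M.start.val : ℝ) + 1) / (M.base : ℝ)
    + ∑ i ∈ Finset.range w.length, ((w.getD i 0).val : ℝ) / (M.base : ℝ) ^ (i + 2)

end Vale.Agent.Lib.P113
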