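import Vale.Agent.Lib.P113.MainAll

section
open scoped ContDiff

namespace Vale.Agent.Lib.P113

/-- Conditions on the heights `lvl κ` attached to the rules `κ` of a finite family: they lie in
`(0, 1/8]` for the unmarked rules and in `(1/4, 3/8]` for the marked ones, and distinct rules
have heights at least `1 / (8 * Kc)` apart. -/
structure LvlOK {ι : Type} (halt : ι → Bool) (lvl : ι → ℝ) (Kc : ℝ) : Prop where
  K_one : 1 ≤ Kc
  lvl_pos : ∀ κ, 0 < lvl κ
  lvl_le : ∀ κ, lvl κ ≤ 3 / 8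
  lvl_nonhalt : ∀ κ, halt κ = false → lvl κ ≤ 1 / 8
  lvl_halt : ∀ κ, halt κ = true → 1 / 4 < lvl κ
  lvl_sep : ∀ κ κ', κ ≠ κ' →
    1 ≤ 8 * Kc * (lvl κ - lvl κ') ∨ 8 * Kc * (lvl κ - lvl κ') ≤ -1

/-- Profile in the third variable attached to the height `l`: it is `z - l` near `l` and
vanishes farther than `1 / (8 * Kc)` away from `l`. -/
noncomputable def sraw (l Kc : ℝ) : ℝ → ℝ := fun z => (z - l) * hB (8 * Kc * (z - l) + 1 / 4)

/-- The field of the node phase, for given heights. -/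
noncomputable def WL {ι : Type} [Fintype ι] (lvl : ι → ℝ) (Kc : ℝ) (al be xc yc : ι → ℝ) :
    Pt → Pt :=
  nodeField al be (fun κ => per (sraw (lvl κ) Kc)) (fun κ => per (deriv (sraw (lvl κ) Kc)))
    (fun κ => per (pfun (xc κ))) (fun κ => per (deriv (pfun (xc κ))))
    (fun κ => per (pfun (yc κ))) (fun κ => per (deriv (pfun (yc κ))))

section
variable {ι : Type} [Fintype ι] (lvl : ι → ℝ) (Kc : ℝ) (al be xc yc : ι → ℝ)
  (psiA psiC : ℝ → ℝ → ℝ)

/-- The three fields of one cycle: index `0` lifts the point to the height of its rule,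
index `1` applies the planar node of that rule, any other index lowers the point back. -/
noncomputable def cycWL (j : ℕ) : Pt → Pt :=
  if j = 0 then zShear psiA else if j = 1 then WL lvl Kc al be xc yc else zShear psiC

/-- The schedule of fields indexed by the natural numbers: a constant field first, then the
three fields of the cycle, again and again. -/
noncomputable def WNL (x0 y0 : ℝ) (n : ℕ) : Pt → Pt :=
  if n = 0 then fun _ => ![x0, y0, 0] else cycWL lvl Kc al be xc yc psiA psiC ((n - 1) % 3)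

/-- The schedule indexed by the integers: rest before time `0`. -/
noncomputable def WwL (x0 y0 : ℝ) (k : ℤ) : Pt → Pt :=
  if k < 0 then fun _ => 0 else WNL lvl Kc al be xc yc psiA psiC x0 y0 k.toNat

/-- A run of the abstract system: positions in the unit square of codes, the rule applied at
each step, the node form of the rule, and the two selection identities. -/
structure IsRunL (X Y : ℕ → ℝ) (κ : ℕ → ι) : Prop where
  x_mem : ∀ n, 0 ≤ X n ∧ X n ≤ 1 / 2
  y_mem : ∀ n, 0 ≤ Y n ∧ Y n ≤ 1 / 2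
  x_step : ∀ n, X (n + 1) = xc (κ n) + (X n - xc (κ n)) * Real.exp (al (κ n))
  y_step : ∀ n, Y (n + 1) = yc (κ n) + (Y n - yc (κ n)) * Real.exp (be (κ n))
  src : ∀ n, psiA (X n) (Y n) = lvl (κ n)
  img : ∀ n, psiC (X (n + 1)) (Y (n + 1)) = - lvl (κ n)

end

end Vale.Agent.Lib.P113
end

section
open scoped ContDiff

namespace Vale.Agent.Lib.P113

/-- Index of a rule key: an injection of the keys of `M` into `[0, M.KN)`. -/
def keyIdx (M : Machine) (κ : Key M) : ℕ := stDigit M κ.1 κ.2.1 * M.NS + symDigit M κ.2.2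

/-- Number of rule keys of the two-stack system of `M`. -/
def Machine.KN (M : Machine) : ℕ := 2 * (M.k + 1) * M.NS

/-- Height attached to a rule key: in `(0, 1/8]` for the keys of non-halting states and in
`(1/4, 3/8]` for the keys of halting states. -/
noncomputable def lvlK (M : Machine) (κ : Key M) : ℝ :=
  ((keyIdx M κ : ℝ) + 1) / (8 * (M.KN : ℝ)) + (if haltS M κ = true then 1 / 4 else 0)

/-- Node data of the rule `κ`: rates and centres of the two coordinates. -/
noncomputable def alK (M : Machine) (κ : Key M) : ℝ := Real.log (lamX M κ)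

noncomputable def beK (M : Machine) (κ : Key M) : ℝ := Real.log (lamY M κ)

noncomputable def xcK (M : Machine) (κ : Key M) : ℝ := muX M κ / (1 - lamX M κ)

noncomputable def ycK (M : Machine) (κ : Key M) : ℝ := muY M κ / (1 - lamY M κ)

/-- Profile of the first vertical phase. -/
noncomputable def psiAL (M : Machine) (x y : ℝ) : ℝ := ∑ κ : Key M, lvlK M κ * srcS M κ x y

/-- Profile of the second vertical phase. -/
noncomputable def psiCL (M : Machine) (x y : ℝ) : ℝ :=
  ∑ κ : Key M, (- lvlK M κ) * imgS M κ x y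

/-- The field of the node phase of `M`. -/
noncomputable def WLK (M : Machine) : Pt → Pt :=
  WL (lvlK M) (M.KN : ℝ) (alK M) (beK M) (xcK M) (ycK M)

/-- The field number `n` of the schedule of the machine `M` started with the code `x0`. -/
noncomputable def WNK (M : Machine) (x0 : ℝ) (n : ℕ) : Pt → Pt :=
  WNL (lvlK M) (M.KN : ℝ) (alK M) (beK M) (xcK M) (ycK M) (psiAL M) (psiCL M) x0 0 n

/-- The velocity field of the machine `M` started with the code `x0`. -/
noncomputable def uK (M : Machine) (x0 : ℝ) : ℝ → Pt → Pt :=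
  gluedU (fun k : ℤ => if k < 0 then (fun _ => 0) else WNK M x0 k.toNat)

end Vale.Agent.Lib.P113
end

section
open scoped ContDiff

namespace Vale.Agent.Lib.P113

/-! Properties of the profiles `sraw` and of the node field `WL` for prescribed heights. -/

lemma sraw_contDiff (l Kc : ℝ) : ContDiff ℝ ∞ (sraw l Kc) := by
  unfold sraw
  exact (contDiff_id.sub contDiff_const).mul
    (hB_contDiff.comp ((contDiff_const.mul (contDiff_id.sub contDiff_const)).add contDiff_const))

lemma sraw_zero_left {l Kc : ℝ} (hK : 1 ≤ Kc) (hl : 0 < l) :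
    ∀ y, y ≤ -1 / 8 → sraw l Kc y = 0 := by
  intro y hy
  unfold sraw
  rw [hB_zero_left (by nlinarith), mul_zero]

lemma sraw_zero_right {l Kc : ℝ} (hK : 1 ≤ Kc) (hl : l ≤ 3 / 8) :
    ∀ y, 5 / 8 ≤ y → sraw l Kc y = 0 := by
  intro y hy
  unfold sraw
  rw [hB_zero_right (by nlinarith), mul_zero]

lemma dsraw_contDiff (l Kc : ℝ) : ContDiff ℝ ∞ (deriv (sraw l Kc)) :=
  (contDiff_infty_iff_deriv.mp (sraw_contDiff l Kc)).2

section
variable {ι : Type} {halt : ι → Bool} {lvl : ι → ℝ} {Kc : ℝ}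

lemma SL_contDiff (hL : LvlOK halt lvl Kc) (κ : ι) : ContDiff ℝ ∞ (per (sraw (lvl κ) Kc)) :=
  per_contDiff (sraw_contDiff _ _) (sraw_zero_left hL.K_one (hL.lvl_pos κ))
    (sraw_zero_right hL.K_one (hL.lvl_le κ))

lemma DSL_contDiff (hL : LvlOK halt lvl Kc) (κ : ι) :
    ContDiff ℝ ∞ (per (deriv (sraw (lvl κ) Kc))) :=
  per_contDiff (dsraw_contDiff _ _)
    (deriv_zero_left (sraw_zero_left hL.K_one (hL.lvl_pos κ)))
    (deriv_zero_right (sraw_zero_right hL.K_one (hL.lvl_le κ)))

lemma SL_hasDerivAt (hL : LvlOK halt lvl Kc) (κ : ι) (z : ℝ) :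
    HasDerivAt (per (sraw (lvl κ) Kc)) (per (deriv (sraw (lvl κ) Kc)) z) z :=
  per_hasDerivAt (sraw_contDiff _ _) (sraw_zero_left hL.K_one (hL.lvl_pos κ))
    (sraw_zero_right hL.K_one (hL.lvl_le κ)) z

/-- near its own height the profile is `z - lvl κ` -/
lemma sraw_eventually_self (hL : LvlOK halt lvl Kc) (κ : ι) :
    sraw (lvl κ) Kc =ᶠ[nhds (lvl κ)] fun z => z - lvl κ := by
  have hK := hL.K_one
  have hKpos : (0 : ℝ) < 8 * Kc := by linarith
  have hmem : lvl κ ∈ Set.Ioo (lvl κ - 1 / (32 * Kc)) (lvl κ + 1 / (32 * Kc)) := by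
    have : (0 : ℝ) < 1 / (32 * Kc) := by positivity
    constructor <;> linarith
  filter_upwards [isOpen_Ioo.mem_nhds hmem] with z hz
  have hc : 8 * Kc * (1 / (32 * Kc)) = 1 / 4 := by
    have hK0 : Kc ≠ 0 := by linarith
    field_simp
    norm_num
  have h1 : -(1 / 4) < 8 * Kc * (z - lvl κ) := by
    have : -(1 / (32 * Kc)) < z - lvl κ := by linarith [hz.1]
    have := mul_lt_mul_of_pos_left this hKpos
    rw [mul_neg, hc] at this
    exact this
  have h2 : 8 * Kc * (z - lvl κ) < 1 / 4 := by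
    have : z - lvl κ < 1 / (32 * Kc) := by linarith [hz.2]
    have := mul_lt_mul_of_pos_left this hKpos
    rw [hc] at this
    exact this
  unfold sraw
  rw [hB_one (by linarith) (by linarith), mul_one]

/-- near every other height the profile vanishes identically -/
lemma sraw_eventually_other (hL : LvlOK halt lvl Kc) (κ κ' : ι) (hne : κ ≠ κ') :
    sraw (lvl κ) Kc =ᶠ[nhds (lvl κ')] fun _ => (0 : ℝ) := by
  have hK := hL.K_one
  have hKpos : (0 : ℝ) < 8 * Kc := by linarith
  have hmem : lvl κ' ∈ Set.Ioo (lvl κ' - 1 / (32 * Kc)) (lvl κ' + 1 / (32 * Kc)) := by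
    have : (0 : ℝ) < 1 / (32 * Kc) := by positivity
    constructor <;> linarith
  filter_upwards [isOpen_Ioo.mem_nhds hmem] with z hz
  have hc : 8 * Kc * (1 / (32 * Kc)) = 1 / 4 := by
    have hK0 : Kc ≠ 0 := by linarith
    field_simp
    norm_num
  have h1 : -(1 / 4) < 8 * Kc * (z - lvl κ') := by
    have : -(1 / (32 * Kc)) < z - lvl κ' := by linarith [hz.1]
    have := mul_lt_mul_of_pos_left this hKpos
    rw [mul_neg, hc] at this
    exact this
  have h2 : 8 * Kc * (z - lvl κ') < 1 / 4 := by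
    have : z - lvl κ' < 1 / (32 * Kc) := by linarith [hz.2]
    have := mul_lt_mul_of_pos_left this hKpos
    rw [hc] at this
    exact this
  have hsplit : 8 * Kc * (z - lvl κ)
      = 8 * Kc * (z - lvl κ') + 8 * Kc * (lvl κ' - lvl κ) := by ring
  unfold sraw
  rcases hL.lvl_sep κ' κ (Ne.symm hne) with h3 | h3
  · rw [hB_zero_right (by linarith), mul_zero]
  · rw [hB_zero_left (by linarith), mul_zero]

theorem SL_lvl (hL : LvlOK halt lvl Kc) (κ κ' : ι) : per (sraw (lvl κ) Kc) (lvl κ') = 0 := by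
  have h1 := hL.lvl_pos κ'
  have h2 := hL.lvl_le κ'
  rw [per_of_mem _ (by linarith) (by linarith)]
  by_cases h : κ = κ'
  · subst h
    unfold sraw
    rw [sub_self, zero_mul]
  · exact (sraw_eventually_other hL κ κ' h).self_of_nhds

theorem DSL_lvl [DecidableEq ι] (hL : LvlOK halt lvl Kc) (κ κ' : ι) :
    per (deriv (sraw (lvl κ) Kc)) (lvl κ') = if κ = κ' then 1 else 0 := by
  have h1 := hL.lvl_pos κ'
  have h2 := hL.lvl_le κ'
  rw [per_of_mem _ (by linarith) (by linarith)]
  by_cases h : κ = κ'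
  · subst h
    rw [if_pos rfl, (sraw_eventually_self hL κ).deriv_eq]
    simp
  · rw [if_neg h, (sraw_eventually_other hL κ κ' h).deriv_eq]
    simp

end

section
variable {ι : Type} [Fintype ι] {halt : ι → Bool} {lvl : ι → ℝ} {Kc : ℝ}

theorem WL_div (hL : LvlOK halt lvl Kc) (al be xc yc : ι → ℝ) (x : Pt) :
    ∑ j : Fin 3, dX j (fun y => WL lvl Kc al be xc yc y j) x = 0 := by
  unfold WL
  apply nodeField_div
  · exact fun κ z => SL_hasDerivAt hL κ z
  · intro κ x
    exact per_hasDerivAt (pfun_contDiff _) (pfun_zero_left _) (pfun_zero_right _) x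
  · intro κ y
    exact per_hasDerivAt (pfun_contDiff _) (pfun_zero_left _) (pfun_zero_right _) y

theorem WL_contDiff (hL : LvlOK halt lvl Kc) (al be xc yc : ι → ℝ) :
    ContDiff ℝ ∞ (WL lvl Kc al be xc yc) := by
  unfold WL
  apply nodeField_contDiff
  · exact fun κ => SL_contDiff hL κ
  · exact fun κ => DSL_contDiff hL κ
  · exact fun κ => per_contDiff (pfun_contDiff _) (pfun_zero_left _) (pfun_zero_right _)
  · exact fun κ => per_contDiff (dpfun_contDiff _) (deriv_zero_left (pfun_zero_left _))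
      (deriv_zero_right (pfun_zero_right _))
  · exact fun κ => per_contDiff (pfun_contDiff _) (pfun_zero_left _) (pfun_zero_right _)
  · exact fun κ => per_contDiff (dpfun_contDiff _) (deriv_zero_left (pfun_zero_left _))
      (deriv_zero_right (pfun_zero_right _))

theorem WL_periodic (lvl : ι → ℝ) (Kc : ℝ) (al be xc yc : ι → ℝ) :
    Periodic3 (WL lvl Kc al be xc yc) := by
  unfold WL
  apply nodeField_periodic
  · exact fun κ x n => per_add_int _ x n
  · exact fun κ x n => per_add_int _ x n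
  · exact fun κ x n => per_add_int _ x n
  · exact fun κ x n => per_add_int _ x n
  · exact fun κ x n => per_add_int _ x n
  · exact fun κ x n => per_add_int _ x n

theorem WL_eval [DecidableEq ι] (hL : LvlOK halt lvl Kc) (al be xc yc : ι → ℝ)
    (κ0 : ι) (p : Pt) (hz : p 2 = lvl κ0) (hx0 : 0 ≤ p 0) (hx1 : p 0 ≤ 1 / 2)
    (hy0 : 0 ≤ p 1) (hy1 : p 1 ≤ 1 / 2) :
    WL lvl Kc al be xc yc p = fun i => if i = 0 then al κ0 * (p 0 - xc κ0)
      else if i = 1 then be κ0 * (p 1 - yc κ0) else 0 := by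
  funext i
  unfold WL nodeField
  have hD : ∀ κ : ι, per (deriv (sraw (lvl κ) Kc)) (p 2) = if κ = κ0 then 1 else 0 := by
    intro κ; rw [hz]; exact DSL_lvl hL κ κ0
  have hS : ∀ κ : ι, per (sraw (lvl κ) Kc) (p 2) = 0 := by
    intro κ; rw [hz]; exact SL_lvl hL κ κ0
  by_cases h0 : i = 0
  · simp only [h0, if_true]
    rw [Finset.sum_eq_single κ0]
    · rw [hD κ0, if_pos rfl, per_of_mem _ (by linarith) (by linarith), pfun_eval _ hx0 hx1]
      ring
    · intro κ _ hκ
      rw [hD κ, if_neg hκ]; ring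
    · intro h; exact absurd (Finset.mem_univ κ0) h
  · by_cases h1 : i = 1
    · simp only [h1, if_true]
      have h10 : ¬ ((1 : Fin 3) = 0) := by decide
      simp only [h10, if_false]
      rw [Finset.sum_eq_single κ0]
      · rw [hD κ0, if_pos rfl, per_of_mem _ (by linarith) (by linarith), pfun_eval _ hy0 hy1]
        ring
      · intro κ _ hκ
        rw [hD κ, if_neg hκ]; ring
      · intro h; exact absurd (Finset.mem_univ κ0) h
    · simp only [h0, h1, if_false]
      rw [neg_eq_zero]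
      apply Finset.sum_eq_zero
      intro κ _
      rw [hS κ, mul_zero]

end

end Vale.Agent.Lib.P113
end

section
open scoped ContDiff

namespace Vale.Agent.Lib.P113

/-! The schedule of fields and the curve for prescribed heights. -/

section
variable {ι : Type} [Fintype ι] {halt : ι → Bool} {lvl : ι → ℝ} {Kc : ℝ}
  (al be xc yc : ι → ℝ) (psiA psiC : ℝ → ℝ → ℝ)

lemma cycWL_contDiff (hL : LvlOK halt lvl Kc)
    (hA : ContDiff ℝ ∞ (fun q : ℝ × ℝ => psiA q.1 q.2))
    (hC : ContDiff ℝ ∞ (fun q : ℝ × ℝ => psiC q.1 q.2)) (j : ℕ) :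
    ContDiff ℝ ∞ (cycWL lvl Kc al be xc yc psiA psiC j) := by
  unfold cycWL
  split_ifs
  · exact zShear_contDiff psiA hA
  · exact WL_contDiff hL al be xc yc
  · exact zShear_contDiff psiC hC

lemma cycWL_periodic (lvl : ι → ℝ) (Kc : ℝ)
    (hAp : ∀ (x y : ℝ) (a b : ℤ), psiA (x + a) (y + b) = psiA x y)
    (hCp : ∀ (x y : ℝ) (a b : ℤ), psiC (x + a) (y + b) = psiC x y) (j : ℕ) :
    Periodic3 (cycWL lvl Kc al be xc yc psiA psiC j) := by
  unfold cycWL
  split_ifs
  · exact zShear_periodic psiA hAp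
  · exact WL_periodic lvl Kc al be xc yc
  · exact zShear_periodic psiC hCp

lemma cycWL_div (hL : LvlOK halt lvl Kc) (j : ℕ) (x : Pt) :
    ∑ i : Fin 3, dX i (fun y => cycWL lvl Kc al be xc yc psiA psiC j y i) x = 0 := by
  unfold cycWL
  split_ifs
  · exact zShear_div psiA x
  · exact WL_div hL al be xc yc x
  · exact zShear_div psiC x

lemma WwL_contDiff (hL : LvlOK halt lvl Kc)
    (hA : ContDiff ℝ ∞ (fun q : ℝ × ℝ => psiA q.1 q.2))
    (hC : ContDiff ℝ ∞ (fun q : ℝ × ℝ => psiC q.1 q.2)) (x0 y0 : ℝ) (k : ℤ) :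
    ContDiff ℝ ∞ (WwL lvl Kc al be xc yc psiA psiC x0 y0 k) := by
  unfold WwL WNL
  split_ifs
  · exact contDiff_const
  · exact contDiff_const
  · exact cycWL_contDiff al be xc yc psiA psiC hL hA hC _

lemma WwL_periodic (lvl : ι → ℝ) (Kc : ℝ)
    (hAp : ∀ (x y : ℝ) (a b : ℤ), psiA (x + a) (y + b) = psiA x y)
    (hCp : ∀ (x y : ℝ) (a b : ℤ), psiC (x + a) (y + b) = psiC x y) (x0 y0 : ℝ) (k : ℤ) :
    Periodic3 (WwL lvl Kc al be xc yc psiA psiC x0 y0 k) := by
  unfold WwL WNL
  split_ifs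
  · intro x n; rfl
  · intro x n; rfl
  · exact cycWL_periodic al be xc yc psiA psiC lvl Kc hAp hCp _

lemma WwL_div (hL : LvlOK halt lvl Kc) (x0 y0 : ℝ) (k : ℤ) (x : Pt) :
    ∑ i : Fin 3, dX i (fun y => WwL lvl Kc al be xc yc psiA psiC x0 y0 k y i) x = 0 := by
  unfold WwL WNL
  split_ifs
  · exact const_div 0 x
  · exact const_div ![x0, y0, 0] x
  · exact cycWL_div al be xc yc psiA psiC hL _ x

/-- The curve during the unit time interval number `m + 1`. -/
noncomputable def stageNL (lvl : ι → ℝ) (al be xc yc : ι → ℝ) (X Y : ℕ → ℝ) (κ : ℕ → ι)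
    (m : ℕ) (σ : ℝ) : Pt :=
  if m % 3 = 0 then ![X (m / 3), Y (m / 3), σ * lvl (κ (m / 3))]
  else if m % 3 = 1 then
    ![xc (κ (m / 3)) + (X (m / 3) - xc (κ (m / 3))) * Real.exp (al (κ (m / 3)) * σ),
      yc (κ (m / 3)) + (Y (m / 3) - yc (κ (m / 3))) * Real.exp (be (κ (m / 3)) * σ),
      lvl (κ (m / 3))]
  else ![X (m / 3 + 1), Y (m / 3 + 1), (1 - σ) * lvl (κ (m / 3))]

/-- The curve during the unit time interval number `k`. -/
noncomputable def posZL (lvl : ι → ℝ) (al be xc yc : ι → ℝ) (X Y : ℕ → ℝ) (κ : ℕ → ι)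
    (k : ℤ) (σ : ℝ) : Pt :=
  if k < 0 then 0 else if k = 0 then σ • ![X 0, Y 0, 0]
  else stageNL lvl al be xc yc X Y κ (k - 1).toNat σ

end

section
variable {ι : Type} [Fintype ι] [DecidableEq ι] {halt : ι → Bool} {lvl : ι → ℝ} {Kc : ℝ}
  (al be xc yc : ι → ℝ) (psiA psiC : ℝ → ℝ → ℝ)

omit [Fintype ι] [DecidableEq ι] in
lemma stageNL_join (X Y : ℕ → ℝ) (κ : ℕ → ι) (hr : IsRunL lvl al be xc yc psiA psiC X Y κ)
    (m : ℕ) : stageNL lvl al be xc yc X Y κ m 1 = stageNL lvl al be xc yc X Y κ (m + 1) 0 := by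
  have h3 : m % 3 = 0 ∨ m % 3 = 1 ∨ m % 3 = 2 := by omega
  rcases h3 with h | h | h
  · have h1 : (m + 1) % 3 = 1 := by omega
    have h2 : (m + 1) / 3 = m / 3 := by omega
    unfold stageNL
    rw [if_pos h, if_neg (by omega), if_pos h1, h2]
    simp
  · have h1 : (m + 1) % 3 = 2 := by omega
    have h2 : (m + 1) / 3 = m / 3 := by omega
    unfold stageNL
    rw [if_neg (by omega), if_pos h, if_neg (by omega), if_neg (by omega), h2,
      hr.x_step (m / 3), hr.y_step (m / 3)]
    simp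
  · have h1 : (m + 1) % 3 = 0 := by omega
    have h2 : (m + 1) / 3 = m / 3 + 1 := by omega
    unfold stageNL
    rw [if_neg (by omega), if_neg (by omega), if_pos h1, h2]
    simp

omit [Fintype ι] [DecidableEq ι] in
lemma posZL_join (X Y : ℕ → ℝ) (κ : ℕ → ι) (hr : IsRunL lvl al be xc yc psiA psiC X Y κ)
    (k : ℤ) : posZL lvl al be xc yc X Y κ k 1 = posZL lvl al be xc yc X Y κ (k + 1) 0 := by
  unfold posZL
  rcases lt_trichotomy k (-1) with hk | hk | hk
  · rw [if_pos (by omega), if_pos (by omega)]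
  · rw [if_pos (by omega), if_neg (by omega), if_pos (by omega)]
    simp
  · rcases eq_or_lt_of_le (show (0 : ℤ) ≤ k by omega) with hk0 | hk0
    · subst hk0
      rw [if_neg (by omega), if_pos rfl, if_neg (by omega), if_neg (by omega)]
      have : ((0 : ℤ) + 1 - 1).toNat = 0 := by simp
      rw [this]
      unfold stageNL
      simp
    · rw [if_neg (by omega), if_neg (by omega), if_neg (by omega), if_neg (by omega)]
      have : (k + 1 - 1).toNat = (k - 1).toNat + 1 := by omega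
      rw [this]
      exact stageNL_join al be xc yc psiA psiC X Y κ hr _

lemma stageNL_flow (hL : LvlOK halt lvl Kc) (X Y : ℕ → ℝ) (κ : ℕ → ι)
    (hr : IsRunL lvl al be xc yc psiA psiC X Y κ)
    (m : ℕ) (σ : ℝ) (h0 : 0 ≤ σ) (h1 : σ ≤ 1) :
    HasDerivAt (stageNL lvl al be xc yc X Y κ m)
      (cycWL lvl Kc al be xc yc psiA psiC (m % 3) (stageNL lvl al be xc yc X Y κ m σ)) σ := by
  have h3 : m % 3 = 0 ∨ m % 3 = 1 ∨ m % 3 = 2 := by omega
  rcases h3 with h | h | h
  · have hfun : stageNL lvl al be xc yc X Y κ m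
        = fun s : ℝ => ![X (m / 3), Y (m / 3), s * lvl (κ (m / 3))] := by
      funext s
      unfold stageNL
      rw [if_pos h]
    have hW : cycWL lvl Kc al be xc yc psiA psiC (m % 3) (stageNL lvl al be xc yc X Y κ m σ)
        = ![0, 0, lvl (κ (m / 3))] := by
      rw [hfun, h]
      unfold cycWL zShear
      rw [if_pos rfl]
      funext i
      fin_cases i <;> simp [hr.src]
    rw [hW, hfun, hasDerivAt_pi]
    intro i
    fin_cases i
    · simpa using hasDerivAt_const σ (X (m / 3))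
    · simpa using hasDerivAt_const σ (Y (m / 3))
    · simpa using (hasDerivAt_id σ).mul_const (lvl (κ (m / 3)))
  · have hfun : stageNL lvl al be xc yc X Y κ m
        = fun s : ℝ =>
          ![xc (κ (m / 3)) + (X (m / 3) - xc (κ (m / 3))) * Real.exp (al (κ (m / 3)) * s),
            yc (κ (m / 3)) + (Y (m / 3) - yc (κ (m / 3))) * Real.exp (be (κ (m / 3)) * s),
            lvl (κ (m / 3))] := by
      funext s
      unfold stageNL
      rw [if_neg (by omega), if_pos h]
    have hx := node_between (xc (κ (m / 3))) (X (m / 3)) (al (κ (m / 3))) σ 0 (1 / 2) h0 h1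
      (hr.x_mem (m / 3)).1 (hr.x_mem (m / 3)).2
      (by rw [← hr.x_step]; exact (hr.x_mem _).1) (by rw [← hr.x_step]; exact (hr.x_mem _).2)
    have hy := node_between (yc (κ (m / 3))) (Y (m / 3)) (be (κ (m / 3))) σ 0 (1 / 2) h0 h1
      (hr.y_mem (m / 3)).1 (hr.y_mem (m / 3)).2
      (by rw [← hr.y_step]; exact (hr.y_mem _).1) (by rw [← hr.y_step]; exact (hr.y_mem _).2)
    have hW : cycWL lvl Kc al be xc yc psiA psiC (m % 3) (stageNL lvl al be xc yc X Y κ m σ)
        = ![al (κ (m / 3)) * ((X (m / 3) - xc (κ (m / 3))) * Real.exp (al (κ (m / 3)) * σ)),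
            be (κ (m / 3)) * ((Y (m / 3) - yc (κ (m / 3))) * Real.exp (be (κ (m / 3)) * σ)),
            0] := by
      rw [hfun, h]
      unfold cycWL
      rw [if_neg (by omega), if_pos rfl]
      rw [WL_eval hL al be xc yc (κ (m / 3)) _ (by simp) (by simpa using hx.1)
        (by simpa using hx.2) (by simpa using hy.1) (by simpa using hy.2)]
      funext i
      fin_cases i <;> simp
    rw [hW, hfun, hasDerivAt_pi]
    intro i
    fin_cases i
    · have hd : HasDerivAt (fun s : ℝ => xc (κ (m / 3))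
          + (X (m / 3) - xc (κ (m / 3))) * Real.exp (al (κ (m / 3)) * s))
          ((X (m / 3) - xc (κ (m / 3))) * (Real.exp (al (κ (m / 3)) * σ) * al (κ (m / 3)))) σ := by
        have he : HasDerivAt (fun s : ℝ => Real.exp (al (κ (m / 3)) * s))
            (Real.exp (al (κ (m / 3)) * σ) * al (κ (m / 3))) σ := by
          have := ((hasDerivAt_id σ).const_mul (al (κ (m / 3)))).exp
          simpa using this
        have := (he.const_mul (X (m / 3) - xc (κ (m / 3)))).const_add (xc (κ (m / 3)))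
        exact this
      have heq : (X (m / 3) - xc (κ (m / 3))) * (Real.exp (al (κ (m / 3)) * σ) * al (κ (m / 3)))
          = al (κ (m / 3)) * ((X (m / 3) - xc (κ (m / 3))) * Real.exp (al (κ (m / 3)) * σ)) := by
        ring
      rw [heq] at hd
      simpa using hd
    · have hd : HasDerivAt (fun s : ℝ => yc (κ (m / 3))
          + (Y (m / 3) - yc (κ (m / 3))) * Real.exp (be (κ (m / 3)) * s))
          ((Y (m / 3) - yc (κ (m / 3))) * (Real.exp (be (κ (m / 3)) * σ) * be (κ (m / 3)))) σ := by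
        have he : HasDerivAt (fun s : ℝ => Real.exp (be (κ (m / 3)) * s))
            (Real.exp (be (κ (m / 3)) * σ) * be (κ (m / 3))) σ := by
          have := ((hasDerivAt_id σ).const_mul (be (κ (m / 3)))).exp
          simpa using this
        have := (he.const_mul (Y (m / 3) - yc (κ (m / 3)))).const_add (yc (κ (m / 3)))
        exact this
      have heq : (Y (m / 3) - yc (κ (m / 3))) * (Real.exp (be (κ (m / 3)) * σ) * be (κ (m / 3)))
          = be (κ (m / 3)) * ((Y (m / 3) - yc (κ (m / 3))) * Real.exp (be (κ (m / 3)) * σ)) := by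
        ring
      rw [heq] at hd
      simpa using hd
    · simpa using hasDerivAt_const σ (lvl (κ (m / 3)))
  · have hfun : stageNL lvl al be xc yc X Y κ m
        = fun s : ℝ => ![X (m / 3 + 1), Y (m / 3 + 1), (1 - s) * lvl (κ (m / 3))] := by
      funext s
      unfold stageNL
      rw [if_neg (by omega), if_neg (by omega)]
    have hW : cycWL lvl Kc al be xc yc psiA psiC (m % 3) (stageNL lvl al be xc yc X Y κ m σ)
        = ![0, 0, - lvl (κ (m / 3))] := by
      rw [hfun, h]
      unfold cycWL zShear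
      rw [if_neg (by omega), if_neg (by omega)]
      funext i
      fin_cases i <;> simp [hr.img]
    rw [hW, hfun, hasDerivAt_pi]
    intro i
    fin_cases i
    · simpa using hasDerivAt_const σ (X (m / 3 + 1))
    · simpa using hasDerivAt_const σ (Y (m / 3 + 1))
    · have hd : HasDerivAt (fun s : ℝ => (1 - s) * lvl (κ (m / 3)))
          ((0 - 1) * lvl (κ (m / 3))) σ :=
        ((hasDerivAt_const σ (1 : ℝ)).sub (hasDerivAt_id σ)).mul_const _
      simpa using hd

lemma posZL_flow (hL : LvlOK halt lvl Kc) (X Y : ℕ → ℝ) (κ : ℕ → ι)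
    (hr : IsRunL lvl al be xc yc psiA psiC X Y κ)
    (k : ℤ) (σ : ℝ) (h0 : 0 ≤ σ) (h1 : σ ≤ 1) :
    HasDerivAt (posZL lvl al be xc yc X Y κ k)
      (WwL lvl Kc al be xc yc psiA psiC (X 0) (Y 0) k (posZL lvl al be xc yc X Y κ k σ)) σ := by
  rcases lt_trichotomy k 0 with hk | hk | hk
  · have hfun : posZL lvl al be xc yc X Y κ k = fun _ : ℝ => (0 : Pt) := by
      funext s
      unfold posZL
      rw [if_pos hk]
    have hW : WwL lvl Kc al be xc yc psiA psiC (X 0) (Y 0) k (posZL lvl al be xc yc X Y κ k σ)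
        = 0 := by
      unfold WwL
      rw [if_pos hk]
    rw [hW, hfun]
    exact hasDerivAt_const σ (0 : Pt)
  · subst hk
    have hfun : posZL lvl al be xc yc X Y κ 0 = fun s : ℝ => s • ![X 0, Y 0, 0] := by
      funext s
      unfold posZL
      rw [if_neg (by omega), if_pos rfl]
    have hW : WwL lvl Kc al be xc yc psiA psiC (X 0) (Y 0) 0 (posZL lvl al be xc yc X Y κ 0 σ)
        = ![X 0, Y 0, 0] := by
      unfold WwL WNL
      rw [if_neg (by omega), if_pos (by simp)]
    rw [hW, hfun]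
    have := (hasDerivAt_id σ).smul_const (![X 0, Y 0, 0] : Pt)
    simpa using this
  · have hfun : posZL lvl al be xc yc X Y κ k
        = stageNL lvl al be xc yc X Y κ (k - 1).toNat := by
      funext s
      unfold posZL
      rw [if_neg (by omega), if_neg (by omega)]
    have hW : WwL lvl Kc al be xc yc psiA psiC (X 0) (Y 0) k
        = cycWL lvl Kc al be xc yc psiA psiC ((k - 1).toNat % 3) := by
      unfold WwL WNL
      rw [if_neg (by omega), if_neg (by omega)]
      have : (k.toNat - 1) % 3 = (k - 1).toNat % 3 := by omega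
      rw [this]
    rw [hW, hfun]
    exact stageNL_flow al be xc yc psiA psiC hL X Y κ hr _ σ h0 h1

omit [Fintype ι] [DecidableEq ι] in
lemma stageNL_z (hL : LvlOK halt lvl Kc) (X Y : ℕ → ℝ) (κ : ℕ → ι) (m : ℕ) (σ : ℝ)
    (h0 : 0 ≤ σ) (h1 : σ ≤ 1) :
    0 ≤ stageNL lvl al be xc yc X Y κ m σ 2
      ∧ stageNL lvl al be xc yc X Y κ m σ 2 ≤ lvl (κ (m / 3)) := by
  have hl := hL.lvl_pos (κ (m / 3))
  unfold stageNL
  split_ifs
  · simp only [Matrix.cons_val_two, Matrix.tail_cons, Matrix.head_cons]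
    constructor <;> nlinarith
  · simp only [Matrix.cons_val_two, Matrix.tail_cons, Matrix.head_cons]
    constructor <;> linarith
  · simp only [Matrix.cons_val_two, Matrix.tail_cons, Matrix.head_cons]
    constructor <;> nlinarith

omit [Fintype ι] [DecidableEq ι] in
lemma posZL_zone (hL : LvlOK halt lvl Kc) (X Y : ℕ → ℝ) (κ : ℕ → ι) (k : ℤ) (σ : ℝ)
    (h0 : 0 ≤ σ) (h1 : σ ≤ 1)
    (hz : posZL lvl al be xc yc X Y κ k σ ∈ haltZone) : ∃ n, halt (κ n) = true := by
  obtain ⟨n, hn1, hn2⟩ := hz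
  have key : ∀ z : ℝ, 0 ≤ z → z ≤ 3 / 8 → 3 / 16 < z - (n : ℝ) → z - (n : ℝ) < 7 / 16 →
      3 / 16 < z := by
    intro z hz0 hz1 g1 g2
    have hn_lt : (n : ℝ) < 1 := by linarith
    have hn_gt : (-1 : ℝ) < (n : ℝ) := by linarith
    have e1 : n < 1 := by exact_mod_cast hn_lt
    have e2 : -1 < n := by exact_mod_cast hn_gt
    have e3 : n = 0 := by omega
    rw [e3] at g1
    simpa using g1
  rcases lt_trichotomy k 0 with hk | hk | hk
  · exfalso
    have hp : posZL lvl al be xc yc X Y κ k σ = 0 := by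
      unfold posZL
      rw [if_pos hk]
    rw [hp] at hn1 hn2
    have := key 0 le_rfl (by norm_num) (by simpa using hn1) (by simpa using hn2)
    linarith
  · exfalso
    have hp : posZL lvl al be xc yc X Y κ k σ 2 = 0 := by
      unfold posZL
      rw [if_neg (by omega), if_pos hk]
      simp
    rw [hp] at hn1 hn2
    have := key 0 le_rfl (by norm_num) hn1 hn2
    linarith
  · have hp : posZL lvl al be xc yc X Y κ k σ
        = stageNL lvl al be xc yc X Y κ (k - 1).toNat σ := by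
      unfold posZL
      rw [if_neg (by omega), if_neg (by omega)]
    rw [hp] at hn1 hn2
    obtain ⟨z0, z1⟩ := stageNL_z al be xc yc hL X Y κ (k - 1).toNat σ h0 h1
    have hle := hL.lvl_le (κ ((k - 1).toNat / 3))
    have hgt := key _ z0 (le_trans z1 hle) hn1 hn2
    refine ⟨(k - 1).toNat / 3, ?_⟩
    by_contra hh
    have hf : halt (κ ((k - 1).toNat / 3)) = false := by simpa using hh
    have := hL.lvl_nonhalt _ hf
    linarith

omit [Fintype ι] [DecidableEq ι] in
lemma posZL_hit (hL : LvlOK halt lvl Kc) (X Y : ℕ → ℝ) (κ : ℕ → ι) (n : ℕ)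
    (hn : halt (κ n) = true) :
    posZL lvl al be xc yc X Y κ (3 * (n : ℤ) + 2) 0 ∈ haltZone := by
  have hp : posZL lvl al be xc yc X Y κ (3 * (n : ℤ) + 2) 0 2 = lvl (κ n) := by
    unfold posZL
    rw [if_neg (by omega), if_neg (by omega)]
    have e : (3 * (n : ℤ) + 2 - 1).toNat = 3 * n + 1 := by omega
    rw [e]
    unfold stageNL
    have e1 : (3 * n + 1) % 3 = 1 := by omega
    have e2 : (3 * n + 1) / 3 = n := by omega
    rw [if_neg (by omega), if_pos e1, e2]
    simp
  refine ⟨0, ?_, ?_⟩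
  · rw [hp]
    have := hL.lvl_halt (κ n) hn
    push_cast
    linarith
  · rw [hp]
    have := hL.lvl_le (κ n)
    push_cast
    linarith

end

end Vale.Agent.Lib.P113
end

section
open scoped ContDiff

namespace Vale.Agent.Lib.P113

/-- The abstract construction with prescribed heights. Same statement as `flow_main`, with the
force and the velocity field given explicitly. -/
theorem flow_mainL (ν : ℝ) {ι : Type} [Fintype ι] [DecidableEq ι] (halt : ι → Bool)
    (lvl : ι → ℝ) (Kc : ℝ) (hL : LvlOK halt lvl Kc)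
    (al be xc yc : ι → ℝ) (psiA psiC : ℝ → ℝ → ℝ)
    (hA : ContDiff ℝ ∞ (fun q : ℝ × ℝ => psiA q.1 q.2))
    (hAp : ∀ (x y : ℝ) (a b : ℤ), psiA (x + a) (y + b) = psiA x y)
    (hC : ContDiff ℝ ∞ (fun q : ℝ × ℝ => psiC q.1 q.2))
    (hCp : ∀ (x y : ℝ) (a b : ℤ), psiC (x + a) (y + b) = psiC x y) :
    ∃ G : ℝ → Pt → Pt, ContDiff ℝ ∞ (fun q : ℝ × Pt => G q.1 q.2) ∧ (∀ t, Periodic3 (G t)) ∧
      (∀ t x, G (t + 3) x = G t x) ∧
      ∀ (X Y : ℕ → ℝ) (κ : ℕ → ι), IsRunL lvl al be xc yc psiA psiC X Y κ →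
        ∃ traj : ℝ → Pt,
          ContDiff ℝ ∞ (fun q : ℝ × Pt =>
            forceOf ν (gluedU (WwL lvl Kc al be xc yc psiA psiC (X 0) (Y 0))) q.1 q.2) ∧
          (∀ t, Periodic3
            (forceOf ν (gluedU (WwL lvl Kc al be xc yc psiA psiC (X 0) (Y 0))) t)) ∧
          (∀ t, 1 ≤ t → ∀ x,
            forceOf ν (gluedU (WwL lvl Kc al be xc yc psiA psiC (X 0) (Y 0))) t x = G t x) ∧
          ContDiff ℝ ∞ (fun q : ℝ × Pt =>
            gluedU (WwL lvl Kc al be xc yc psiA psiC (X 0) (Y 0)) q.1 q.2) ∧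
          (∀ t, Periodic3 (gluedU (WwL lvl Kc al be xc yc psiA psiC (X 0) (Y 0)) t)) ∧
          SolvesNS ν (forceOf ν (gluedU (WwL lvl Kc al be xc yc psiA psiC (X 0) (Y 0))))
            (gluedU (WwL lvl Kc al be xc yc psiA psiC (X 0) (Y 0))) (fun _ _ => 0) ∧
          traj 0 = 0 ∧
          (∀ t, 0 ≤ t →
            HasDerivAt traj (gluedU (WwL lvl Kc al be xc yc psiA psiC (X 0) (Y 0)) t (traj t)) t) ∧
          ((∃ t, 0 ≤ t ∧ traj t ∈ haltZone) ↔ ∃ n, halt (κ n) = true) := by
  have hGs : ∀ k : ℤ, ContDiff ℝ ∞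
      (cycWL lvl Kc al be xc yc psiA psiC ((k - 1) % 3).toNat) :=
    fun k => cycWL_contDiff al be xc yc psiA psiC hL hA hC _
  have hGp : ∀ k : ℤ, Periodic3
      (cycWL lvl Kc al be xc yc psiA psiC ((k - 1) % 3).toNat) :=
    fun k => cycWL_periodic al be xc yc psiA psiC lvl Kc hAp hCp _
  refine ⟨forceOf ν (gluedU (fun k : ℤ =>
    cycWL lvl Kc al be xc yc psiA psiC ((k - 1) % 3).toNat)), ?_, ?_, ?_, ?_⟩
  · exact contDiff_forceOf ν _ (gluedU_contDiff _ hGs)
  · exact periodic_forceOf ν _ (gluedU_periodic _ hGp)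
  · apply force_periodic ν _
    intro k
    have : (k + 3 - 1) % 3 = (k - 1) % 3 := by omega
    show cycWL lvl Kc al be xc yc psiA psiC ((k + 3 - 1) % 3).toNat
      = cycWL lvl Kc al be xc yc psiA psiC ((k - 1) % 3).toNat
    rw [this]
  intro X Y κ hr
  have hWs : ∀ k, ContDiff ℝ ∞ (WwL lvl Kc al be xc yc psiA psiC (X 0) (Y 0) k) :=
    WwL_contDiff al be xc yc psiA psiC hL hA hC (X 0) (Y 0)
  have hWp : ∀ k, Periodic3 (WwL lvl Kc al be xc yc psiA psiC (X 0) (Y 0) k) :=
    WwL_periodic al be xc yc psiA psiC lvl Kc hAp hCp (X 0) (Y 0)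
  have hWd : ∀ k x, ∑ i : Fin 3,
      dX i (fun y => WwL lvl Kc al be xc yc psiA psiC (X 0) (Y 0) k y i) x = 0 :=
    WwL_div al be xc yc psiA psiC hL (X 0) (Y 0)
  refine ⟨fun s : ℝ => posZL lvl al be xc yc X Y κ ⌊s⌋ (ThS (s - ⌊s⌋)),
    ?_, ?_, ?_, ?_, ?_, ?_, ?_, ?_, ?_⟩
  · exact contDiff_forceOf ν _ (gluedU_contDiff _ hWs)
  · exact periodic_forceOf ν _ (gluedU_periodic _ hWp)
  · intro t ht x
    apply force_eq_of_agree ν _ _ _ t ht x
    intro k hk
    unfold WwL WNL
    rw [if_neg (by omega), if_neg (by omega)]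
    have : (k.toNat - 1) % 3 = ((k - 1) % 3).toNat := by omega
    rw [this]
  · exact gluedU_contDiff _ hWs
  · exact gluedU_periodic _ hWp
  · exact gluedU_solves ν _ hWd
  · show posZL lvl al be xc yc X Y κ ⌊(0 : ℝ)⌋ (ThS ((0 : ℝ) - ⌊(0 : ℝ)⌋)) = 0
    rw [Int.floor_zero]
    unfold posZL
    rw [if_neg (by omega), if_pos rfl]
    have : ThS ((0 : ℝ) - ((0 : ℤ) : ℝ)) = 0 := ThS_zero _ (by norm_num)
    rw [this, zero_smul]
  · intro t _
    exact gluedU_traj (posZL lvl al be xc yc X Y κ) _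
      (posZL_join al be xc yc psiA psiC X Y κ hr)
      (posZL_flow al be xc yc psiA psiC hL X Y κ hr) t
  · constructor
    · rintro ⟨t, _, hz⟩
      exact posZL_zone al be xc yc hL X Y κ ⌊t⌋ (ThS (t - ⌊t⌋)) (ThS_range _).1
        (ThS_range _).2 hz
    · rintro ⟨n, hn⟩
      refine ⟨3 * (n : ℝ) + 2, by positivity, ?_⟩
      have hfl : ⌊3 * (n : ℝ) + 2⌋ = 3 * (n : ℤ) + 2 := by
        rw [Int.floor_eq_iff]
        push_cast
        constructor <;> linarith
      show posZL lvl al be xc yc X Y κ ⌊3 * (n : ℝ) + 2⌋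
        (ThS (3 * (n : ℝ) + 2 - ⌊3 * (n : ℝ) + 2⌋)) ∈ haltZone
      rw [hfl]
      have : ThS (3 * (n : ℝ) + 2 - ((3 * (n : ℤ) + 2 : ℤ) : ℝ)) = 0 :=
        ThS_zero _ (by push_cast; linarith)
      rw [this]
      exact posZL_hit al be xc yc hL X Y κ n hn

end Vale.Agent.Lib.P113
end

section
open scoped ContDiff

namespace Vale.Agent.Lib.P113

/-! Index of a rule key -/

lemma stDigit_lt_two (M : Machine) (d : Bool) (q : Fin (M.k + 1)) :
    stDigit M d q + 1 ≤ 2 * (M.k + 1) := by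
  unfold stDigit
  have hq := q.isLt
  split_ifs <;> omega

lemma keyIdx_lt (M : Machine) (κ : Key M) : keyIdx M κ + 1 ≤ M.KN := by
  unfold keyIdx Machine.KN
  have h1 := stDigit_lt_two M κ.1 κ.2.1
  have h2 := symDigit_lt M κ.2.2
  have h3 : (stDigit M κ.1 κ.2.1 + 1) * M.NS ≤ 2 * (M.k + 1) * M.NS :=
    Nat.mul_le_mul_right _ h1
  have h4 : (stDigit M κ.1 κ.2.1 + 1) * M.NS = stDigit M κ.1 κ.2.1 * M.NS + M.NS := by ring
  omega

lemma pair_idx_inj (N a b a' b' : ℕ) (hb : b < N) (hb' : b' < N)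
    (h : a * N + b = a' * N + b') : a = a' ∧ b = b' := by
  have ha : a = a' := by
    rcases Nat.lt_trichotomy a a' with hlt | heq | hgt
    · exfalso
      have h1 : (a + 1) * N ≤ a' * N := Nat.mul_le_mul_right _ hlt
      have h2 : (a + 1) * N = a * N + N := by ring
      omega
    · exact heq
    · exfalso
      have h1 : (a' + 1) * N ≤ a * N := Nat.mul_le_mul_right _ hgt
      have h2 : (a' + 1) * N = a' * N + N := by ring
      omega
  refine ⟨ha, ?_⟩
  rw [ha] at h
  omega

lemma keyIdx_inj (M : Machine) (κ κ' : Key M) (h : keyIdx M κ = keyIdx M κ') : κ = κ' := by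
  unfold keyIdx at h
  obtain ⟨h1, h2⟩ := pair_idx_inj M.NS _ _ _ _ (symDigit_lt M κ.2.2) (symDigit_lt M κ'.2.2) h
  obtain ⟨h3, h4⟩ := stDigit_inj M _ _ _ _ h1
  have h5 := symDigit_inj M _ _ h2
  exact Prod.ext h3 (Prod.ext h4 h5)

lemma KN_one (M : Machine) : (1 : ℝ) ≤ (M.KN : ℝ) := by
  have h : 1 ≤ M.KN := by
    unfold Machine.KN
    have h1 := M.NS_pos
    have h2 : 1 * 1 ≤ 2 * (M.k + 1) * M.NS := Nat.mul_le_mul (by omega) h1
    omega
  exact_mod_cast h

lemma lvlK_base (M : Machine) (κ : Key M) :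
    0 < ((keyIdx M κ : ℝ) + 1) / (8 * (M.KN : ℝ))
    ∧ ((keyIdx M κ : ℝ) + 1) / (8 * (M.KN : ℝ)) ≤ 1 / 8 := by
  have hK := KN_one M
  have hi : (keyIdx M κ : ℝ) + 1 ≤ (M.KN : ℝ) := by
    have h2 := keyIdx_lt M κ
    exact_mod_cast h2
  constructor
  · positivity
  · rw [div_le_iff₀ (by positivity)]
    linarith

lemma lvlK_sep (M : Machine) (b b' : Key M) (hne : b ≠ b') :
    1 ≤ 8 * (M.KN : ℝ) * (lvlK M b - lvlK M b')
      ∨ 8 * (M.KN : ℝ) * (lvlK M b - lvlK M b') ≤ -1 := by
  have hK := KN_one M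
  have hidx : keyIdx M b ≠ keyIdx M b' := fun h => hne (keyIdx_inj M b b' h)
  have hmul : ∀ c : Key M, 8 * (M.KN : ℝ) * (((keyIdx M c : ℝ) + 1)
      / (8 * (M.KN : ℝ))) = (keyIdx M c : ℝ) + 1 := by
    intro c; field_simp
  have hltR : (keyIdx M b : ℝ) + 1 ≤ (M.KN : ℝ) := by exact_mod_cast keyIdx_lt M b
  have hltR' : (keyIdx M b' : ℝ) + 1 ≤ (M.KN : ℝ) := by exact_mod_cast keyIdx_lt M b'
  have h0 : (0 : ℝ) ≤ (keyIdx M b : ℝ) := by positivity
  have h0' : (0 : ℝ) ≤ (keyIdx M b' : ℝ) := by positivity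
  unfold lvlK
  rw [lvlG_sep_aux _ _ _ _ _ _ _ (hmul b) (hmul b')]
  by_cases h1 : haltS M b = true <;> by_cases h2 : haltS M b' = true
  · rw [if_pos h1, if_pos h2]
    rcases Nat.lt_or_gt_of_ne hidx with h | h
    · right
      have h' : (keyIdx M b : ℝ) + 1 ≤ (keyIdx M b' : ℝ) := by exact_mod_cast h
      linarith
    · left
      have h' : (keyIdx M b' : ℝ) + 1 ≤ (keyIdx M b : ℝ) := by exact_mod_cast h
      linarith
  · left
    rw [if_pos h1, if_neg h2]
    linarith
  · right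
    rw [if_neg h1, if_pos h2]
    linarith
  · rw [if_neg h1, if_neg h2]
    rcases Nat.lt_or_gt_of_ne hidx with h | h
    · right
      have h' : (keyIdx M b : ℝ) + 1 ≤ (keyIdx M b' : ℝ) := by exact_mod_cast h
      linarith
    · left
      have h' : (keyIdx M b' : ℝ) + 1 ≤ (keyIdx M b : ℝ) := by exact_mod_cast h
      linarith

theorem lvlK_ok (M : Machine) : LvlOK (haltS M) (lvlK M) (M.KN : ℝ) where
  K_one := KN_one M
  lvl_pos := by
    intro κ
    unfold lvlK
    have := (lvlK_base M κ).1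
    split_ifs <;> linarith
  lvl_le := by
    intro κ
    unfold lvlK
    have := (lvlK_base M κ).2
    split_ifs <;> linarith
  lvl_nonhalt := by
    intro κ h
    unfold lvlK
    have := (lvlK_base M κ).2
    simp only [h, Bool.false_eq_true, if_false]
    linarith
  lvl_halt := by
    intro κ h
    unfold lvlK
    have := (lvlK_base M κ).1
    simp only [h, if_true]
    linarith
  lvl_sep := lvlK_sep M

theorem psiAL_contDiff (M : Machine) : ContDiff ℝ ∞ (fun q : ℝ × ℝ => psiAL M q.1 q.2) := by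
  unfold psiAL
  exact ContDiff.sum (fun κ _ => contDiff_const.mul (srcS_contDiff M κ))

theorem psiCL_contDiff (M : Machine) : ContDiff ℝ ∞ (fun q : ℝ × ℝ => psiCL M q.1 q.2) := by
  unfold psiCL
  exact ContDiff.sum (fun κ _ => contDiff_const.mul (imgS_contDiff M κ))

theorem psiAL_periodic (M : Machine) (x y : ℝ) (a b : ℤ) :
    psiAL M (x + a) (y + b) = psiAL M x y := by
  unfold psiAL
  simp only [srcS_periodic]

theorem psiCL_periodic (M : Machine) (x y : ℝ) (a b : ℤ) :
    psiCL M (x + a) (y + b) = psiCL M x y := by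
  unfold psiCL
  simp only [imgS_periodic]

theorem psiAL_enc (M : Machine) (c : SCfg M) :
    psiAL M (encSX M c) (encSY M c) = lvlK M (keyOf M c) := by
  unfold psiAL
  rw [Finset.sum_eq_single (keyOf M c)]
  · rw [srcS_enc, if_pos rfl, mul_one]
  · intro κ _ hκ
    rw [srcS_enc, if_neg hκ, mul_zero]
  · intro h
    exact absurd (Finset.mem_univ _) h

theorem psiCL_enc (M : Machine) (c : SCfg M) :
    psiCL M (encSX M (stepS M c)) (encSY M (stepS M c)) = - lvlK M (keyOf M c) := by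
  unfold psiCL
  rw [Finset.sum_eq_single (keyOf M c)]
  · rw [imgS_enc, if_pos rfl, mul_one]
  · intro κ _ hκ
    rw [imgS_enc, if_neg hκ, mul_zero]
  · intro h
    exact absurd (Finset.mem_univ _) h

/-- The run of the two-stack system of `M` on the input `w`, in codes. -/
theorem stack_isRunL (M : Machine) (w : List (Fin (M.m + 1))) :
    IsRunL (lvlK M) (alK M) (beK M) (xcK M) (ycK M) (psiAL M) (psiCL M)
      (fun n => encSX M ((stepS M)^[n] (initS M w)))
      (fun n => encSY M ((stepS M)^[n] (initS M w)))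
      (fun n => keyOf M ((stepS M)^[n] (initS M w))) where
  x_mem := fun n => encSX_mem M _
  y_mem := fun n => encSY_mem M _
  x_step := by
    intro n
    show encSX M ((stepS M)^[n + 1] (initS M w)) = _
    unfold xcK alK
    rw [Function.iterate_succ_apply', encSX_step,
      node_end _ _ _ (lamX_pos M _) (muX_of_lamX_one M _)]
  y_step := by
    intro n
    show encSY M ((stepS M)^[n + 1] (initS M w)) = _
    unfold ycK beK
    rw [Function.iterate_succ_apply', encSY_step,
      node_end _ _ _ (lamY_pos M _) (muY_of_lamY_one M _)]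
  src := fun n => psiAL_enc M _
  img := by
    intro n
    show psiCL M (encSX M ((stepS M)^[n + 1] (initS M w)))
      (encSY M ((stepS M)^[n + 1] (initS M w))) = _
    rw [Function.iterate_succ_apply']
    exact psiCL_enc M _

lemma uK_eq (M : Machine) (x0 : ℝ) :
    uK M x0 = gluedU (WwL (lvlK M) (M.KN : ℝ) (alK M) (beK M) (xcK M) (ycK M)
      (psiAL M) (psiCL M) x0 0) := rfl

/-- Halting detection by a particle path, with the force `forceOf ν (uK M (inputCode M w))`
and the velocity field `uK M (inputCode M w)` given explicitly. -/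
theorem main_allL (ν : ℝ) (hν : 0 < ν) (M : Machine) :
    ∃ G : ℝ → Pt → Pt, ContDiff ℝ ∞ (fun q : ℝ × Pt => G q.1 q.2) ∧ (∀ t, Periodic3 (G t)) ∧
      (∀ t x, G (t + 3) x = G t x) ∧
      ∀ w : List (Fin (M.m + 1)), ∃ X : ℝ → Pt,
        ContDiff ℝ ∞ (fun q : ℝ × Pt => forceOf ν (uK M (inputCode M w)) q.1 q.2) ∧
        (∀ t, Periodic3 (forceOf ν (uK M (inputCode M w)) t)) ∧
        (∀ t, 1 ≤ t → ∀ x, forceOf ν (uK M (inputCode M w)) t x = G t x) ∧
        ContDiff ℝ ∞ (fun q : ℝ × Pt => uK M (inputCode M w) q.1 q.2) ∧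
        (∀ t, Periodic3 (uK M (inputCode M w) t)) ∧
        SolvesNS ν (forceOf ν (uK M (inputCode M w))) (uK M (inputCode M w)) (fun _ _ => 0) ∧
        (∀ T : ℝ, 0 < T →
          ClassicalOn ν (forceOf ν (uK M (inputCode M w))) T (uK M (inputCode M w))
            (fun _ _ => 0)) ∧
        (∀ T : ℝ, 0 < T → ∀ (v : ℝ → Pt → Pt) (π : ℝ → Pt → ℝ),
          ClassicalOn ν (forceOf ν (uK M (inputCode M w))) T v π →
            ∀ t ∈ Set.Icc 0 T, ∀ x, v t x = uK M (inputCode M w) t x ∧ π t x = 0) ∧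
        X 0 = 0 ∧ (∀ t, 0 ≤ t → HasDerivAt X (uK M (inputCode M w) t (X t)) t) ∧
        (∀ Y : ℝ → Pt, Y 0 = 0 → (∀ t, 0 ≤ t → HasDerivAt Y (uK M (inputCode M w) t (Y t)) t) →
          ∀ t, 0 ≤ t → Y t = X t) ∧
        ((∃ t, 0 ≤ t ∧ X t ∈ haltZone) ↔ M.HaltsOn w) := by
  classical
  obtain ⟨G, hG1, hG2, hG3, hrun⟩ := flow_mainL ν (haltS M) (lvlK M) (M.KN : ℝ) (lvlK_ok M)
    (alK M) (beK M) (xcK M) (ycK M) (psiAL M) (psiCL M) (psiAL_contDiff M)
    (psiAL_periodic M) (psiCL_contDiff M) (psiCL_periodic M)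
  refine ⟨G, hG1, hG2, hG3, ?_⟩
  intro w
  obtain ⟨X, h1, h2, h3, h4, h5, h6, h7, h8, h9⟩ := hrun _ _ _ (stack_isRunL M w)
  simp only [Function.iterate_zero, id_eq] at h1 h2 h3 h4 h5 h6 h8
  rw [encSX_initS, encSY_initS, ← uK_eq] at h1 h2 h3 h4 h5 h6 h8
  refine ⟨X, h1, h2, h3, h4, h5, h6, ?_, ?_, h7, h8, ?_, ?_⟩
  · intro T hT
    exact classicalOn_of_smooth ν _ _ h4 h5 h6 T hT
  · intro T hT v π hv t ht x
    exact ⟨ns_unique ν hν _ _ h4 h5 h6 T hT v π hv t ht x,
      ns_unique_pressure ν hν _ _ h4 h5 h6 T hT v π hv t ht x⟩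
  · intro Y hY0 hY
    exact traj_unique _ h4 h5 Y X hY h8 (by rw [hY0, h7])
  · rw [h9, haltsOn_iff_stackS]
    rfl

end Vale.Agent.Lib.P113
end
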