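import Vale.Agent.Lib.P113.Defs

namespace Vale.Agent.Lib.P113

/-- Rational numbers are coded by triples of natural numbers: `(a, b, c)` stands for
`(a - b) / (c + 1)`. -/
abbrev QQ : Type := ℕ × ℕ × ℕ

/-- The rational number coded by a triple. -/
noncomputable def QQ.val (q : QQ) : ℝ := ((q.1 : ℝ) - (q.2.1 : ℝ)) / ((q.2.2 : ℝ) + 1)

/-- The point of `ℝ³` with the given rational coordinates. -/
noncomputable def QPt (x : QQ × QQ × QQ) : Pt := ![x.1.val, x.2.1.val, x.2.2.val]

/-- Iterated derivatives of a time-dependent scalar field on `ℝ × ℝ³`. The list gives the
directions of differentiation (`none` for the time direction, `some j` for the `j`-th space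
direction); the last entry of the list is applied first. -/
noncomputable def iterD : List (Option (Fin 3)) → (ℝ → Pt → ℝ) → (ℝ → Pt → ℝ)
  | [], g => g
  | none :: L, g => fun t x => deriv (fun s => iterD L g s x) t
  | some j :: L, g => fun t x => dX j (iterD L g t) x

/-- `c` is a program for the force `f`: on every query, made of a component `i`, a list `L` of
directions of differentiation, a rational time `t`, a rational point `x` and a number `n`, the
program halts and returns (the code of) a rational number within `1 / (n + 1)` of the
corresponding mixed derivative of the `i`-th component of `f` at `(t, x)`. -/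
def ProgramFor (c : Nat.Partrec.Code) (f : ℝ → Pt → Pt) : Prop :=
  ∀ (i : Fin 3) (L : List (Option (Fin 3))) (t : QQ) (x : QQ × QQ × QQ) (n : ℕ),
    ∃ q : QQ, c.eval (Encodable.encode (i, L, t, x, n)) = Part.some (Encodable.encode q) ∧
      |q.val - iterD L (fun s y => f s y i) t.val (QPt x)| ≤ 1 / ((n : ℝ) + 1)

/-- Descriptions of machines: `(k, m, start, halting, table)`. The machine has the states
`0, …, k` and the symbols `0, …, m`; its start state is `start` (reduced modulo `k + 1`); the
state `q` is halting when the entry number `q` of `halting` is `true`; the entry number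
`q * (m + 1) + s` of `table` is the instruction `(new state, written symbol, move)` for the
state `q` and the scanned symbol `s`, the new state and the written symbol being reduced modulo
`k + 1` and `m + 1`. Missing entries are read as `false` and as `(0, 0, false)`. -/
abbrev MDesc : Type := ℕ × ℕ × ℕ × List Bool × List (ℕ × ℕ × Bool)

/-- The instruction of a description for the state `q` and the scanned symbol `s`. -/
def MDesc.entry (d : MDesc) (q s : ℕ) : ℕ × ℕ × Bool :=
  d.2.2.2.2.getD (q * (d.2.1 + 1) + s) (0, 0, false)

/-- The machine given by a description. -/
def MDesc.toMachine (d : MDesc) : Machine where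
  k := d.1
  m := d.2.1
  start := Fin.ofNat (d.1 + 1) d.2.2.1
  halting := fun q => d.2.2.2.1.getD q.val false
  trans := fun q s => (Fin.ofNat (d.1 + 1) (d.entry q.val s.val).1,
    Fin.ofNat (d.2.1 + 1) (d.entry q.val s.val).2.1, (d.entry q.val s.val).2.2)

/-- The input word given by a list of numbers (each reduced modulo the number of symbols). -/
def MDesc.word (d : MDesc) (w : List ℕ) : List (Fin (d.toMachine.m + 1)) :=
  w.map (Fin.ofNat (d.toMachine.m + 1))

end Vale.Agent.Lib.P113
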