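import Vale.Agent.Lib.P113.MachL

open scoped ContDiff

namespace Vale.Agent.Lib.P113

/-- During the first unit of time the force of the machine `M` started with the code `x0` is
constant in space: the derivative of the speed factor times `(x0, 0, 0)`. -/
theorem uK_kick (ν : ℝ) (M : Machine) (x0 : ℝ) (t : ℝ) (ht0 : 0 ≤ t) (ht1 : t ≤ 1) (x : Pt) :
    forceOf ν (uK M x0) t x = deriv thT t • ![x0, 0, 0] := by
  unfold uK
  apply force_kick ν _ ![x0, 0, 0] _ t ht0 ht1 x
  show (if (0 : ℤ) < 0 then (fun _ => (0 : Pt)) else WNK M x0 (0 : ℤ).toNat) = _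
  rw [if_neg (by omega)]
  unfold WNK WNL
  simp

end Vale.Agent.Lib.P113
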