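import Vale.Agent.Lib.P113.Defs

section
open scoped ContDiff

namespace Vale.Agent.Lib.P113

theorem deriv_time_eq_fderiv (F : ℝ × (Fin 3 → ℝ) → ℝ) (t : ℝ) (x : Fin 3 → ℝ)
    (hF : DifferentiableAt ℝ F (t, x)) :
    deriv (fun s : ℝ => F (s, x)) t = fderiv ℝ F (t, x) (1, 0) := by
  have hγ : HasDerivAt (fun s : ℝ => ((s, x) : ℝ × (Fin 3 → ℝ))) ((1, 0) : ℝ × (Fin 3 → ℝ)) t :=
    (hasDerivAt_id t).prodMk (hasDerivAt_const t x)
  exact (hF.hasFDerivAt.comp_hasDerivAt t hγ).deriv

theorem deriv_coord_eq_fderiv (F : ℝ × (Fin 3 → ℝ) → ℝ) (t : ℝ) (x : Fin 3 → ℝ) (j : Fin 3)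
    (hF : DifferentiableAt ℝ F (t, x)) :
    deriv (fun s : ℝ => F (t, Function.update x j s)) (x j)
      = fderiv ℝ F (t, x) (0, Pi.single j 1) := by
  have hγ : HasDerivAt (fun s : ℝ => ((t, Function.update x j s) : ℝ × (Fin 3 → ℝ)))
      ((0, Pi.single j 1) : ℝ × (Fin 3 → ℝ)) (x j) :=
    (hasDerivAt_const (x j) t).prodMk (hasDerivAt_update x j (x j))
  have hF' : HasFDerivAt F (fderiv ℝ F (t, x))
      ((fun s : ℝ => ((t, Function.update x j s) : ℝ × (Fin 3 → ℝ))) (x j)) := by
    show HasFDerivAt F (fderiv ℝ F (t, x)) (t, Function.update x j (x j))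
    rw [Function.update_eq_self]
    exact hF.hasFDerivAt
  exact (hF'.comp_hasDerivAt (x j) hγ).deriv

theorem contDiff_fderiv_apply (F : ℝ × (Fin 3 → ℝ) → ℝ) (hF : ContDiff ℝ ∞ F)
    (v : ℝ × (Fin 3 → ℝ)) :
    ContDiff ℝ ∞ (fun p : ℝ × (Fin 3 → ℝ) => fderiv ℝ F p v) :=
  (hF.fderiv_right (m := ∞) (by simp)).clm_apply contDiff_const

theorem contDiff_deriv_time (F : ℝ × (Fin 3 → ℝ) → ℝ) (hF : ContDiff ℝ ∞ F) :
    ContDiff ℝ ∞ (fun p : ℝ × (Fin 3 → ℝ) => deriv (fun s : ℝ => F (s, p.2)) p.1) := by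
  have hd : Differentiable ℝ F := hF.differentiable (by simp)
  have h : (fun p : ℝ × (Fin 3 → ℝ) => deriv (fun s : ℝ => F (s, p.2)) p.1)
      = fun p : ℝ × (Fin 3 → ℝ) => fderiv ℝ F p (1, 0) := by
    funext p
    exact deriv_time_eq_fderiv F p.1 p.2 (hd _)
  rw [h]
  exact contDiff_fderiv_apply F hF _

theorem contDiff_deriv_coord (F : ℝ × (Fin 3 → ℝ) → ℝ) (hF : ContDiff ℝ ∞ F) (j : Fin 3) :
    ContDiff ℝ ∞ (fun p : ℝ × (Fin 3 → ℝ) =>
      deriv (fun s : ℝ => F (p.1, Function.update p.2 j s)) (p.2 j)) := by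
  have hd : Differentiable ℝ F := hF.differentiable (by simp)
  have h : (fun p : ℝ × (Fin 3 → ℝ) =>
      deriv (fun s : ℝ => F (p.1, Function.update p.2 j s)) (p.2 j))
      = fun p : ℝ × (Fin 3 → ℝ) => fderiv ℝ F p (0, Pi.single j 1) := by
    funext p
    exact deriv_coord_eq_fderiv F p.1 p.2 j (hd _)
  rw [h]
  exact contDiff_fderiv_apply F hF _

end Vale.Agent.Lib.P113
end

section
open scoped ContDiff

namespace Vale.Agent.Lib.P113

theorem contDiff_glue {E F : Type*} [NormedAddCommGroup E] [NormedSpace ℝ E]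
    [NormedAddCommGroup F] [NormedSpace ℝ F]
    (θ : ℝ → ℝ) (hθ : ContDiff ℝ ∞ θ) (hθ0 : ∀ (t : ℝ) (n : ℤ), |t - n| ≤ 1/8 → θ t = 0)
    (W : ℤ → E → F) (hW : ∀ k, ContDiff ℝ ∞ (W k)) :
    ContDiff ℝ ∞ (fun p : ℝ × E => θ p.1 • W ⌊p.1⌋ p.2) := by
  rw [contDiff_iff_contDiffAt]
  rintro ⟨t0, x0⟩
  by_cases h : ∃ n : ℤ, t0 = n
  · obtain ⟨n, rfl⟩ := h
    have hopen : IsOpen {p : ℝ × E | |p.1 - (n : ℝ)| < 1/8} :=
      isOpen_lt (continuous_abs.comp (continuous_fst.sub continuous_const)) continuous_const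
    have hmem : (((n : ℝ), x0) : ℝ × E) ∈ {p : ℝ × E | |p.1 - (n : ℝ)| < 1/8} := by
      simp
    have hev : (fun p : ℝ × E => θ p.1 • W ⌊p.1⌋ p.2) =ᶠ[nhds ((n : ℝ), x0)]
        fun _ => (0 : F) := by
      filter_upwards [hopen.mem_nhds hmem] with p hp
      have hp' : |p.1 - (n : ℝ)| < 1/8 := hp
      simp [hθ0 p.1 n hp'.le]
    exact contDiffAt_const.congr_of_eventuallyEq hev
  · have h1 : (⌊t0⌋ : ℝ) < t0 :=
      lt_of_le_of_ne (Int.floor_le t0) (fun h' => h ⟨⌊t0⌋, h'.symm⟩)
    have h2 : t0 < ⌊t0⌋ + 1 := Int.lt_floor_add_one t0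
    have hopen : IsOpen {p : ℝ × E | p.1 ∈ Set.Ioo (⌊t0⌋ : ℝ) (⌊t0⌋ + 1)} :=
      isOpen_Ioo.preimage continuous_fst
    have hmem : ((t0, x0) : ℝ × E) ∈ {p : ℝ × E | p.1 ∈ Set.Ioo (⌊t0⌋ : ℝ) (⌊t0⌋ + 1)} :=
      ⟨h1, h2⟩
    have hev : (fun p : ℝ × E => θ p.1 • W ⌊p.1⌋ p.2) =ᶠ[nhds (t0, x0)]
        fun p => θ p.1 • W ⌊t0⌋ p.2 := by
      filter_upwards [hopen.mem_nhds hmem] with p hp
      have hp' : p.1 ∈ Set.Ioo (⌊t0⌋ : ℝ) (⌊t0⌋ + 1) := hp
      have hfl : ⌊p.1⌋ = ⌊t0⌋ := Int.floor_eq_iff.mpr ⟨hp'.1.le, hp'.2⟩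
      simp [hfl]
    refine ContDiffAt.congr_of_eventuallyEq ?_ hev
    exact ((hθ.comp contDiff_fst).smul ((hW _).comp contDiff_snd)).contDiffAt

theorem eventuallyEq_comp_rep {h : ℝ → ℝ} (h0 : ∀ y, y ≤ -1/8 → h y = 0)
    (h1 : ∀ y, 5/8 ≤ y → h y = 0) (x0 : ℝ) :
    (fun x : ℝ => h (x - ⌊x + 1/4⌋)) =ᶠ[nhds x0] fun x : ℝ => h (x - ⌊x0 + 1/4⌋) := by
  have hle : ((⌊x0 + 1/4⌋ : ℤ) : ℝ) ≤ x0 + 1/4 := Int.floor_le _
  have hlt : x0 + 1/4 < ((⌊x0 + 1/4⌋ : ℤ) : ℝ) + 1 := Int.lt_floor_add_one _
  rcases hle.lt_or_eq with hn | hn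
  · have hmem : x0 ∈ Set.Ioo (((⌊x0 + 1/4⌋ : ℤ) : ℝ) - 1/4) (((⌊x0 + 1/4⌋ : ℤ) : ℝ) + 3/4) := by
      constructor <;> linarith
    filter_upwards [isOpen_Ioo.mem_nhds hmem] with x hx
    have hfl : ⌊x + 1/4⌋ = ⌊x0 + 1/4⌋ := by
      rw [Int.floor_eq_iff]
      constructor <;> linarith [hx.1, hx.2]
    show h (x - ⌊x + 1/4⌋) = h (x - ⌊x0 + 1/4⌋)
    rw [hfl]
  · have hmem : x0 ∈ Set.Ioo (x0 - 1/8) (x0 + 1/8) := by
      constructor <;> linarith
    filter_upwards [isOpen_Ioo.mem_nhds hmem] with x hx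
    show h (x - ⌊x + 1/4⌋) = h (x - ⌊x0 + 1/4⌋)
    by_cases hx0 : x0 ≤ x
    · have hfl : ⌊x + 1/4⌋ = ⌊x0 + 1/4⌋ := by
        rw [Int.floor_eq_iff]
        constructor <;> linarith [hx.1, hx.2]
      rw [hfl]
    · have hx0' : x < x0 := lt_of_not_ge hx0
      have hfl : ⌊x + 1/4⌋ = ⌊x0 + 1/4⌋ - 1 := by
        rw [Int.floor_eq_iff]
        push_cast
        constructor <;> linarith [hx.1, hx.2]
      rw [hfl, h1, h0]
      · linarith
      · push_cast
        linarith [hx.1, hx.2]

theorem contDiff_comp_rep {h : ℝ → ℝ} (hh : ContDiff ℝ ∞ h) (h0 : ∀ y, y ≤ -1/8 → h y = 0)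
    (h1 : ∀ y, 5/8 ≤ y → h y = 0) :
    ContDiff ℝ ∞ (fun x : ℝ => h (x - ⌊x + 1/4⌋)) := by
  rw [contDiff_iff_contDiffAt]
  intro x0
  refine ContDiffAt.congr_of_eventuallyEq ?_ (eventuallyEq_comp_rep h0 h1 x0)
  exact (hh.comp (contDiff_id.sub contDiff_const)).contDiffAt

theorem hasDerivAt_comp_rep {h : ℝ → ℝ} (hh : ContDiff ℝ ∞ h) (h0 : ∀ y, y ≤ -1/8 → h y = 0)
    (h1 : ∀ y, 5/8 ≤ y → h y = 0) (x : ℝ) :
    HasDerivAt (fun x : ℝ => h (x - ⌊x + 1/4⌋)) (deriv h (x - ⌊x + 1/4⌋)) x := by
  have hd : DifferentiableAt ℝ h (x - ⌊x + 1/4⌋) :=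
    (hh.differentiable (by simp)).differentiableAt
  have h2 : HasDerivAt (fun y : ℝ => h (y - ⌊x + 1/4⌋)) (deriv h (x - ⌊x + 1/4⌋)) x := by
    have h3 : HasDerivAt (fun y : ℝ => y - ((⌊x + 1/4⌋ : ℤ) : ℝ)) 1 x :=
      (hasDerivAt_id x).sub_const _
    have h4 := hd.hasDerivAt.comp x h3
    rw [mul_one] at h4
    exact h4
  exact h2.congr_of_eventuallyEq (eventuallyEq_comp_rep h0 h1 x)

end Vale.Agent.Lib.P113
end

section
namespace Vale.Agent.Lib.P113

open Filter Topology

/-- Gluing of flow pieces `pos k` along a time profile `Θ` that is constant near the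
integer times: the glued curve is differentiable everywhere with the expected derivative. -/
theorem traj_glue {E : Type*} [NormedAddCommGroup E] [NormedSpace ℝ E]
    (Θ dΘ : ℝ → ℝ) (hΘ : ∀ τ, HasDerivAt Θ (dΘ τ) τ)
    (hΘ0 : ∀ τ, τ ≤ 1/4 → Θ τ = 0) (hΘ1 : ∀ τ, 3/4 ≤ τ → Θ τ = 1)
    (hΘr : ∀ τ, 0 ≤ Θ τ ∧ Θ τ ≤ 1)
    (pos : ℤ → ℝ → E) (W : ℤ → E → E)
    (hjoin : ∀ k : ℤ, pos k 1 = pos (k + 1) 0)
    (hflow : ∀ (k : ℤ) (σ : ℝ), 0 ≤ σ → σ ≤ 1 → HasDerivAt (pos k) (W k (pos k σ)) σ) :
    ∀ t : ℝ, HasDerivAt (fun s : ℝ => pos ⌊s⌋ (Θ (s - ⌊s⌋)))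
      (dΘ (t - ⌊t⌋) • W ⌊t⌋ (pos ⌊t⌋ (Θ (t - ⌊t⌋)))) t := by
  intro t
  obtain ⟨k, hk⟩ : ∃ k : ℤ, k = ⌊t⌋ := ⟨_, rfl⟩
  rw [← hk]
  have hkt : (k : ℝ) ≤ t := by rw [hk]; exact Int.floor_le t
  have htk : t < k + 1 := by rw [hk]; exact Int.lt_floor_add_one t
  rcases eq_or_lt_of_le hkt with heq | hlt
  · -- integer time: the glued curve is locally constant
    have hd0 : dΘ 0 = 0 := by
      have h1 : HasDerivAt Θ 0 0 := by
        refine (hasDerivAt_const (0 : ℝ) (0 : ℝ)).congr_of_eventuallyEq ?_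
        filter_upwards [Iio_mem_nhds (show (0 : ℝ) < 1/4 by norm_num)] with τ hτ
        exact hΘ0 τ (le_of_lt hτ)
      exact (hΘ 0).unique h1
    have htk' : t - (k : ℝ) = 0 := by rw [← heq]; ring
    rw [htk', hd0, zero_smul]
    refine (hasDerivAt_const t (pos k 0)).congr_of_eventuallyEq ?_
    have hmem : Set.Ioo (t - 1/4) (t + 1/4) ∈ 𝓝 t :=
      Ioo_mem_nhds (by linarith) (by linarith)
    filter_upwards [hmem] with s hs
    rcases lt_or_ge s t with hst | hst
    · have hfl : ⌊s⌋ = k - 1 := by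
        rw [Int.floor_eq_iff]
        constructor
        · push_cast; linarith [hs.1]
        · push_cast; linarith
      show pos ⌊s⌋ (Θ (s - ⌊s⌋)) = pos k 0
      rw [hfl]
      have h1 : Θ (s - ((k - 1 : ℤ) : ℝ)) = 1 := by
        apply hΘ1
        push_cast
        linarith [hs.1]
      rw [h1, hjoin (k - 1)]
      simp
    · have hfl : ⌊s⌋ = k := by
        rw [Int.floor_eq_iff]
        constructor
        · linarith
        · linarith [hs.2]
      show pos ⌊s⌋ (Θ (s - ⌊s⌋)) = pos k 0
      rw [hfl]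
      have h0 : Θ (s - (k : ℝ)) = 0 := by
        apply hΘ0
        linarith [hs.2]
      rw [h0]
  · -- non-integer time: chain rule on the open unit interval around `t`
    have h1 : HasDerivAt (fun s : ℝ => Θ (s - (k : ℝ))) (dΘ (t - k)) t := by
      have h := (hΘ (t - k)).comp t ((hasDerivAt_id t).sub_const (k : ℝ))
      rw [mul_one] at h
      exact h
    have h2 : HasDerivAt (pos k) (W k (pos k (Θ (t - k)))) (Θ (t - k)) :=
      hflow k _ (hΘr _).1 (hΘr _).2
    have h3 : HasDerivAt (fun s : ℝ => pos k (Θ (s - (k : ℝ))))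
        (dΘ (t - k) • W k (pos k (Θ (t - k)))) t :=
      HasDerivAt.scomp t h2 h1
    refine h3.congr_of_eventuallyEq ?_
    filter_upwards [Ioo_mem_nhds hlt htk] with s hs
    have hfl : ⌊s⌋ = k := by
      rw [Int.floor_eq_iff]
      exact ⟨le_of_lt hs.1, hs.2⟩
    show pos ⌊s⌋ (Θ (s - ⌊s⌋)) = pos k (Θ (s - (k : ℝ)))
    rw [hfl]

/-- The glued curve starts at `pos 0 0`. -/
theorem traj_glue_zero {E : Type*} (Θ : ℝ → ℝ) (hΘ0 : ∀ τ, τ ≤ 1/4 → Θ τ = 0)
    (pos : ℤ → ℝ → E) : (fun s : ℝ => pos ⌊s⌋ (Θ (s - ⌊s⌋))) 0 = pos 0 0 := by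
  show pos ⌊(0 : ℝ)⌋ (Θ ((0 : ℝ) - ⌊(0 : ℝ)⌋)) = pos 0 0
  rw [Int.floor_zero]
  have : Θ ((0 : ℝ) - ((0 : ℤ) : ℝ)) = 0 := hΘ0 _ (by norm_num)
  rw [this]

end Vale.Agent.Lib.P113
end

section
open scoped ContDiff NNReal

namespace Vale.Agent.Lib.P113

/-- A smooth field that is periodic in space has a space-time derivative that is bounded on
every time slab `[0, T] × ℝ³`. -/
theorem exists_bound_fderiv_of_periodic (G : ℝ × (Fin 3 → ℝ) → (Fin 3 → ℝ))
    (hG : ContDiff ℝ ∞ G)
    (hper : ∀ (t : ℝ) (x : Fin 3 → ℝ) (n : Fin 3 → ℤ), G (t, fun i => x i + n i) = G (t, x))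
    (T : ℝ) :
    ∃ C : ℝ, 0 ≤ C ∧ ∀ (t : ℝ) (x : Fin 3 → ℝ), t ∈ Set.Icc 0 T → ‖fderiv ℝ G (t, x)‖ ≤ C := by
  have hcont : Continuous (fun p : ℝ × (Fin 3 → ℝ) => fderiv ℝ G p) :=
    hG.continuous_fderiv (by simp)
  have hcomp : IsCompact (Set.Icc (0 : ℝ) T ×ˢ Set.Icc (0 : Fin 3 → ℝ) 1) :=
    isCompact_Icc.prod isCompact_Icc
  obtain ⟨C, hC⟩ := hcomp.exists_bound_of_continuousOn hcont.continuousOn
  refine ⟨max C 0, le_max_right _ _, ?_⟩
  intro t x ht
  have hshift : ∀ (n : Fin 3 → ℤ) (p : ℝ × (Fin 3 → ℝ)),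
      fderiv ℝ G (p + (0, fun i => (n i : ℝ))) = fderiv ℝ G p := by
    intro n p
    rw [← fderiv_comp_add_right]
    congr 1
    funext q
    have := hper q.1 q.2 n
    rw [← this]
    congr 1
    ext <;> simp
  set n : Fin 3 → ℤ := fun i => ⌊x i⌋ with hn
  set x' : Fin 3 → ℝ := fun i => x i - ⌊x i⌋ with hx'
  have hx'mem : x' ∈ Set.Icc (0 : Fin 3 → ℝ) 1 := by
    constructor
    · intro i
      simp only [hx', Pi.zero_apply]
      linarith [Int.floor_le (x i)]
    · intro i
      simp only [hx', Pi.one_apply]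
      linarith [Int.lt_floor_add_one (x i)]
  have hdecomp : ((t, x) : ℝ × (Fin 3 → ℝ)) = (t, x') + (0, fun i => (n i : ℝ)) := by
    ext
    · simp
    · simp [hx', hn]
  rw [hdecomp, hshift]
  exact (hC (t, x') ⟨ht, hx'mem⟩).trans (le_max_left _ _)

theorem traj_unique (v : ℝ → (Fin 3 → ℝ) → (Fin 3 → ℝ))
    (hv : ContDiff ℝ ∞ (fun p : ℝ × (Fin 3 → ℝ) => v p.1 p.2))
    (hper : ∀ (t : ℝ) (x : Fin 3 → ℝ) (n : Fin 3 → ℤ), v t (fun i => x i + n i) = v t x)
    (X Y : ℝ → (Fin 3 → ℝ))
    (hX : ∀ t, 0 ≤ t → HasDerivAt X (v t (X t)) t) (hY : ∀ t, 0 ≤ t → HasDerivAt Y (v t (Y t)) t)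
    (h0 : X 0 = Y 0) : ∀ t, 0 ≤ t → X t = Y t := by
  intro T hT
  obtain ⟨C, hC0, hC⟩ := exists_bound_fderiv_of_periodic
    (fun p : ℝ × (Fin 3 → ℝ) => v p.1 p.2) hv (fun t x n => hper t x n) T
  have hdiff : Differentiable ℝ (fun p : ℝ × (Fin 3 → ℝ) => v p.1 p.2) :=
    hv.differentiable (by simp)
  have hconv : Convex ℝ (Set.Icc (0 : ℝ) T ×ˢ (Set.univ : Set (Fin 3 → ℝ))) :=
    (convex_Icc 0 T).prod convex_univ
  have hlip : ∀ t ∈ Set.Ico (0 : ℝ) T,
      LipschitzOnWith (Real.toNNReal C) (v t) (Set.univ : Set (Fin 3 → ℝ)) := by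
    intro t ht
    rw [lipschitzOnWith_univ]
    apply LipschitzWith.of_dist_le_mul
    intro x y
    have hmem : ∀ z : Fin 3 → ℝ, ((t, z) : ℝ × (Fin 3 → ℝ)) ∈
        Set.Icc (0 : ℝ) T ×ˢ (Set.univ : Set (Fin 3 → ℝ)) :=
      fun z => ⟨⟨ht.1, ht.2.le⟩, trivial⟩
    have key := hconv.norm_image_sub_le_of_norm_fderiv_le (𝕜 := ℝ)
      (f := fun p : ℝ × (Fin 3 → ℝ) => v p.1 p.2)
      (fun p _ => hdiff p) (fun p hp => hC p.1 p.2 hp.1) (hmem y) (hmem x)
    rw [dist_eq_norm, dist_eq_norm, Real.coe_toNNReal C hC0]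
    have hnorm : ‖((t, x) : ℝ × (Fin 3 → ℝ)) - (t, y)‖ = ‖x - y‖ := by
      rw [Prod.mk_sub_mk, sub_self, Prod.norm_def]
      simp
    rw [← hnorm]
    exact key
  have hXc : ContinuousOn X (Set.Icc 0 T) :=
    fun t ht => (hX t ht.1).continuousAt.continuousWithinAt
  have hYc : ContinuousOn Y (Set.Icc 0 T) :=
    fun t ht => (hY t ht.1).continuousAt.continuousWithinAt
  have := ODE_solution_unique_of_mem_Icc_right (v := v) (s := fun _ => Set.univ) hlip hXc
    (fun t ht => (hX t ht.1).hasDerivWithinAt) (fun _ _ => trivial) hYc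
    (fun t ht => (hY t ht.1).hasDerivWithinAt) (fun _ _ => trivial) h0
  exact this ⟨hT, le_rfl⟩

end Vale.Agent.Lib.P113
end

section
open scoped ContDiff
open MeasureTheory

namespace Vale.Agent.Lib.P113

namespace NSU

/-! ### Calculus of the coordinate derivative `dX` -/

theorem diffAt_line {g : Pt → ℝ} {x : Pt} (j : Fin 3) (hg : DifferentiableAt ℝ g x) :
    DifferentiableAt ℝ (fun s : ℝ => g (Function.update x j s)) (x j) := by
  have h1 : HasDerivAt (fun s : ℝ => Function.update x j s) (Pi.single j 1) (x j) :=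
    hasDerivAt_update x j (x j)
  have h2 : DifferentiableAt ℝ g (Function.update x j (x j)) := by
    rw [Function.update_eq_self]; exact hg
  exact DifferentiableAt.comp (x j) h2 h1.differentiableAt

theorem dX_eq_fderiv {g : Pt → ℝ} {x : Pt} (j : Fin 3) (hg : DifferentiableAt ℝ g x) :
    dX j g x = fderiv ℝ g x (Pi.single j 1) := by
  unfold dX
  have h1 : HasDerivAt (fun s : ℝ => Function.update x j s) (Pi.single j 1) (x j) :=
    hasDerivAt_update x j (x j)
  have h2 : HasFDerivAt g (fderiv ℝ g x) (Function.update x j (x j)) := by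
    rw [Function.update_eq_self]; exact hg.hasFDerivAt
  exact (h2.comp_hasDerivAt (x j) h1).deriv

theorem dX_add {g h : Pt → ℝ} {x : Pt} (j : Fin 3) (hg : DifferentiableAt ℝ g x)
    (hh : DifferentiableAt ℝ h x) :
    dX j (fun y => g y + h y) x = dX j g x + dX j h x := by
  unfold dX
  exact deriv_add (diffAt_line j hg) (diffAt_line j hh)

theorem dX_sub {g h : Pt → ℝ} {x : Pt} (j : Fin 3) (hg : DifferentiableAt ℝ g x)
    (hh : DifferentiableAt ℝ h x) :
    dX j (fun y => g y - h y) x = dX j g x - dX j h x := by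
  unfold dX
  exact deriv_sub (diffAt_line j hg) (diffAt_line j hh)

theorem dX_mul {g h : Pt → ℝ} {x : Pt} (j : Fin 3) (hg : DifferentiableAt ℝ g x)
    (hh : DifferentiableAt ℝ h x) :
    dX j (fun y => g y * h y) x = dX j g x * h x + g x * dX j h x := by
  unfold dX
  have := deriv_mul (diffAt_line j hg) (diffAt_line j hh)
  simp only [Function.update_eq_self] at this
  exact this

theorem dX_fun_eq_fderiv {g : Pt → ℝ} (j : Fin 3) (hg : ContDiff ℝ 1 g) :
    dX j g = fun x => fderiv ℝ g x (Pi.single j 1) := by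
  funext x
  exact dX_eq_fderiv j ((hg.differentiable (by norm_num)).differentiableAt)

theorem continuous_dX {g : Pt → ℝ} (j : Fin 3) (hg : ContDiff ℝ 1 g) : Continuous (dX j g) := by
  rw [dX_fun_eq_fderiv j hg]
  exact (hg.continuous_fderiv (by norm_num)).clm_apply continuous_const

theorem contDiff_dX {g : Pt → ℝ} (j : Fin 3) (hg : ContDiff ℝ 2 g) : ContDiff ℝ 1 (dX j g) := by
  rw [dX_fun_eq_fderiv j (hg.of_le (by norm_num))]
  exact (hg.fderiv_right (m := 1) (by norm_num)).clm_apply contDiff_const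

/-! ### Integration by parts on the unit cube for periodic functions -/

theorem periodic_insertNth {g : Pt → ℝ} (hper : Periodic3 g) (j : Fin 3) (x : Fin 2 → ℝ) :
    g (Fin.insertNth j (1 : ℝ) x) = g (Fin.insertNth j (0 : ℝ) x) := by
  have h := hper (Fin.insertNth j (0 : ℝ) x) (Pi.single j 1)
  rw [← h]
  congr 1
  funext k
  rcases Fin.eq_self_or_eq_succAbove j k with rfl | ⟨m, rfl⟩
  · simp
  · simp [Fin.succAbove_ne]

theorem integral_dX_eq_zero {g : Pt → ℝ} (j : Fin 3) (hg : ContDiff ℝ 1 g) (hper : Periodic3 g) :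
    ∫ x in Set.Icc (0 : Pt) 1, dX j g x = 0 := by
  have hd : Differentiable ℝ g := hg.differentiable (by norm_num)
  have hcd : Continuous (dX j g) := continuous_dX j hg
  have h1 : (fun x => ∑ i, ((if i = j then (1 : ℝ) else 0) • fderiv ℝ g x) (Pi.single i 1))
      = dX j g := by
    rw [dX_fun_eq_fderiv j hg]
    funext x
    rw [Finset.sum_eq_single j]
    · simp
    · intro b _ hb; simp [hb]
    · intro h; exact absurd (Finset.mem_univ j) h
  have key := integral_divergence_of_hasFDerivAt_off_countable' (n := 2) (E := ℝ)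
    (0 : Fin 3 → ℝ) 1 (by intro i; simp)
    (fun i x => (if i = j then (1 : ℝ) else 0) * g x)
    (fun i x => (if i = j then (1 : ℝ) else 0) • fderiv ℝ g x) ∅ Set.countable_empty
    (fun i => (continuous_const.mul hg.continuous).continuousOn)
    (fun x _ i => by
      by_cases h : i = j
      · simpa [h] using (hd x).hasFDerivAt
      · simpa [h] using hasFDerivAt_const (0 : ℝ) x)
    (by
      rw [h1]
      exact hcd.continuousOn.integrableOn_compact isCompact_Icc)
  rw [h1] at key
  rw [key]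
  apply Finset.sum_eq_zero
  intro i _
  by_cases hij : i = j
  · subst hij
    simp only [if_true, one_mul, Pi.one_apply, Pi.zero_apply]
    rw [sub_eq_zero]
    congr 1
    funext x
    exact periodic_insertNth hper i x
  · simp [hij]

theorem periodic_dX {g : Pt → ℝ} (hper : Periodic3 g) (j : Fin 3) : Periodic3 (dX j g) := by
  intro x n
  unfold dX
  have h : (fun s : ℝ => g (Function.update (fun i => x i + n i) j s))
      = fun s : ℝ => (fun r : ℝ => g (Function.update x j r)) (s - n j) := by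
    funext s
    show _ = g (Function.update x j (s - n j))
    rw [← hper (Function.update x j (s - n j)) n]
    congr 1
    funext k
    by_cases hk : k = j
    · subst hk; simp
    · simp [Function.update_of_ne hk]
  rw [h]
  have h2 := deriv_comp_sub_const (f := fun r : ℝ => g (Function.update x j r))
    (a := (n j : ℝ)) (x := x j + n j)
  simp only [add_sub_cancel_right] at h2
  exact h2

/-! ### The energy inequality at a fixed time -/

theorem energy_ineq (ν : ℝ) (hν : 0 ≤ ν) (C : ℝ)
    (V W U D : Fin 3 → Pt → ℝ) (P : Pt → ℝ)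
    (hV : ∀ i, ContDiff ℝ 1 (V i)) (hW : ∀ i, ContDiff ℝ 2 (W i)) (hU : ∀ i, ContDiff ℝ 1 (U i))
    (hP : ContDiff ℝ 1 P)
    (hVp : ∀ i, Periodic3 (V i)) (hWp : ∀ i, Periodic3 (W i)) (hPp : Periodic3 P)
    (hVdiv : ∀ x, ∑ j, dX j (V j) x = 0) (hWdiv : ∀ x, ∑ j, dX j (W j) x = 0)
    (heq : ∀ x i, D i x = - ∑ j, V j x * dX j (W i) x - ∑ j, W j x * dX j (U i) x
        - dX i P x + ν * ∑ j, dX j (dX j (W i)) x)
    (hC : ∀ x ∈ Set.Icc (0 : Pt) 1, ∀ i j, |dX j (U i) x| ≤ C) :
    ∫ x in Set.Icc (0 : Pt) 1, ∑ i, W i x * D i x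
      ≤ 3 * C * ∫ x in Set.Icc (0 : Pt) 1, ∑ i, (W i x) ^ 2 := by
  have hVd : ∀ i x, DifferentiableAt ℝ (V i) x :=
    fun i x => ((hV i).differentiable (by norm_num)) x
  have hWd : ∀ i x, DifferentiableAt ℝ (W i) x :=
    fun i x => ((hW i).differentiable (by norm_num)) x
  have hPd : ∀ x, DifferentiableAt ℝ P x := fun x => (hP.differentiable (by norm_num)) x
  have hdW1 : ∀ i j, ContDiff ℝ 1 (dX j (W i)) := fun i j => contDiff_dX j (hW i)
  have hdWd : ∀ i j x, DifferentiableAt ℝ (dX j (W i)) x :=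
    fun i j x => ((hdW1 i j).differentiable (by norm_num)) x
  have hW1 : ∀ i, ContDiff ℝ 1 (W i) := fun i => (hW i).of_le (by norm_num)
  -- three families of periodic C^1 functions
  have hG1 : ∀ i j, ContDiff ℝ 1 (fun y => V j y * (W i y * W i y)) :=
    fun i j => (hV j).mul ((hW1 i).mul (hW1 i))
  have hH1 : ∀ i, ContDiff ℝ 1 (fun y => P y * W i y) := fun i => hP.mul (hW1 i)
  have hK1 : ∀ i j, ContDiff ℝ 1 (fun y => W i y * dX j (W i) y) :=
    fun i j => (hW1 i).mul (hdW1 i j)
  have hGp : ∀ i j, Periodic3 (fun y => V j y * (W i y * W i y)) := by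
    intro i j x n
    show V j _ * (W i _ * W i _) = _
    rw [hVp j x n, hWp i x n]
  have hHp : ∀ i, Periodic3 (fun y => P y * W i y) := by
    intro i x n
    show P _ * W i _ = _
    rw [hPp x n, hWp i x n]
  have hKp : ∀ i j, Periodic3 (fun y => W i y * dX j (W i) y) := by
    intro i j x n
    show W i _ * dX j (W i) _ = _
    rw [hWp i x n, periodic_dX (hWp i) j x n]
  have hG0 : ∀ i j, ∫ x in Set.Icc (0 : Pt) 1, dX j (fun y => V j y * (W i y * W i y)) x = 0 :=
    fun i j => integral_dX_eq_zero j (hG1 i j) (hGp i j)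
  have hH0 : ∀ i, ∫ x in Set.Icc (0 : Pt) 1, dX i (fun y => P y * W i y) x = 0 :=
    fun i => integral_dX_eq_zero i (hH1 i) (hHp i)
  have hK0 : ∀ i j, ∫ x in Set.Icc (0 : Pt) 1, dX j (fun y => W i y * dX j (W i) y) x = 0 :=
    fun i j => integral_dX_eq_zero j (hK1 i j) (hKp i j)
  -- pointwise formulas
  have hGx : ∀ i j x, dX j (fun y => V j y * (W i y * W i y)) x
      = dX j (V j) x * (W i x * W i x)
        + V j x * (dX j (W i) x * W i x + W i x * dX j (W i) x) := by
    intro i j x
    have hWW : DifferentiableAt ℝ (fun y => W i y * W i y) x := (hWd i x).mul (hWd i x)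
    rw [dX_mul j (hVd j x) hWW, dX_mul j (hWd i x) (hWd i x)]
  have hHx : ∀ i x, dX i (fun y => P y * W i y) x = dX i P x * W i x + P x * dX i (W i) x := by
    intro i x
    rw [dX_mul i (hPd x) (hWd i x)]
  have hKx : ∀ i j x, dX j (fun y => W i y * dX j (W i) y) x
      = dX j (W i) x * dX j (W i) x + W i x * dX j (dX j (W i)) x := by
    intro i j x
    rw [dX_mul j (hWd i x) (hdWd i j x)]
  -- continuity facts
  have cV : ∀ i, Continuous (V i) := fun i => (hV i).continuous
  have cW : ∀ i, Continuous (W i) := fun i => (hW i).continuous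
  have cdW : ∀ i j, Continuous (dX j (W i)) := fun i j => (hdW1 i j).continuous
  have cdU : ∀ i j, Continuous (dX j (U i)) := fun i j => continuous_dX j (hU i)
  have cG : ∀ i j, Continuous (dX j (fun y => V j y * (W i y * W i y))) :=
    fun i j => continuous_dX j (hG1 i j)
  have cH : ∀ i, Continuous (dX i (fun y => P y * W i y)) := fun i => continuous_dX i (hH1 i)
  have cK : ∀ i j, Continuous (dX j (fun y => W i y * dX j (W i) y)) :=
    fun i j => continuous_dX j (hK1 i j)
  have hI : ∀ g : Pt → ℝ, Continuous g → IntegrableOn g (Set.Icc (0 : Pt) 1) :=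
    fun g hg => hg.continuousOn.integrableOn_compact isCompact_Icc
  -- the divergence part
  let Dsum : Pt → ℝ := fun x =>
    ∑ i, (∑ j, (-(1 / 2) * dX j (fun y => V j y * (W i y * W i y)) x
        + ν * dX j (fun y => W i y * dX j (W i) y) x) - dX i (fun y => P y * W i y) x)
  have cDsum : Continuous Dsum := by
    refine continuous_finsetSum _ (fun i _ => Continuous.sub ?_ (cH i))
    refine continuous_finsetSum _ (fun j _ => Continuous.add ?_ ?_)
    · exact continuous_const.mul (cG i j)
    · exact continuous_const.mul (cK i j)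
  have hDsum0 : ∫ x in Set.Icc (0 : Pt) 1, Dsum x = 0 := by
    show ∫ x in Set.Icc (0 : Pt) 1, ∑ i, (∑ j, (-(1 / 2) * dX j (fun y => V j y * (W i y * W i y)) x
        + ν * dX j (fun y => W i y * dX j (W i) y) x) - dX i (fun y => P y * W i y) x) = 0
    rw [integral_finsetSum]
    · apply Finset.sum_eq_zero
      intro i _
      rw [integral_sub, hH0 i, sub_zero, integral_finsetSum]
      · apply Finset.sum_eq_zero
        intro j _
        rw [integral_add, integral_const_mul, integral_const_mul, hG0 i j, hK0 i j]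
        · ring
        · exact hI _ (continuous_const.mul (cG i j))
        · exact hI _ (continuous_const.mul (cK i j))
      · intro j _
        exact hI _ ((continuous_const.mul (cG i j)).add (continuous_const.mul (cK i j)))
      · exact hI _ (continuous_finsetSum _ (fun j _ =>
          (continuous_const.mul (cG i j)).add (continuous_const.mul (cK i j))))
      · exact hI _ (cH i)
    · intro i _
      refine hI _ (Continuous.sub ?_ (cH i))
      exact continuous_finsetSum _ (fun j _ =>
          (continuous_const.mul (cG i j)).add (continuous_const.mul (cK i j)))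
  -- the remainder
  let Rem : Pt → ℝ := fun x =>
    - (ν * ∑ i, ∑ j, dX j (W i) x * dX j (W i) x) - ∑ i, ∑ j, W i x * W j x * dX j (U i) x
  have cRem : Continuous Rem := by
    refine Continuous.sub (Continuous.neg (continuous_const.mul ?_)) ?_
    · exact continuous_finsetSum _ (fun i _ => continuous_finsetSum _ (fun j _ =>
        (cdW i j).mul (cdW i j)))
    · exact continuous_finsetSum _ (fun i _ => continuous_finsetSum _ (fun j _ =>
        ((cW i).mul (cW j)).mul (cdU i j)))
  have hsplit : ∀ x, ∑ i, W i x * D i x = Dsum x + Rem x := by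
    intro x
    show _ = ∑ i, (∑ j, (-(1 / 2) * dX j (fun y => V j y * (W i y * W i y)) x
        + ν * dX j (fun y => W i y * dX j (W i) y) x) - dX i (fun y => P y * W i y) x)
      + (- (ν * ∑ i, ∑ j, dX j (W i) x * dX j (W i) x)
        - ∑ i, ∑ j, W i x * W j x * dX j (U i) x)
    have e0 := heq x 0
    have e1 := heq x 1
    have e2 := heq x 2
    have d1 := hVdiv x
    have d2 := hWdiv x
    simp only [hGx, hHx, hKx, Fin.sum_univ_three] at e0 e1 e2 d1 d2 ⊢
    linear_combination W 0 x * e0 + W 1 x * e1 + W 2 x * e2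
      + (1 / 2) * (W 0 x * W 0 x + W 1 x * W 1 x + W 2 x * W 2 x) * d1 + P x * d2
  have hRem : ∀ x ∈ Set.Icc (0 : Pt) 1, Rem x ≤ 3 * C * ∑ i, (W i x) ^ 2 := by
    intro x hx
    have h1 : 0 ≤ ν * ∑ i, ∑ j, dX j (W i) x * dX j (W i) x :=
      mul_nonneg hν (Finset.sum_nonneg (fun i _ => Finset.sum_nonneg (fun j _ =>
        mul_self_nonneg _)))
    have h2 : ∀ i j, - (W i x * W j x * dX j (U i) x)
        ≤ C * ((W i x) ^ 2 + (W j x) ^ 2) / 2 := by
      intro i j
      have hb := abs_le.mp (hC x hx i j)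
      nlinarith [mul_nonneg (by linarith [hb.1] : 0 ≤ C + dX j (U i) x)
          (sq_nonneg (W i x + W j x)),
        mul_nonneg (by linarith [hb.2] : 0 ≤ C - dX j (U i) x) (sq_nonneg (W i x - W j x))]
    have h3 : - ∑ i, ∑ j, W i x * W j x * dX j (U i) x
        ≤ ∑ i, ∑ j, C * ((W i x) ^ 2 + (W j x) ^ 2) / 2 := by
      rw [← Finset.sum_neg_distrib]
      refine Finset.sum_le_sum (fun i _ => ?_)
      rw [← Finset.sum_neg_distrib]
      exact Finset.sum_le_sum (fun j _ => h2 i j)
    have h4 : ∑ i : Fin 3, ∑ j : Fin 3, C * ((W i x) ^ 2 + (W j x) ^ 2) / 2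
        = 3 * C * ∑ i, (W i x) ^ 2 := by
      simp only [Fin.sum_univ_three]
      ring
    show - (ν * ∑ i, ∑ j, dX j (W i) x * dX j (W i) x)
        - ∑ i, ∑ j, W i x * W j x * dX j (U i) x ≤ _
    linarith
  -- integrate
  have cWD : Continuous (fun x => ∑ i, W i x * D i x) := by
    have : (fun x => ∑ i, W i x * D i x) = fun x => Dsum x + Rem x := funext hsplit
    rw [this]
    exact cDsum.add cRem
  have cW2 : Continuous (fun x => 3 * C * ∑ i, (W i x) ^ 2) :=
    continuous_const.mul (continuous_finsetSum _ (fun i _ => (cW i).pow 2))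
  have hmono : ∫ x in Set.Icc (0 : Pt) 1, (∑ i, W i x * D i x - Dsum x)
      ≤ ∫ x in Set.Icc (0 : Pt) 1, 3 * C * ∑ i, (W i x) ^ 2 := by
    refine setIntegral_mono_on (hI _ (cWD.sub cDsum)) (hI _ cW2) measurableSet_Icc ?_
    intro x hx
    rw [hsplit x]
    linarith [hRem x hx]
  rw [integral_sub (hI _ cWD) (hI _ cDsum), hDsum0, sub_zero, integral_const_mul] at hmono
  exact hmono

/-! ### Parametric integrals over the unit cube -/

theorem cube_bound {T : ℝ} {F : ℝ × Pt → ℝ} (hF : ContinuousOn F (Set.Icc 0 T ×ˢ Set.univ)) :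
    ∃ M, ∀ t ∈ Set.Icc 0 T, ∀ x ∈ Set.Icc (0 : Pt) 1, |F (t, x)| ≤ M := by
  obtain ⟨M, hM⟩ := (isCompact_Icc.prod isCompact_Icc).exists_bound_of_continuousOn
    (hF.mono (Set.prod_mono subset_rfl (Set.subset_univ (Set.Icc (0 : Pt) 1))))
  exact ⟨M, fun t ht x hx => hM (t, x) ⟨ht, hx⟩⟩

theorem continuous_slice {T : ℝ} {F : ℝ × Pt → ℝ} (hF : ContinuousOn F (Set.Icc 0 T ×ˢ Set.univ))
    {t : ℝ} (ht : t ∈ Set.Icc 0 T) : Continuous (fun x => F (t, x)) :=
  hF.comp_continuous (by fun_prop) (fun x => ⟨ht, Set.mem_univ x⟩)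

theorem continuousOn_integral_cube {T : ℝ} {F : ℝ × Pt → ℝ}
    (hF : ContinuousOn F (Set.Icc 0 T ×ˢ Set.univ)) :
    ContinuousOn (fun t => ∫ x in Set.Icc (0 : Pt) 1, F (t, x)) (Set.Icc 0 T) := by
  obtain ⟨M, hM⟩ := cube_bound hF
  refine continuousOn_of_dominated (bound := fun _ => M) ?_ ?_ ?_ ?_
  · intro t ht
    exact (continuous_slice hF ht).aestronglyMeasurable
  · intro t ht
    filter_upwards [ae_restrict_mem measurableSet_Icc] with x hx
    exact hM t ht x hx
  · exact continuous_const.continuousOn.integrableOn_compact isCompact_Icc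
  · refine ae_of_all _ (fun x => ?_)
    exact hF.comp (Continuous.continuousOn (by fun_prop)) (fun t ht => ⟨ht, Set.mem_univ x⟩)

theorem hasDerivAt_integral_cube {T : ℝ} {F F' : ℝ × Pt → ℝ}
    (hF : ContinuousOn F (Set.Icc 0 T ×ˢ Set.univ))
    (hF' : ContinuousOn F' (Set.Icc 0 T ×ˢ Set.univ))
    (hd : ∀ t ∈ Set.Ioo 0 T, ∀ x, HasDerivAt (fun s => F (s, x)) (F' (t, x)) t)
    {t : ℝ} (ht : t ∈ Set.Ioo 0 T) :
    HasDerivAt (fun s => ∫ x in Set.Icc (0 : Pt) 1, F (s, x))
      (∫ x in Set.Icc (0 : Pt) 1, F' (t, x)) t := by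
  obtain ⟨M, hM⟩ := cube_bound hF'
  have hsub : Set.Ioo 0 T ⊆ Set.Icc 0 T := Set.Ioo_subset_Icc_self
  have key := hasDerivAt_integral_of_dominated_loc_of_deriv_le
    (μ := volume.restrict (Set.Icc (0 : Pt) 1))
    (F := fun s x => F (s, x)) (F' := fun s x => F' (s, x)) (x₀ := t) (bound := fun _ => M)
    (s := Set.Ioo 0 T) (Ioo_mem_nhds ht.1 ht.2)
    (Filter.eventually_of_mem (Ioo_mem_nhds ht.1 ht.2)
      (fun s hs => (continuous_slice hF (hsub hs)).aestronglyMeasurable))
    ((continuous_slice hF (hsub ht)).continuousOn.integrableOn_compact isCompact_Icc)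
    (continuous_slice hF' (hsub ht)).aestronglyMeasurable
    (by
      filter_upwards [ae_restrict_mem measurableSet_Icc] with x hx s hs
      exact hM s (hsub hs) x hx)
    (continuous_const.continuousOn.integrableOn_compact isCompact_Icc)
    (ae_of_all _ (fun x s hs => hd s hs x))
  exact key.2

/-! ### Slices of a jointly smooth function -/

theorem dX_slice_eq {g : ℝ × Pt → ℝ} (hg : ContDiff ℝ 1 g) (j : Fin 3) (t : ℝ) (x : Pt) :
    dX j (fun y => g (t, y)) x = fderiv ℝ g (t, x) (0, Pi.single j 1) := by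
  unfold dX
  have h1 : HasDerivAt (fun s : ℝ => (t, Function.update x j s))
      ((0 : ℝ), (Pi.single j 1 : Pt)) (x j) :=
    (hasDerivAt_const (x j) t).prodMk (hasDerivAt_update x j (x j))
  have h2 : HasFDerivAt g (fderiv ℝ g (t, x)) (t, Function.update x j (x j)) := by
    rw [Function.update_eq_self]
    exact ((hg.differentiable (by norm_num)) (t, x)).hasFDerivAt
  exact (h2.comp_hasDerivAt (x j) h1).deriv

theorem hasDerivAt_time_slice {g : ℝ × Pt → ℝ} (hg : ContDiff ℝ 1 g) (t : ℝ) (x : Pt) :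
    HasDerivAt (fun s => g (s, x)) (fderiv ℝ g (t, x) (1, 0)) t := by
  have h1 : HasDerivAt (fun s : ℝ => (s, x)) ((1 : ℝ), (0 : Pt)) t :=
    (hasDerivAt_id t).prodMk (hasDerivAt_const t x)
  have h2 : HasFDerivAt g (fderiv ℝ g (t, x)) (t, x) :=
    ((hg.differentiable (by norm_num)) (t, x)).hasFDerivAt
  exact h2.comp_hasDerivAt t h1

theorem cube_subset_closure_interior :
    Set.Icc (0 : Pt) 1 ⊆ closure (interior (Set.Icc (0 : Pt) 1)) := by
  rw [← Set.pi_univ_Icc, interior_pi_set Set.finite_univ, closure_pi_set]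
  simp [interior_Icc, closure_Ioo]

end NSU

/-! ### Uniqueness -/

open NSU in
theorem ns_unique (ν : ℝ) (hν : 0 < ν) (f u : ℝ → Pt → Pt)
    (hu : ContDiff ℝ ∞ (fun q : ℝ × Pt => u q.1 q.2)) (hper : ∀ t, Periodic3 (u t))
    (hsol : SolvesNS ν f u (fun _ _ => 0))
    (T : ℝ) (hT : 0 < T) (v : ℝ → Pt → Pt) (π : ℝ → Pt → ℝ) (hv : ClassicalOn ν f T v π) :
    ∀ t ∈ Set.Icc 0 T, ∀ x : Pt, v t x = u t x := by
  obtain ⟨hmom, hdiv, hinit⟩ := hsol
  -- components of u
  have hui : ∀ i, ContDiff ℝ ∞ (fun q : ℝ × Pt => u q.1 q.2 i) := fun i => contDiff_pi.mp hu i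
  have hui1 : ∀ i, ContDiff ℝ 1 (fun q : ℝ × Pt => u q.1 q.2 i) :=
    fun i => (hui i).of_le (WithTop.coe_le_coe.mpr le_top)
  have hus : ∀ t i, ContDiff ℝ ∞ (fun y : Pt => u t y i) :=
    fun t i => (hui i).comp (contDiff_const.prodMk contDiff_id)
  have hus2 : ∀ t i, ContDiff ℝ 2 (fun y : Pt => u t y i) :=
    fun t i => (hus t i).of_le (WithTop.coe_le_coe.mpr le_top)
  have hus1 : ∀ t i, ContDiff ℝ 1 (fun y : Pt => u t y i) :=
    fun t i => (hus t i).of_le (WithTop.coe_le_coe.mpr le_top)
  have hdXu : ∀ i j t x, dX j (fun y => u t y i) x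
      = fderiv ℝ (fun q : ℝ × Pt => u q.1 q.2 i) (t, x) (0, Pi.single j 1) :=
    fun i j t x => dX_slice_eq (hui1 i) j t x
  have hdtu : ∀ i t x, HasDerivAt (fun s => u s x i)
      (fderiv ℝ (fun q : ℝ × Pt => u q.1 q.2 i) (t, x) (1, 0)) t :=
    fun i t x => hasDerivAt_time_slice (hui1 i) t x
  have cdXu : ∀ i j, Continuous (fun q : ℝ × Pt => dX j (fun y => u q.1 y i) q.2) := by
    intro i j
    have h : (fun q : ℝ × Pt => dX j (fun y => u q.1 y i) q.2)
        = fun q => fderiv ℝ (fun q : ℝ × Pt => u q.1 q.2 i) q (0, Pi.single j 1) := by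
      funext q; exact hdXu i j q.1 q.2
    rw [h]
    exact ((hui1 i).continuous_fderiv (by norm_num)).clm_apply continuous_const
  have cdtu : ∀ i, Continuous (fun q : ℝ × Pt => deriv (fun s => u s q.2 i) q.1) := by
    intro i
    have h : (fun q : ℝ × Pt => deriv (fun s => u s q.2 i) q.1)
        = fun q => fderiv ℝ (fun q : ℝ × Pt => u q.1 q.2 i) q (1, 0) := by
      funext q; exact (hdtu i q.1 q.2).deriv
    rw [h]
    exact ((hui1 i).continuous_fderiv (by norm_num)).clm_apply continuous_const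
  -- the energy density and its time derivative
  let Fw : ℝ × Pt → ℝ := fun q => ∑ i, (v q.1 q.2 i - u q.1 q.2 i) ^ 2
  let Fw' : ℝ × Pt → ℝ := fun q => ∑ i, 2 * ((v q.1 q.2 i - u q.1 q.2 i) *
      (derivWithin (fun s => v s q.2 i) (Set.Icc 0 T) q.1 - deriv (fun s => u s q.2 i) q.1))
  have cvi : ∀ i, ContinuousOn (fun q : ℝ × Pt => v q.1 q.2 i) (Set.Icc 0 T ×ˢ Set.univ) :=
    fun i => (continuous_apply i).comp_continuousOn hv.cont_v
  have cui : ∀ i, Continuous (fun q : ℝ × Pt => u q.1 q.2 i) := fun i => (hui i).continuous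
  have cFw : ContinuousOn Fw (Set.Icc 0 T ×ˢ Set.univ) := by
    refine continuousOn_finsetSum _ (fun i _ => ContinuousOn.pow ?_ 2)
    exact (cvi i).sub (cui i).continuousOn
  have cFw' : ContinuousOn Fw' (Set.Icc 0 T ×ˢ Set.univ) := by
    refine continuousOn_finsetSum _ (fun i _ => ContinuousOn.mul continuousOn_const ?_)
    exact ((cvi i).sub (cui i).continuousOn).mul ((hv.cont_dt i).sub (cdtu i).continuousOn)
  let E : ℝ → ℝ := fun t => ∫ x in Set.Icc (0 : Pt) 1, Fw (t, x)
  have hEcont : ContinuousOn E (Set.Icc 0 T) := continuousOn_integral_cube cFw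
  have hEderiv : ∀ t ∈ Set.Ioo 0 T,
      HasDerivAt E (∫ x in Set.Icc (0 : Pt) 1, Fw' (t, x)) t := by
    intro t ht
    refine hasDerivAt_integral_cube cFw cFw' ?_ ht
    intro s hs x
    have hvd : ∀ i, HasDerivAt (fun r => v r x i)
        (derivWithin (fun r => v r x i) (Set.Icc 0 T) s) s := fun i =>
      ((hv.diff_t x i) s (Set.Ioo_subset_Icc_self hs)).hasDerivWithinAt.hasDerivAt
        (Icc_mem_nhds hs.1 hs.2)
    have hwd : ∀ i, HasDerivAt (fun r => v r x i - u r x i)
        (derivWithin (fun r => v r x i) (Set.Icc 0 T) s - deriv (fun r => u r x i) s) s := by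
      intro i
      have h := (hvd i).sub (hdtu i s x)
      rw [(hdtu i s x).deriv]
      exact h
    have hsq : ∀ i, HasDerivAt (fun r => (v r x i - u r x i) ^ 2)
        (2 * ((v s x i - u s x i) *
          (derivWithin (fun r => v r x i) (Set.Icc 0 T) s - deriv (fun r => u r x i) s))) s := by
      intro i
      exact ((hwd i).fun_pow 2).congr_deriv (by norm_num; ring)
    exact HasDerivAt.fun_sum (fun i _ => hsq i)
  -- a bound for the gradient of u
  obtain ⟨C, hC⟩ : ∃ C : ℝ, ∀ t ∈ Set.Icc 0 T, ∀ x ∈ Set.Icc (0 : Pt) 1, ∀ i j,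
      |dX j (fun y => u t y i) x| ≤ C := by
    have hc : ContinuousOn (fun q : ℝ × Pt => ∑ i, ∑ j, |dX j (fun y => u q.1 y i) q.2|)
        (Set.Icc 0 T ×ˢ Set.univ) :=
      (continuous_finsetSum _ (fun i _ => continuous_finsetSum _ (fun j _ =>
        (cdXu i j).abs))).continuousOn
    obtain ⟨M, hM⟩ := cube_bound hc
    refine ⟨M, fun t ht x hx i j => ?_⟩
    have h1 := hM t ht x hx
    have hj : |dX j (fun y => u t y i) x| ≤ ∑ j, |dX j (fun y => u t y i) x| :=
      Finset.single_le_sum (f := fun j => |dX j (fun y => u t y i) x|)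
        (fun j _ => abs_nonneg _) (Finset.mem_univ j)
    have hi : ∑ j, |dX j (fun y => u t y i) x| ≤ ∑ i, ∑ j, |dX j (fun y => u t y i) x| :=
      Finset.single_le_sum (f := fun i => ∑ j, |dX j (fun y => u t y i) x|)
        (fun i _ => Finset.sum_nonneg (fun j _ => abs_nonneg _)) (Finset.mem_univ i)
    exact (hj.trans hi).trans ((le_abs_self _).trans h1)
  -- the differential inequality
  have hineq : ∀ t ∈ Set.Ioo 0 T, ∫ x in Set.Icc (0 : Pt) 1, Fw' (t, x) ≤ 6 * C * E t := by
    intro t ht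
    have ht' : t ∈ Set.Icc 0 T := Set.Ioo_subset_Icc_self ht
    have hvs2 : ∀ i, ContDiff ℝ 2 (fun y : Pt => v t y i) := fun i => hv.smooth_x t ht' i
    have hvd : ∀ i x, DifferentiableAt ℝ (fun y : Pt => v t y i) x :=
      fun i x => ((hvs2 i).differentiable (by norm_num)) x
    have hud : ∀ i x, DifferentiableAt ℝ (fun y : Pt => u t y i) x :=
      fun i x => ((hus2 t i).differentiable (by norm_num)) x
    have hdW : ∀ i j x, dX j (fun y => v t y i - u t y i) x
        = dX j (fun y => v t y i) x - dX j (fun y => u t y i) x :=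
      fun i j x => dX_sub j (hvd i x) (hud i x)
    have hddW : ∀ i j x, dX j (dX j (fun y => v t y i - u t y i)) x
        = dX j (dX j (fun y => v t y i)) x - dX j (dX j (fun y => u t y i)) x := by
      intro i j x
      have h : dX j (fun y => v t y i - u t y i)
          = fun y => dX j (fun y => v t y i) y - dX j (fun y => u t y i) y := by
        funext y; exact hdW i j y
      rw [h]
      exact dX_sub j (((contDiff_dX j (hvs2 i)).differentiable (by norm_num)) x)
        (((contDiff_dX j (hus2 t i)).differentiable (by norm_num)) x)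
    have hWdiv : ∀ x, ∑ j, dX j (fun y => v t y j - u t y j) x = 0 := by
      intro x
      simp only [hdW, Finset.sum_sub_distrib, hv.div_free t ht' x, hdiv t ht'.1 x, sub_zero]
    have heq : ∀ x i,
        derivWithin (fun s => v s x i) (Set.Icc 0 T) t - deriv (fun s => u s x i) t
          = - ∑ j, v t x j * dX j (fun y => v t y i - u t y i) x
            - ∑ j, (v t x j - u t x j) * dX j (fun y => u t y i) x
            - dX i (π t) x + ν * ∑ j, dX j (dX j (fun y => v t y i - u t y i)) x := by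
      intro x i
      have mv := hv.momentum t ht' x i
      have mu := hmom t ht'.1 x i
      have hz : dX i (fun _ : Pt => (0 : ℝ)) x = 0 := by
        unfold dX; simp
      rw [hz] at mu
      simp only [hdW, hddW, Fin.sum_univ_three] at mv mu ⊢
      linear_combination mv - mu
    have key := energy_ineq ν hν.le C (fun i y => v t y i) (fun i y => v t y i - u t y i)
      (fun i y => u t y i)
      (fun i x => derivWithin (fun s => v s x i) (Set.Icc 0 T) t - deriv (fun s => u s x i) t)
      (π t)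
      (fun i => (hvs2 i).of_le (by norm_num))
      (fun i => (hvs2 i).sub (hus2 t i))
      (fun i => hus1 t i)
      (hv.smooth_π t ht')
      (fun i x n => congrFun (hv.per_v t x n) i)
      (fun i x n => by
        show v t _ i - u t _ i = v t x i - u t x i
        rw [hv.per_v t x n, hper t x n])
      (hv.per_π t)
      (hv.div_free t ht')
      hWdiv heq (fun x hx i j => hC t ht' x hx i j)
    have h2 : ∫ x in Set.Icc (0 : Pt) 1, Fw' (t, x)
        = 2 * ∫ x in Set.Icc (0 : Pt) 1, ∑ i, (v t x i - u t x i) *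
          (derivWithin (fun s => v s x i) (Set.Icc 0 T) t - deriv (fun s => u s x i) t) := by
      rw [← integral_const_mul]
      congr 1
      funext x
      show ∑ i, 2 * ((v t x i - u t x i) *
        (derivWithin (fun s => v s x i) (Set.Icc 0 T) t - deriv (fun s => u s x i) t)) = _
      rw [Finset.mul_sum]
    rw [h2]
    show _ ≤ 6 * C * ∫ x in Set.Icc (0 : Pt) 1, ∑ i, (v t x i - u t x i) ^ 2
    linarith
  -- the energy vanishes
  have hE0 : E 0 = 0 := by
    have h : ∀ x, Fw (0, x) = 0 := by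
      intro x
      show ∑ i, (v 0 x i - u 0 x i) ^ 2 = 0
      simp [hv.init x, hinit x]
    show ∫ x in Set.Icc (0 : Pt) 1, Fw (0, x) = 0
    simp [h]
  have hEnn : ∀ t, 0 ≤ E t := fun t =>
    integral_nonneg (fun x => Finset.sum_nonneg (fun i _ => sq_nonneg _))
  have hEzero : ∀ t ∈ Set.Icc 0 T, E t = 0 := by
    let φ : ℝ → ℝ := fun t => E t * Real.exp (-(6 * C) * t)
    have hφc : ContinuousOn φ (Set.Icc 0 T) :=
      hEcont.mul (Continuous.continuousOn (by fun_prop))
    have hφd : ∀ t ∈ Set.Ioo 0 T, HasDerivAt φ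
        ((∫ x in Set.Icc (0 : Pt) 1, Fw' (t, x)) * Real.exp (-(6 * C) * t)
          + E t * (Real.exp (-(6 * C) * t) * (-(6 * C)))) t := by
      intro t ht
      have h1 : HasDerivAt (fun t : ℝ => Real.exp (-(6 * C) * t))
          (Real.exp (-(6 * C) * t) * (-(6 * C))) t := by
        have h := ((hasDerivAt_id t).const_mul (-(6 * C))).exp
        simpa using h
      exact (hEderiv t ht).mul h1
    have hanti : AntitoneOn φ (Set.Icc 0 T) := by
      apply antitoneOn_of_deriv_nonpos (convex_Icc 0 T) hφc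
      · rw [interior_Icc]
        intro t ht
        exact (hφd t ht).differentiableAt.differentiableWithinAt
      · rw [interior_Icc]
        intro t ht
        rw [(hφd t ht).deriv]
        have h := hineq t ht
        have hexp := Real.exp_pos (-(6 * C) * t)
        nlinarith [mul_nonneg hexp.le (sub_nonneg.mpr h)]
    intro t ht
    have h1 := hanti (Set.left_mem_Icc.mpr hT.le) ht ht.1
    have h2 : φ 0 = 0 := by
      show E 0 * Real.exp (-(6 * C) * 0) = 0
      rw [hE0, zero_mul]
    have h3 : E t * Real.exp (-(6 * C) * t) ≤ 0 := by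
      rw [← h2]; exact h1
    have hexp := Real.exp_pos (-(6 * C) * t)
    have h4 : E t ≤ 0 := by
      by_contra hcon
      have := mul_pos (not_le.mp hcon) hexp
      linarith
    exact le_antisymm h4 (hEnn t)
  -- conclusion
  intro t ht x
  have hzero : ∀ y ∈ Set.Icc (0 : Pt) 1, Fw (t, y) = 0 := by
    have hc : Continuous (fun y => Fw (t, y)) := continuous_slice cFw ht
    have hint : IntegrableOn (fun y => Fw (t, y)) (Set.Icc (0 : Pt) 1) :=
      hc.continuousOn.integrableOn_compact isCompact_Icc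
    have hae : (fun y => Fw (t, y)) =ᵐ[volume.restrict (Set.Icc (0 : Pt) 1)] 0 :=
      (setIntegral_eq_zero_iff_of_nonneg_ae
        (ae_of_all _ (fun y => Finset.sum_nonneg (fun i _ => sq_nonneg _))) hint).mp
        (hEzero t ht)
    have h := Measure.eqOn_of_ae_eq hae hc.continuousOn continuousOn_const
      cube_subset_closure_interior
    intro y hy
    exact h hy
  have hcube : ∀ y ∈ Set.Icc (0 : Pt) 1, v t y = u t y := by
    intro y hy
    have h : ∑ i, (v t y i - u t y i) ^ 2 = 0 := hzero y hy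
    funext i
    have hi : (v t y i - u t y i) ^ 2 = 0 :=
      (Finset.sum_eq_zero_iff_of_nonneg (fun k _ => sq_nonneg (v t y k - u t y k))).mp h i
        (Finset.mem_univ i)
    have h0 : v t y i - u t y i = 0 := by
      exact pow_eq_zero_iff (two_ne_zero) |>.mp hi
    linarith
  let n : Fin 3 → ℤ := fun i => -⌊x i⌋
  have hy : (fun i => x i + n i) ∈ Set.Icc (0 : Pt) 1 := by
    constructor
    · intro i
      show (0 : ℝ) ≤ x i + ((-⌊x i⌋ : ℤ) : ℝ)
      push_cast
      linarith [Int.floor_le (x i)]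
    · intro i
      show x i + ((-⌊x i⌋ : ℤ) : ℝ) ≤ 1
      push_cast
      linarith [Int.lt_floor_add_one (x i)]
  rw [← hv.per_v t x n, ← hper t x n]
  exact hcube _ hy

end Vale.Agent.Lib.P113
end

section
open scoped ContDiff

namespace Vale.Agent.Lib.P113

/-- The residual force of a velocity field `u` (with zero pressure): the force that makes `u`
a solution of the momentum equation with viscosity `ν`. -/
noncomputable def forceOf (ν : ℝ) (u : ℝ → Pt → Pt) : ℝ → Pt → Pt := fun t x i =>
  deriv (fun s : ℝ => u s x i) t + ∑ j : Fin 3, u t x j * dX j (fun y => u t y i) x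
    - ν * ∑ j : Fin 3, dX j (dX j (fun y => u t y i)) x

theorem solvesNS_forceOf (ν : ℝ) (u : ℝ → Pt → Pt)
    (hdiv : ∀ t : ℝ, 0 ≤ t → ∀ x : Pt, ∑ j : Fin 3, dX j (fun y => u t y j) x = 0)
    (h0 : ∀ x : Pt, u 0 x = 0) : SolvesNS ν (forceOf ν u) u (fun _ _ => 0) := by
  refine ⟨?_, hdiv, h0⟩
  intro t _ x i
  have hz : dX i (fun _ : Pt => (0 : ℝ)) x = 0 := by
    unfold dX
    simp
  rw [hz]
  unfold forceOf
  ring

theorem dX_eq_deriv_coord (F : ℝ × Pt → ℝ) (t : ℝ) (x : Pt) (j : Fin 3) :
    dX j (fun y => F (t, y)) x = deriv (fun s : ℝ => F (t, Function.update x j s)) (x j) := rfl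

theorem contDiff_dX (F : ℝ × Pt → ℝ) (hF : ContDiff ℝ ∞ F) (j : Fin 3) :
    ContDiff ℝ ∞ (fun q : ℝ × Pt => dX j (fun y => F (q.1, y)) q.2) :=
  contDiff_deriv_coord F hF j

theorem contDiff_forceOf (ν : ℝ) (u : ℝ → Pt → Pt)
    (hu : ContDiff ℝ ∞ (fun q : ℝ × Pt => u q.1 q.2)) :
    ContDiff ℝ ∞ (fun q : ℝ × Pt => forceOf ν u q.1 q.2) := by
  rw [contDiff_pi]
  intro i
  have hcomp : ∀ k : Fin 3, ContDiff ℝ ∞ (fun q : ℝ × Pt => u q.1 q.2 k) := by
    intro k
    exact (contDiff_pi.mp hu) k
  unfold forceOf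
  have h1 : ContDiff ℝ ∞ (fun q : ℝ × Pt => deriv (fun s : ℝ => u s q.2 i) q.1) :=
    contDiff_deriv_time (fun q : ℝ × Pt => u q.1 q.2 i) (hcomp i)
  have h2 : ∀ j : Fin 3,
      ContDiff ℝ ∞ (fun q : ℝ × Pt => dX j (fun y => u q.1 y i) q.2) := by
    intro j
    exact contDiff_dX (fun q : ℝ × Pt => u q.1 q.2 i) (hcomp i) j
  have h3 : ∀ j : Fin 3,
      ContDiff ℝ ∞ (fun q : ℝ × Pt => dX j (dX j (fun y => u q.1 y i)) q.2) := by
    intro j
    exact contDiff_dX (fun q : ℝ × Pt => dX j (fun y => u q.1 y i) q.2) (h2 j) j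
  refine (h1.add ?_).sub (contDiff_const.mul ?_)
  · apply ContDiff.sum
    intro j _
    exact (hcomp j).mul (h2 j)
  · apply ContDiff.sum
    intro j _
    exact h3 j

theorem dX_periodic (j : Fin 3) (g : Pt → ℝ) (hg : Periodic3 g) : Periodic3 (dX j g) := by
  intro x n
  unfold dX
  have hfun : (fun s : ℝ => g (Function.update (fun i => x i + (n i : ℝ)) j s))
      = fun s : ℝ => (fun r : ℝ => g (Function.update x j r)) (s - (n j : ℝ)) := by
    funext s
    have hupd : Function.update (fun i => x i + (n i : ℝ)) j s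
        = fun i => Function.update x j (s - (n j : ℝ)) i + (n i : ℝ) := by
      funext i
      by_cases hij : i = j
      · subst hij
        simp
      · simp [Function.update, hij]
    rw [hupd]
    exact hg _ n
  rw [hfun]
  have hd := deriv_comp_sub_const (fun r : ℝ => g (Function.update x j r)) (n j : ℝ)
    (x j + (n j : ℝ))
  have hsimp : x j + (n j : ℝ) - (n j : ℝ) = x j := by ring
  rw [hsimp] at hd
  exact hd

theorem periodic_forceOf (ν : ℝ) (u : ℝ → Pt → Pt) (hper : ∀ t, Periodic3 (u t)) :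
    ∀ t, Periodic3 (forceOf ν u t) := by
  intro t x n
  funext i
  have hcomp : ∀ (s : ℝ) (k : Fin 3), Periodic3 (fun y => u s y k) := by
    intro s k y m
    exact congrFun (hper s y m) k
  unfold forceOf
  have h1 : (fun s : ℝ => u s (fun i => x i + (n i : ℝ)) i) = fun s : ℝ => u s x i := by
    funext s
    exact hcomp s i x n
  have h2 : ∀ j : Fin 3, u t (fun i => x i + (n i : ℝ)) j = u t x j := fun j => hcomp t j x n
  have h3 : ∀ j : Fin 3, dX j (fun y => u t y i) (fun i => x i + (n i : ℝ))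
      = dX j (fun y => u t y i) x := fun j => dX_periodic j _ (hcomp t i) x n
  have h4 : ∀ j : Fin 3, dX j (dX j (fun y => u t y i)) (fun i => x i + (n i : ℝ))
      = dX j (dX j (fun y => u t y i)) x :=
    fun j => dX_periodic j _ (dX_periodic j _ (hcomp t i)) x n
  simp only [h1, h2, h3, h4]

theorem forceOf_congr (ν : ℝ) (u v : ℝ → Pt → Pt) (t0 ε : ℝ) (hε : 0 < ε)
    (h : ∀ t, |t - t0| < ε → ∀ x, u t x = v t x) : ∀ x, forceOf ν u t0 x = forceOf ν v t0 x := by
  intro x
  funext i
  have ht0 : ∀ y, u t0 y = v t0 y := h t0 (by simpa using hε)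
  have hu : u t0 = v t0 := funext ht0
  unfold forceOf
  have hd : deriv (fun s : ℝ => u s x i) t0 = deriv (fun s : ℝ => v s x i) t0 := by
    apply Filter.EventuallyEq.deriv_eq
    have hmem : Metric.ball t0 ε ∈ nhds t0 := Metric.ball_mem_nhds t0 hε
    filter_upwards [hmem] with s hs
    have hs' : |s - t0| < ε := by
      rw [Metric.mem_ball, Real.dist_eq] at hs
      exact hs
    rw [h s hs' x]
  rw [hd, hu]

theorem forceOf_shift (ν : ℝ) (u : ℝ → Pt → Pt) (P : ℝ) (t : ℝ) (x : Pt) :
    forceOf ν (fun s => u (s + P)) t x = forceOf ν u (t + P) x := by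
  funext i
  unfold forceOf
  have hd : deriv (fun s : ℝ => u (s + P) x i) t = deriv (fun s : ℝ => u s x i) (t + P) :=
    deriv_comp_add_const (fun s : ℝ => u s x i) P t
  rw [hd]

end Vale.Agent.Lib.P113
end

section
open scoped ContDiff

namespace Vale.Agent.Lib.P113

/-- A jointly smooth, space-periodic solution with zero pressure of the forced Navier-Stokes
system is a classical solution on every time interval `[0,T]`. -/
theorem classicalOn_of_smooth (ν : ℝ) (f u : ℝ → Pt → Pt)
    (hu : ContDiff ℝ ∞ (fun q : ℝ × Pt => u q.1 q.2)) (hper : ∀ t, Periodic3 (u t))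
    (hsol : SolvesNS ν f u (fun _ _ => 0)) (T : ℝ) (hT : 0 < T) :
    ClassicalOn ν f T u (fun _ _ => 0) := by
  have hcomp : ∀ k : Fin 3, ContDiff ℝ ∞ (fun q : ℝ × Pt => u q.1 q.2 k) := by
    intro k
    exact (contDiff_pi.mp hu) k
  -- time slices
  have hslice_t : ∀ (x : Pt) (i : Fin 3), ContDiff ℝ ∞ (fun s : ℝ => u s x i) := by
    intro x i
    have hγ : ContDiff ℝ ∞ (fun s : ℝ => ((s, x) : ℝ × Pt)) :=
      contDiff_id.prodMk contDiff_const
    exact (hcomp i).comp hγ
  -- space slices
  have hslice_x : ∀ (t : ℝ) (i : Fin 3), ContDiff ℝ ∞ (fun y : Pt => u t y i) := by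
    intro t i
    have hγ : ContDiff ℝ ∞ (fun y : Pt => ((t, y) : ℝ × Pt)) :=
      contDiff_const.prodMk contDiff_id
    exact (hcomp i).comp hγ
  have hdiff_t : ∀ (x : Pt) (i : Fin 3), Differentiable ℝ (fun s : ℝ => u s x i) :=
    fun x i => (hslice_t x i).differentiable (by simp)
  have hdw : ∀ (x : Pt) (i : Fin 3), ∀ t ∈ Set.Icc (0 : ℝ) T,
      derivWithin (fun s : ℝ => u s x i) (Set.Icc 0 T) t = deriv (fun s : ℝ => u s x i) t := by
    intro x i t ht
    exact (hdiff_t x i t).derivWithin (uniqueDiffOn_Icc hT t ht)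
  have h1 : ∀ i : Fin 3,
      ContDiff ℝ ∞ (fun q : ℝ × Pt => deriv (fun s : ℝ => u s q.2 i) q.1) :=
    fun i => contDiff_deriv_time (fun q : ℝ × Pt => u q.1 q.2 i) (hcomp i)
  have h2 : ∀ i j : Fin 3,
      ContDiff ℝ ∞ (fun q : ℝ × Pt => dX j (fun y => u q.1 y i) q.2) := by
    intro i j
    exact contDiff_dX (fun q : ℝ × Pt => u q.1 q.2 i) (hcomp i) j
  have h3 : ∀ i j k : Fin 3,
      ContDiff ℝ ∞ (fun q : ℝ × Pt => dX k (dX j (fun y => u q.1 y i)) q.2) := by
    intro i j k
    exact contDiff_dX (fun q : ℝ × Pt => dX j (fun y => u q.1 y i) q.2) (h2 i j) k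
  have hz : ∀ (j : Fin 3) (x : Pt), dX j (fun _ : Pt => (0 : ℝ)) x = 0 := by
    intro j x
    unfold dX
    simp
  refine
    { per_v := hper
      per_π := fun t x n => rfl
      cont_v := hu.continuous.continuousOn
      diff_t := fun x i => (hdiff_t x i).differentiableOn
      cont_dt := ?_
      smooth_x := fun t _ i => (hslice_x t i).of_le (WithTop.coe_le_coe.2 le_top)
      cont_dx := fun i j => (h2 i j).continuous.continuousOn
      cont_dxx := fun i j k => (h3 i j k).continuous.continuousOn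
      smooth_π := fun t _ => contDiff_const
      cont_π := continuousOn_const
      cont_dπ := ?_
      mean_π := ?_
      momentum := ?_
      div_free := fun t ht x => hsol.2.1 t ht.1 x
      init := hsol.2.2 }
  · intro i
    refine (h1 i).continuous.continuousOn.congr ?_
    intro q hq
    exact hdw q.2 i q.1 hq.1
  · intro j
    have he : (fun q : ℝ × Pt => dX j ((fun (_ : ℝ) (_ : Pt) => (0 : ℝ)) q.1) q.2)
        = fun _ => (0 : ℝ) := by
      funext q
      exact hz j q.2
    rw [he]
    exact continuousOn_const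
  · intro t _
    simp
  · intro t ht x i
    rw [hdw x i t ht]
    exact hsol.1 t ht.1 x i

end Vale.Agent.Lib.P113
end

section
open scoped ContDiff

namespace Vale.Agent.Lib.P113

/-- Smooth plateau: equal to `1` on `[-1/16, 9/16]` and to `0` outside `(-1/8, 5/8)`. -/
noncomputable def hB (t : ℝ) : ℝ :=
  Real.smoothTransition (16 * t + 2) * Real.smoothTransition (10 - 16 * t)

lemma hB_contDiff : ContDiff ℝ ∞ hB := by
  unfold hB
  apply ContDiff.mul
  · exact Real.smoothTransition.contDiff.comp ((contDiff_const.mul contDiff_id).add contDiff_const)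
  · exact Real.smoothTransition.contDiff.comp (contDiff_const.sub (contDiff_const.mul contDiff_id))

lemma hB_one {t : ℝ} (h1 : -1/16 ≤ t) (h2 : t ≤ 9/16) : hB t = 1 := by
  unfold hB
  rw [Real.smoothTransition.one_of_one_le (by linarith),
    Real.smoothTransition.one_of_one_le (by linarith)]
  norm_num

lemma hB_zero_left {t : ℝ} (h : t ≤ -1/8) : hB t = 0 := by
  unfold hB
  rw [Real.smoothTransition.zero_of_nonpos (by linarith)]
  simp

lemma hB_zero_right {t : ℝ} (h : 5/8 ≤ t) : hB t = 0 := by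
  unfold hB
  rw [Real.smoothTransition.zero_of_nonpos (x := 10 - 16 * t) (by linarith)]
  simp

/-- One-periodic extension of the restriction of `h` to `[-1/4, 3/4)`. -/
noncomputable def per (h : ℝ → ℝ) (x : ℝ) : ℝ := h (x - ⌊x + 1/4⌋)

lemma per_of_mem (h : ℝ → ℝ) {x : ℝ} (h1 : -1/4 ≤ x) (h2 : x < 3/4) : per h x = h x := by
  unfold per
  have : ⌊x + 1/4⌋ = 0 := by
    rw [Int.floor_eq_iff]; constructor <;> push_cast <;> linarith
  rw [this]; simp

lemma per_add_int (h : ℝ → ℝ) (x : ℝ) (n : ℤ) : per h (x + n) = per h x := by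
  unfold per
  have : x + (n : ℝ) + 1/4 = x + 1/4 + (n : ℝ) := by ring
  rw [this, Int.floor_add_intCast]
  push_cast; ring_nf

lemma per_contDiff {h : ℝ → ℝ} (hh : ContDiff ℝ ∞ h) (h0 : ∀ y, y ≤ -1/8 → h y = 0)
    (h1 : ∀ y, 5/8 ≤ y → h y = 0) : ContDiff ℝ ∞ (per h) :=
  contDiff_comp_rep hh h0 h1

lemma per_hasDerivAt {h : ℝ → ℝ} (hh : ContDiff ℝ ∞ h) (h0 : ∀ y, y ≤ -1/8 → h y = 0)
    (h1 : ∀ y, 5/8 ≤ y → h y = 0) (x : ℝ) : HasDerivAt (per h) (per (deriv h) x) x :=
  hasDerivAt_comp_rep hh h0 h1 x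

lemma deriv_zero_left {h : ℝ → ℝ} (h0 : ∀ y, y ≤ -1/8 → h y = 0) :
    ∀ y, y ≤ -1/8 → deriv h y = 0 := by
  intro y hy
  by_cases hd : DifferentiableAt ℝ h y
  · have h1 : HasDerivWithinAt h (deriv h y) (Set.Iic y) y := hd.hasDerivAt.hasDerivWithinAt
    have h2 : HasDerivWithinAt (fun _ : ℝ => (0 : ℝ)) 0 (Set.Iic y) y := hasDerivWithinAt_const _ _ _
    have h3 : HasDerivWithinAt h 0 (Set.Iic y) y :=
      h2.congr (fun z hz => h0 z (le_trans hz hy)) (h0 y hy)
    exact (uniqueDiffWithinAt_Iic y).eq_deriv _ h1 h3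
  · exact deriv_zero_of_not_differentiableAt hd

lemma deriv_zero_right {h : ℝ → ℝ} (h1 : ∀ y, 5/8 ≤ y → h y = 0) :
    ∀ y, 5/8 ≤ y → deriv h y = 0 := by
  intro y hy
  by_cases hd : DifferentiableAt ℝ h y
  · have h2 : HasDerivWithinAt h (deriv h y) (Set.Ici y) y := hd.hasDerivAt.hasDerivWithinAt
    have h3 : HasDerivWithinAt (fun _ : ℝ => (0 : ℝ)) 0 (Set.Ici y) y := hasDerivWithinAt_const _ _ _
    have h4 : HasDerivWithinAt h 0 (Set.Ici y) y :=
      h3.congr (fun z hz => h1 z (le_trans hy hz)) (h1 y hy)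
    exact (uniqueDiffWithinAt_Ici y).eq_deriv _ h2 h4
  · exact deriv_zero_of_not_differentiableAt hd

end Vale.Agent.Lib.P113
end

section
namespace Vale.Agent.Lib.P113

/-- value of the digit stream `D` in base `2N`: `Σ_i D_i / (2N)^(i+1)` -/
noncomputable def code (N : ℕ) (D : ℕ → ℕ) : ℝ := ∑' i : ℕ, (D i : ℝ) / (2 * (N : ℝ)) ^ (i + 1)

/-- put a digit in front -/
def dcons (d : ℕ) (D : ℕ → ℕ) : ℕ → ℕ := fun i => Nat.casesOn i d D

theorem dcons_zero (d : ℕ) (D : ℕ → ℕ) : dcons d D 0 = d := rfl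

theorem dcons_succ (d : ℕ) (D : ℕ → ℕ) (i : ℕ) : dcons d D (i + 1) = D i := rfl

theorem dcons_lt (N : ℕ) (d : ℕ) (hd : d < N) (D : ℕ → ℕ) (hD : ∀ i, D i < N) :
    ∀ i, dcons d D i < N := by
  intro i
  cases i with
  | zero => exact hd
  | succ i => exact hD i

theorem two_N_pos (N : ℕ) (hN : 1 ≤ N) : (0 : ℝ) < 2 * (N : ℝ) := by
  have : (1 : ℝ) ≤ (N : ℝ) := by exact_mod_cast hN
  linarith

theorem ratio_lt_one (N : ℕ) (hN : 1 ≤ N) : (1 : ℝ) / (2 * (N : ℝ)) < 1 := by
  have : (1 : ℝ) ≤ (N : ℝ) := by exact_mod_cast hN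
  rw [div_lt_one (two_N_pos N hN)]
  linarith

theorem term_le (N : ℕ) (hN : 1 ≤ N) (D : ℕ → ℕ) (hD : ∀ i, D i < N) (i : ℕ) :
    (D i : ℝ) / (2 * (N : ℝ)) ^ (i + 1) ≤
      (((N : ℝ) - 1) / (2 * (N : ℝ))) * (1 / (2 * (N : ℝ))) ^ i := by
  have h2N := two_N_pos N hN
  have hDi : (D i : ℝ) ≤ (N : ℝ) - 1 := by
    have h1 : D i + 1 ≤ N := hD i
    have h2 : ((D i + 1 : ℕ) : ℝ) ≤ (N : ℝ) := by exact_mod_cast h1
    push_cast at h2
    linarith
  have hpow : (0 : ℝ) < (2 * (N : ℝ)) ^ (i + 1) := pow_pos h2N _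
  have hrhs : (((N : ℝ) - 1) / (2 * (N : ℝ))) * (1 / (2 * (N : ℝ))) ^ i =
      ((N : ℝ) - 1) / (2 * (N : ℝ)) ^ (i + 1) := by
    rw [one_div, inv_pow, pow_succ]
    field_simp
  rw [hrhs]
  exact div_le_div_of_nonneg_right hDi hpow.le

theorem term_nonneg (N : ℕ) (hN : 1 ≤ N) (D : ℕ → ℕ) (i : ℕ) :
    0 ≤ (D i : ℝ) / (2 * (N : ℝ)) ^ (i + 1) :=
  div_nonneg (Nat.cast_nonneg _) (pow_pos (two_N_pos N hN) _).le

theorem geom_summable (N : ℕ) (hN : 1 ≤ N) :
    Summable (fun i : ℕ => (((N : ℝ) - 1) / (2 * (N : ℝ))) * (1 / (2 * (N : ℝ))) ^ i) :=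
  (summable_geometric_of_lt_one (by positivity) (ratio_lt_one N hN)).mul_left _

theorem code_summable (N : ℕ) (hN : 1 ≤ N) (D : ℕ → ℕ) (hD : ∀ i, D i < N) :
    Summable (fun i : ℕ => (D i : ℝ) / (2 * (N : ℝ)) ^ (i + 1)) :=
  Summable.of_nonneg_of_le (term_nonneg N hN D) (term_le N hN D hD) (geom_summable N hN)

theorem code_tail (N : ℕ) (hN : 1 ≤ N) (D : ℕ → ℕ) (hD : ∀ i, D i < N) :
    code N D = ((D 0 : ℝ) + code N (fun i => D (i + 1))) / (2 * N) := by
  have h2N := two_N_pos N hN
  unfold code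
  rw [(code_summable N hN D hD).tsum_eq_zero_add]
  have hterm : ∀ i : ℕ, (D (i + 1) : ℝ) / (2 * (N : ℝ)) ^ (i + 1 + 1) =
      ((D (i + 1) : ℝ) / (2 * (N : ℝ)) ^ (i + 1)) / (2 * (N : ℝ)) := by
    intro i
    rw [pow_succ (2 * (N : ℝ)) (i + 1), div_div]
  simp_rw [hterm]
  rw [tsum_div_const]
  simp only [zero_add, pow_one]
  ring

theorem code_dcons (N : ℕ) (hN : 1 ≤ N) (d : ℕ) (hd : d < N) (D : ℕ → ℕ) (hD : ∀ i, D i < N) :
    code N (dcons d D) = ((d : ℝ) + code N D) / (2 * N) := by
  rw [code_tail N hN (dcons d D) (dcons_lt N d hd D hD)]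
  rfl

theorem code_nonneg (N : ℕ) (hN : 1 ≤ N) (D : ℕ → ℕ) (_hD : ∀ i, D i < N) : 0 ≤ code N D :=
  tsum_nonneg (term_nonneg N hN D)

theorem code_le_half (N : ℕ) (hN : 1 ≤ N) (D : ℕ → ℕ) (hD : ∀ i, D i < N) : code N D ≤ 1 / 2 := by
  have h2N := two_N_pos N hN
  have hN1 : (1 : ℝ) ≤ (N : ℝ) := by exact_mod_cast hN
  have h1 : code N D ≤ ∑' i : ℕ, (((N : ℝ) - 1) / (2 * (N : ℝ))) * (1 / (2 * (N : ℝ))) ^ i :=
    (code_summable N hN D hD).tsum_le_tsum (term_le N hN D hD) (geom_summable N hN)
  rw [tsum_mul_left, tsum_geometric_of_lt_one (by positivity) (ratio_lt_one N hN)] at h1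
  refine le_trans h1 ?_
  have h3 : (1 : ℝ) - 1 / (2 * (N : ℝ)) = (2 * (N : ℝ) - 1) / (2 * (N : ℝ)) := by
    field_simp
  rw [h3, inv_div, div_mul_div_comm, mul_comm ((N : ℝ) - 1) (2 * (N : ℝ)),
    mul_div_mul_left _ _ (ne_of_gt h2N), div_le_iff₀ (by linarith)]
  linarith

theorem digit_test (N : ℕ) (hN : 1 ≤ N) (D : ℕ → ℕ) (hD : ∀ i, D i < N) (e : ℕ) :
    hB (2 * (N : ℝ) * code N D - e) = if D 0 = e then 1 else 0 := by
  have h2N := two_N_pos N hN
  have htail := code_tail N hN D hD
  have hD' : ∀ i, D (i + 1) < N := fun i => hD (i + 1)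
  have h0 := code_nonneg N hN (fun i => D (i + 1)) hD'
  have h1 := code_le_half N hN (fun i => D (i + 1)) hD'
  have hval : 2 * (N : ℝ) * code N D - e = ((D 0 : ℝ) - e) + code N (fun i => D (i + 1)) := by
    rw [htail]
    field_simp
    ring
  rw [hval]
  by_cases hDe : D 0 = e
  · rw [if_pos hDe, hDe, sub_self, zero_add]
    exact hB_one (by linarith) (by linarith)
  · rw [if_neg hDe]
    rcases lt_or_gt_of_ne hDe with hlt | hgt
    · have h2 : (D 0 : ℝ) + 1 ≤ (e : ℝ) := by exact_mod_cast hlt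
      exact hB_zero_left (by linarith)
    · have h2 : (e : ℝ) + 1 ≤ (D 0 : ℝ) := by exact_mod_cast hgt
      exact hB_zero_right (by linarith)

theorem code_zero (N : ℕ) : code N (fun _ => 0) = 0 := by
  unfold code
  simp

theorem per_code (N : ℕ) (hN : 1 ≤ N) (D : ℕ → ℕ) (hD : ∀ i, D i < N) (h : ℝ → ℝ) :
    per h (code N D) = h (code N D) :=
  per_of_mem h (by linarith [code_nonneg N hN D hD]) (by linarith [code_le_half N hN D hD])

end Vale.Agent.Lib.P113
end

section
open scoped ContDiff

namespace Vale.Agent.Lib.P113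

/-- Test of the first digit. -/
noncomputable def cyl1 (N e0 : ℕ) : ℝ → ℝ := fun x => hB (2 * (N : ℝ) * x - e0)

/-- Test of the first two digits. -/
noncomputable def cyl2 (N e0 e1 : ℕ) : ℝ → ℝ :=
  fun x => hB (2 * (N : ℝ) * x - e0) * hB (2 * (N : ℝ) * (2 * (N : ℝ) * x - e0) - e1)

/-- Test of the first three digits. -/
noncomputable def cyl3 (N e0 e1 e2 : ℕ) : ℝ → ℝ :=
  fun x => hB (2 * (N : ℝ) * x - e0) * hB (2 * (N : ℝ) * (2 * (N : ℝ) * x - e0) - e1)
    * hB (2 * (N : ℝ) * (2 * (N : ℝ) * (2 * (N : ℝ) * x - e0) - e1) - e2)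

lemma cyl1_contDiff (N e0 : ℕ) : ContDiff ℝ ∞ (cyl1 N e0) := by
  unfold cyl1
  exact hB_contDiff.comp ((contDiff_const.mul contDiff_id).sub contDiff_const)

lemma cyl2_contDiff (N e0 e1 : ℕ) : ContDiff ℝ ∞ (cyl2 N e0 e1) := by
  unfold cyl2
  apply ContDiff.mul
  · exact hB_contDiff.comp ((contDiff_const.mul contDiff_id).sub contDiff_const)
  · exact hB_contDiff.comp ((contDiff_const.mul
      ((contDiff_const.mul contDiff_id).sub contDiff_const)).sub contDiff_const)

lemma cyl3_contDiff (N e0 e1 e2 : ℕ) : ContDiff ℝ ∞ (cyl3 N e0 e1 e2) := by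
  unfold cyl3
  apply ContDiff.mul
  · apply ContDiff.mul
    · exact hB_contDiff.comp ((contDiff_const.mul contDiff_id).sub contDiff_const)
    · exact hB_contDiff.comp ((contDiff_const.mul
        ((contDiff_const.mul contDiff_id).sub contDiff_const)).sub contDiff_const)
  · exact hB_contDiff.comp ((contDiff_const.mul ((contDiff_const.mul
      ((contDiff_const.mul contDiff_id).sub contDiff_const)).sub contDiff_const)).sub
        contDiff_const)

lemma first_zero_left (N e0 : ℕ) (hN : 1 ≤ N) {y : ℝ} (hy : y ≤ -1 / 8) :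
    hB (2 * (N : ℝ) * y - e0) = 0 := by
  have hN' : (1 : ℝ) ≤ (N : ℝ) := by exact_mod_cast hN
  have he : (0 : ℝ) ≤ (e0 : ℝ) := by positivity
  apply hB_zero_left
  nlinarith

lemma first_zero_right (N e0 : ℕ) (he0 : e0 < N) {y : ℝ} (hy : 5 / 8 ≤ y) :
    hB (2 * (N : ℝ) * y - e0) = 0 := by
  have he : (e0 : ℝ) + 1 ≤ (N : ℝ) := by exact_mod_cast he0
  apply hB_zero_right
  nlinarith

lemma cyl1_zero_left (N e0 : ℕ) (hN : 1 ≤ N) : ∀ y, y ≤ -1 / 8 → cyl1 N e0 y = 0 := by
  intro y hy; unfold cyl1; exact first_zero_left N e0 hN hy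

lemma cyl1_zero_right (N e0 : ℕ) (he0 : e0 < N) : ∀ y, 5 / 8 ≤ y → cyl1 N e0 y = 0 := by
  intro y hy; unfold cyl1; exact first_zero_right N e0 he0 hy

lemma cyl2_zero_left (N e0 e1 : ℕ) (hN : 1 ≤ N) : ∀ y, y ≤ -1 / 8 → cyl2 N e0 e1 y = 0 := by
  intro y hy; unfold cyl2; rw [first_zero_left N e0 hN hy, zero_mul]

lemma cyl2_zero_right (N e0 e1 : ℕ) (he0 : e0 < N) : ∀ y, 5 / 8 ≤ y → cyl2 N e0 e1 y = 0 := by
  intro y hy; unfold cyl2; rw [first_zero_right N e0 he0 hy, zero_mul]

lemma cyl3_zero_left (N e0 e1 e2 : ℕ) (hN : 1 ≤ N) :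
    ∀ y, y ≤ -1 / 8 → cyl3 N e0 e1 e2 y = 0 := by
  intro y hy; unfold cyl3; rw [first_zero_left N e0 hN hy, zero_mul, zero_mul]

lemma cyl3_zero_right (N e0 e1 e2 : ℕ) (he0 : e0 < N) :
    ∀ y, 5 / 8 ≤ y → cyl3 N e0 e1 e2 y = 0 := by
  intro y hy; unfold cyl3; rw [first_zero_right N e0 he0 hy, zero_mul, zero_mul]

lemma code_shift (N : ℕ) (hN : 1 ≤ N) (D : ℕ → ℕ) (hD : ∀ i, D i < N) :
    2 * (N : ℝ) * code N D - (D 0 : ℝ) = code N (fun i => D (i + 1)) := by
  have hN' : (1 : ℝ) ≤ (N : ℝ) := by exact_mod_cast hN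
  rw [code_tail N hN D hD]
  field_simp
  ring

lemma cyl1_code (N : ℕ) (hN : 1 ≤ N) (D : ℕ → ℕ) (hD : ∀ i, D i < N) (e0 : ℕ) :
    per (cyl1 N e0) (code N D) = if D 0 = e0 then 1 else 0 := by
  rw [per_code N hN D hD]
  unfold cyl1
  exact digit_test N hN D hD e0

lemma cyl2_code (N : ℕ) (hN : 1 ≤ N) (D : ℕ → ℕ) (hD : ∀ i, D i < N) (e0 e1 : ℕ) :
    per (cyl2 N e0 e1) (code N D) = if D 0 = e0 ∧ D 1 = e1 then 1 else 0 := by
  rw [per_code N hN D hD]
  unfold cyl2
  rw [digit_test N hN D hD e0]
  by_cases h0 : D 0 = e0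
  · have hD' : ∀ i, (fun i => D (i + 1)) i < N := fun i => hD (i + 1)
    rw [← h0, code_shift N hN D hD, digit_test N hN _ hD' e1]
    simp
  · simp [h0]

lemma cyl3_code (N : ℕ) (hN : 1 ≤ N) (D : ℕ → ℕ) (hD : ∀ i, D i < N) (e0 e1 e2 : ℕ) :
    per (cyl3 N e0 e1 e2) (code N D) = if D 0 = e0 ∧ D 1 = e1 ∧ D 2 = e2 then 1 else 0 := by
  rw [per_code N hN D hD]
  unfold cyl3
  rw [digit_test N hN D hD e0]
  by_cases h0 : D 0 = e0
  · have hD' : ∀ i, (fun i => D (i + 1)) i < N := fun i => hD (i + 1)
    have hD'' : ∀ i, (fun i => D (i + 1 + 1)) i < N := fun i => hD (i + 1 + 1)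
    rw [← h0, code_shift N hN D hD, digit_test N hN _ hD' e1]
    by_cases h1 : D 1 = e1
    · have hs : 2 * (N : ℝ) * code N (fun i => D (i + 1)) - (D 1 : ℝ)
          = code N (fun i => D (i + 1 + 1)) := code_shift N hN (fun i => D (i + 1)) hD'
      rw [← h1, hs, digit_test N hN _ hD'' e2]
      simp
    · simp [h1]
  · simp [h0]

end Vale.Agent.Lib.P113
end

section
namespace Vale.Agent.Lib.P113

/-- Symbols kept on the two stacks: tape symbols (`inl`), a filler (`inr none`) and
records `inr (some (mode, state, symbol))` of the rule that was applied. -/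
abbrev Sym (M : Machine) : Type :=
  Fin (M.m + 1) ⊕ Option (Bool × Fin (M.k + 1) × Fin (M.m + 1))

/-- The blank tape symbol, as a stack symbol. -/
def blankS (M : Machine) : Sym M := Sum.inl 0

/-- Configurations of the two-stack system: a mode (`true`: the head reads the top of the
right stack; `false`: the head looks for the next tape symbol on the left stack), a machine
state, and the two stacks (both continued by blanks). -/
structure SCfg (M : Machine) where
  mode : Bool
  state : Fin (M.k + 1)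
  right : List (Sym M)
  left : List (Sym M)

/-- The stack symbol that decides the next rule. -/
def SCfg.top {M : Machine} (c : SCfg M) : Sym M :=
  if c.mode then c.right.headD (blankS M) else c.left.headD (blankS M)

/-- One step of the two-stack system. Records and fillers are carried across the head;
a tape symbol triggers the machine transition and leaves a record of the rule used. -/
def stepS (M : Machine) (c : SCfg M) : SCfg M :=
  if c.mode then
    match c.right.headD (blankS M) with
    | Sum.inr g =>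
      { mode := true, state := c.state, right := c.right.tail, left := Sum.inr g :: c.left }
    | Sum.inl s =>
      if (M.trans c.state s).2.2 then
        { mode := true, state := (M.trans c.state s).1, right := c.right.tail,
          left := Sum.inl (M.trans c.state s).2.1 :: Sum.inr (some (true, c.state, s)) :: c.left }
      else
        { mode := false, state := (M.trans c.state s).1,
          right := Sum.inl (M.trans c.state s).2.1 :: Sum.inr (some (true, c.state, s))
            :: c.right.tail,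
          left := c.left }
  else
    match c.left.headD (blankS M) with
    | Sum.inr g =>
      { mode := false, state := c.state, right := Sum.inr g :: c.right, left := c.left.tail }
    | Sum.inl t =>
      if (M.trans c.state t).2.2 then
        { mode := true, state := (M.trans c.state t).1, right := Sum.inr none :: c.right,
          left := Sum.inl (M.trans c.state t).2.1 :: Sum.inr (some (false, c.state, t))
            :: c.left.tail }
      else
        { mode := false, state := (M.trans c.state t).1,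
          right := Sum.inl (M.trans c.state t).2.1 :: Sum.inr (some (false, c.state, t))
            :: c.right,
          left := c.left.tail }

/-- The initial configuration of the two-stack system on input `w`. -/
def initS (M : Machine) (w : List (Fin (M.m + 1))) : SCfg M :=
  { mode := true, state := M.start, right := w.map Sum.inl, left := [] }

/-- The tape symbols of a stack, in order. -/
def stripS (M : Machine) (l : List (Sym M)) : List (Fin (M.m + 1)) :=
  l.filterMap (fun s => Sum.elim some (fun _ => none) s)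

/-- The machine configuration represented by a configuration of the two-stack system. -/
def decodeS (M : Machine) (c : SCfg M) : Cfg M :=
  if c.mode then
    { state := c.state
      tape := fun i => if 0 ≤ i then (stripS M c.right).getD i.toNat 0
        else (stripS M c.left).getD (-1 - i).toNat 0 }
  else
    { state := c.state
      tape := fun i => if 0 ≤ i then ((stripS M c.left).headD 0 :: stripS M c.right).getD i.toNat 0
        else ((stripS M c.left).tail).getD (-1 - i).toNat 0 }

/-- Digit bound of the two-stack system. -/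
def Machine.NS (M : Machine) : ℕ := M.m + 2 + 2 * ((M.k + 1) * (M.m + 1))

/-- Digit of a stack symbol; the blank has digit `0`. -/
def symDigit (M : Machine) : Sym M → ℕ
  | Sum.inl s => s.val
  | Sum.inr none => M.m + 1
  | Sum.inr (some (d, q, s)) =>
      M.m + 2 + (2 * (q.val * (M.m + 1) + s.val) + (if d then 1 else 0))

/-- Digit of a (mode, state) pair. -/
def stDigit (M : Machine) (d : Bool) (q : Fin (M.k + 1)) : ℕ := 2 * q.val + (if d then 1 else 0)

/-- Digit stream of a stack (continued by blanks, that is by zeros). -/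
def padS (M : Machine) (l : List (Sym M)) : ℕ → ℕ := fun i => symDigit M (l.getD i (blankS M))

lemma symDigit_lt (M : Machine) (s : Sym M) : symDigit M s < M.NS := by
  unfold Machine.NS
  rcases s with s | _ | ⟨d, q, s⟩
  · have := s.isLt
    show s.val < _
    omega
  · show M.m + 1 < _
    omega
  · show M.m + 2 + (2 * (q.val * (M.m + 1) + s.val) + (if d then 1 else 0)) < _
    have hq := q.isLt
    have hs := s.isLt
    have h1 : q.val * (M.m + 1) + s.val < (M.k + 1) * (M.m + 1) := by
      have : (q.val + 1) * (M.m + 1) ≤ (M.k + 1) * (M.m + 1) :=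
        Nat.mul_le_mul_right _ (by omega)
      nlinarith
    split_ifs <;> omega

lemma stDigit_lt (M : Machine) (d : Bool) (q : Fin (M.k + 1)) : stDigit M d q < M.NS := by
  unfold stDigit Machine.NS
  have hq := q.isLt
  have h1 : (M.k + 1) * 1 ≤ (M.k + 1) * (M.m + 1) := Nat.mul_le_mul_left _ (by omega)
  split_ifs <;> omega

lemma stDigit_inj (M : Machine) (d d' : Bool) (q q' : Fin (M.k + 1))
    (h : stDigit M d q = stDigit M d' q') : d = d' ∧ q = q' := by
  unfold stDigit at h
  cases d <;> cases d' <;> simp at h <;> first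
    | exact ⟨rfl, Fin.ext (by omega)⟩
    | omega

lemma symDigit_inj (M : Machine) (s s' : Sym M) (h : symDigit M s = symDigit M s') : s = s' := by
  rcases s with s | _ | ⟨d, q, s⟩ <;> rcases s' with s' | _ | ⟨d', q', s'⟩
  · have h' : s.val = s'.val := h
    rw [Fin.ext h']
  · have h' : s.val = M.m + 1 := h
    have := s.isLt
    omega
  · have h' : s.val = M.m + 2 + (2 * (q'.val * (M.m + 1) + s'.val) + (if d' then 1 else 0)) := h
    have := s.isLt
    omega
  · have h' : M.m + 1 = s'.val := h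
    have := s'.isLt
    omega
  · rfl
  · have h' : M.m + 1 = M.m + 2 + (2 * (q'.val * (M.m + 1) + s'.val) + (if d' then 1 else 0)) := h
    omega
  · have h' : M.m + 2 + (2 * (q.val * (M.m + 1) + s.val) + (if d then 1 else 0)) = s'.val := h
    have := s'.isLt
    omega
  · have h' : M.m + 2 + (2 * (q.val * (M.m + 1) + s.val) + (if d then 1 else 0)) = M.m + 1 := h
    omega
  · have h' : M.m + 2 + (2 * (q.val * (M.m + 1) + s.val) + (if d then 1 else 0))
        = M.m + 2 + (2 * (q'.val * (M.m + 1) + s'.val) + (if d' then 1 else 0)) := h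
    have hs := s.isLt
    have hs' := s'.isLt
    have hd : d = d' := by
      cases d <;> cases d' <;> simp at h' <;> first
        | rfl
        | omega
    subst hd
    have h2 : q.val * (M.m + 1) + s.val = q'.val * (M.m + 1) + s'.val := by
      split_ifs at h' <;> omega
    have hq : q.val = q'.val := by
      rcases Nat.lt_trichotomy q.val q'.val with hlt | heq | hgt
      · have : (q.val + 1) * (M.m + 1) ≤ q'.val * (M.m + 1) := Nat.mul_le_mul_right _ hlt
        nlinarith
      · exact heq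
      · have : (q'.val + 1) * (M.m + 1) ≤ q.val * (M.m + 1) := Nat.mul_le_mul_right _ hgt
        nlinarith
    have hs2 : s.val = s'.val := by
      rw [hq] at h2
      omega
    rw [Fin.ext hq, Fin.ext hs2]

lemma symDigit_blank (M : Machine) : symDigit M (blankS M) = 0 := rfl

lemma padS_lt (M : Machine) (l : List (Sym M)) (i : ℕ) : padS M l i < M.NS := symDigit_lt M _

lemma Machine.NS_pos (M : Machine) : 1 ≤ M.NS := by unfold Machine.NS; omega

/-- First coordinate of the code of a configuration of the two-stack system. -/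
noncomputable def encSX (M : Machine) (c : SCfg M) : ℝ :=
  code M.NS (dcons (stDigit M c.mode c.state) (padS M c.right))

/-- Second coordinate of the code. -/
noncomputable def encSY (M : Machine) (c : SCfg M) : ℝ := code M.NS (padS M c.left)

/-- Rule keys: (mode, state, deciding stack symbol). -/
abbrev Key (M : Machine) : Type := Bool × Fin (M.k + 1) × Sym M

/-- The key of the rule applied to a configuration. -/
def keyOf (M : Machine) (c : SCfg M) : Key M := (c.mode, c.state, c.top)

/-- Keys whose state is halting. -/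
def haltS (M : Machine) (κ : Key M) : Bool := M.halting κ.2.1

/-- The base `2 * NS` as a real number. -/
noncomputable def Machine.BS (M : Machine) : ℝ := 2 * (M.NS : ℝ)

/-- Slope of the affine map of the first coordinate under the rule `κ`. -/
noncomputable def lamX (M : Machine) : Key M → ℝ
  | (true, _, Sum.inr _) => M.BS
  | (true, q, Sum.inl s) => if (M.trans q s).2.2 then M.BS else 1 / M.BS
  | (false, _, Sum.inr _) => 1 / M.BS
  | (false, q, Sum.inl t) => if (M.trans q t).2.2 then 1 / M.BS else 1 / M.BS ^ 2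

/-- Offset of the affine map of the first coordinate under the rule `κ`. -/
noncomputable def muX (M : Machine) : Key M → ℝ
  | (true, q, Sum.inr g) =>
      (stDigit M true q : ℝ) / M.BS - (stDigit M true q : ℝ) - (symDigit M (Sum.inr g) : ℝ) / M.BS
  | (true, q, Sum.inl s) =>
      if (M.trans q s).2.2 then
        (stDigit M true (M.trans q s).1 : ℝ) / M.BS - (stDigit M true q : ℝ) - (s.val : ℝ) / M.BS
      else
        (stDigit M false (M.trans q s).1 : ℝ) / M.BS + ((M.trans q s).2.1.val : ℝ) / M.BS ^ 2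
          + (symDigit M (Sum.inr (some (true, q, s))) : ℝ) / M.BS ^ 3
          - (stDigit M true q : ℝ) / M.BS ^ 2 - (s.val : ℝ) / M.BS ^ 3
  | (false, q, Sum.inr g) =>
      (stDigit M false q : ℝ) / M.BS + (symDigit M (Sum.inr g) : ℝ) / M.BS ^ 2
        - (stDigit M false q : ℝ) / M.BS ^ 2
  | (false, q, Sum.inl t) =>
      if (M.trans q t).2.2 then
        (stDigit M true (M.trans q t).1 : ℝ) / M.BS + (symDigit M (Sum.inr none) : ℝ) / M.BS ^ 2
          - (stDigit M false q : ℝ) / M.BS ^ 2
      else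
        (stDigit M false (M.trans q t).1 : ℝ) / M.BS + ((M.trans q t).2.1.val : ℝ) / M.BS ^ 2
          + (symDigit M (Sum.inr (some (false, q, t))) : ℝ) / M.BS ^ 3
          - (stDigit M false q : ℝ) / M.BS ^ 3

/-- Slope of the affine map of the second coordinate under the rule `κ`. -/
noncomputable def lamY (M : Machine) : Key M → ℝ
  | (true, _, Sum.inr _) => 1 / M.BS
  | (true, q, Sum.inl s) => if (M.trans q s).2.2 then 1 / M.BS ^ 2 else 1
  | (false, _, Sum.inr _) => M.BS
  | (false, q, Sum.inl t) => if (M.trans q t).2.2 then 1 / M.BS else M.BS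

/-- Offset of the affine map of the second coordinate under the rule `κ`. -/
noncomputable def muY (M : Machine) : Key M → ℝ
  | (true, _, Sum.inr g) => (symDigit M (Sum.inr g) : ℝ) / M.BS
  | (true, q, Sum.inl s) =>
      if (M.trans q s).2.2 then
        ((M.trans q s).2.1.val : ℝ) / M.BS
          + (symDigit M (Sum.inr (some (true, q, s))) : ℝ) / M.BS ^ 2
      else 0
  | (false, _, Sum.inr g) => - (symDigit M (Sum.inr g) : ℝ)
  | (false, q, Sum.inl t) =>
      if (M.trans q t).2.2 then
        ((M.trans q t).2.1.val : ℝ) / M.BS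
          + (symDigit M (Sum.inr (some (false, q, t))) : ℝ) / M.BS ^ 2 - (t.val : ℝ) / M.BS ^ 2
      else - (t.val : ℝ)

end Vale.Agent.Lib.P113
end

section
open scoped ContDiff

namespace Vale.Agent.Lib.P113

/-- shear in the third direction with profile ψ(x,y) -/
def zShear (ψ : ℝ → ℝ → ℝ) : Pt → Pt := fun p i => if i = 2 then ψ (p 0) (p 1) else 0

theorem zShear_div (ψ : ℝ → ℝ → ℝ) (x : Pt) :
    ∑ j : Fin 3, dX j (fun y => zShear ψ y j) x = 0 := by
  rw [Fin.sum_univ_three]
  have h0 : dX 0 (fun y => zShear ψ y 0) x = 0 := by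
    unfold dX zShear
    simp
  have h1 : dX 1 (fun y => zShear ψ y 1) x = 0 := by
    unfold dX zShear
    simp
  have h2 : dX 2 (fun y => zShear ψ y 2) x = 0 := by
    unfold dX zShear
    simp [Function.update]
  rw [h0, h1, h2]
  simp

theorem zShear_contDiff (ψ : ℝ → ℝ → ℝ)
    (hψ : ContDiff ℝ ∞ (fun q : ℝ × ℝ => ψ q.1 q.2)) : ContDiff ℝ ∞ (zShear ψ) := by
  rw [contDiff_pi]
  intro i
  unfold zShear
  by_cases hi : i = 2
  · simp only [hi, if_true]
    have hpair : ContDiff ℝ ∞ (fun p : Pt => ((p 0, p 1) : ℝ × ℝ)) :=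
      (contDiff_apply ℝ ℝ (0 : Fin 3)).prodMk (contDiff_apply ℝ ℝ (1 : Fin 3))
    exact hψ.comp hpair
  · simp only [hi, if_false]
    exact contDiff_const

theorem zShear_periodic (ψ : ℝ → ℝ → ℝ)
    (hψ : ∀ (x y : ℝ) (a b : ℤ), ψ (x + a) (y + b) = ψ x y) : Periodic3 (zShear ψ) := by
  intro x n
  funext i
  unfold zShear
  by_cases hi : i = 2
  · simp only [hi, if_true]
    exact hψ (x 0) (x 1) (n 0) (n 1)
  · simp only [hi, if_false]

/-- finite sum of planar Hamiltonian-type terms, modulated in the third variable -/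
noncomputable def saddleField {ι : Type} [Fintype ι] (c : ι → ℝ) (Z P DP Q DQ : ι → ℝ → ℝ) :
    Pt → Pt := fun p i =>
  if i = 0 then ∑ b : ι, c b * Z b (p 2) * P b (p 0) * DQ b (p 1)
  else if i = 1 then - ∑ b : ι, c b * Z b (p 2) * DP b (p 0) * Q b (p 1) else 0

theorem saddleField_div {ι : Type} [Fintype ι] (c : ι → ℝ) (Z P DP Q DQ : ι → ℝ → ℝ)
    (hP : ∀ b x, HasDerivAt (P b) (DP b x) x) (hQ : ∀ b y, HasDerivAt (Q b) (DQ b y) y)
    (x : Pt) :
    ∑ j : Fin 3, dX j (fun y => saddleField c Z P DP Q DQ y j) x = 0 := by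
  rw [Fin.sum_univ_three]
  have h0 : dX 0 (fun y => saddleField c Z P DP Q DQ y 0) x
      = ∑ b : ι, c b * Z b (x 2) * DP b (x 0) * DQ b (x 1) := by
    unfold dX saddleField
    have hfun : (fun s : ℝ => if (0 : Fin 3) = 0 then
          ∑ b : ι, c b * Z b (Function.update x 0 s 2) * P b (Function.update x 0 s 0)
            * DQ b (Function.update x 0 s 1)
        else if (0 : Fin 3) = 1 then
          - ∑ b : ι, c b * Z b (Function.update x 0 s 2) * DP b (Function.update x 0 s 0)
            * Q b (Function.update x 0 s 1) else 0)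
        = fun s : ℝ => ∑ b : ι, c b * Z b (x 2) * P b s * DQ b (x 1) := by
      funext s
      simp [Function.update]
    rw [hfun]
    have hd : HasDerivAt (fun s : ℝ => ∑ b : ι, c b * Z b (x 2) * P b s * DQ b (x 1))
        (∑ b : ι, c b * Z b (x 2) * DP b (x 0) * DQ b (x 1)) (x 0) := by
      apply HasDerivAt.fun_sum
      intro b _
      exact ((hP b (x 0)).const_mul (c b * Z b (x 2))).mul_const (DQ b (x 1))
    exact hd.deriv
  have h1 : dX 1 (fun y => saddleField c Z P DP Q DQ y 1) x
      = - ∑ b : ι, c b * Z b (x 2) * DP b (x 0) * DQ b (x 1) := by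
    unfold dX saddleField
    have hfun : (fun s : ℝ => if (1 : Fin 3) = 0 then
          ∑ b : ι, c b * Z b (Function.update x 1 s 2) * P b (Function.update x 1 s 0)
            * DQ b (Function.update x 1 s 1)
        else if (1 : Fin 3) = 1 then
          - ∑ b : ι, c b * Z b (Function.update x 1 s 2) * DP b (Function.update x 1 s 0)
            * Q b (Function.update x 1 s 1) else 0)
        = fun s : ℝ => - ∑ b : ι, c b * Z b (x 2) * DP b (x 0) * Q b s := by
      funext s
      simp [Function.update]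
    rw [hfun]
    have hd : HasDerivAt (fun s : ℝ => - ∑ b : ι, c b * Z b (x 2) * DP b (x 0) * Q b s)
        (- ∑ b : ι, c b * Z b (x 2) * DP b (x 0) * DQ b (x 1)) (x 1) := by
      apply HasDerivAt.neg
      apply HasDerivAt.fun_sum
      intro b _
      exact (hQ b (x 1)).const_mul (c b * Z b (x 2) * DP b (x 0))
    exact hd.deriv
  have h2 : dX 2 (fun y => saddleField c Z P DP Q DQ y 2) x = 0 := by
    unfold dX saddleField
    simp
  rw [h0, h1, h2]
  ring

theorem saddleField_contDiff {ι : Type} [Fintype ι] (c : ι → ℝ) (Z P DP Q DQ : ι → ℝ → ℝ)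
    (hZ : ∀ b, ContDiff ℝ ∞ (Z b)) (hP : ∀ b, ContDiff ℝ ∞ (P b))
    (hDP : ∀ b, ContDiff ℝ ∞ (DP b))
    (hQ : ∀ b, ContDiff ℝ ∞ (Q b)) (hDQ : ∀ b, ContDiff ℝ ∞ (DQ b)) :
    ContDiff ℝ ∞ (saddleField c Z P DP Q DQ) := by
  rw [contDiff_pi]
  intro i
  unfold saddleField
  have e0 : ContDiff ℝ ∞ (fun p : Pt => p 0) := contDiff_apply ℝ ℝ (0 : Fin 3)
  have e1 : ContDiff ℝ ∞ (fun p : Pt => p 1) := contDiff_apply ℝ ℝ (1 : Fin 3)
  have e2 : ContDiff ℝ ∞ (fun p : Pt => p 2) := contDiff_apply ℝ ℝ (2 : Fin 3)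
  by_cases hi0 : i = 0
  · simp only [hi0, if_true]
    apply ContDiff.sum
    intro b _
    exact ((contDiff_const.mul ((hZ b).comp e2)).mul ((hP b).comp e0)).mul ((hDQ b).comp e1)
  · by_cases hi1 : i = 1
    · simp only [hi1, if_true]
      have h10 : ¬ ((1 : Fin 3) = 0) := by decide
      simp only [h10, if_false]
      apply ContDiff.neg
      apply ContDiff.sum
      intro b _
      exact ((contDiff_const.mul ((hZ b).comp e2)).mul ((hDP b).comp e0)).mul ((hQ b).comp e1)
    · simp only [hi0, hi1, if_false]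
      exact contDiff_const

theorem saddleField_periodic {ι : Type} [Fintype ι] (c : ι → ℝ) (Z P DP Q DQ : ι → ℝ → ℝ)
    (hZ : ∀ b x (n : ℤ), Z b (x + n) = Z b x) (hP : ∀ b x (n : ℤ), P b (x + n) = P b x)
    (hDP : ∀ b x (n : ℤ), DP b (x + n) = DP b x)
    (hQ : ∀ b x (n : ℤ), Q b (x + n) = Q b x) (hDQ : ∀ b x (n : ℤ), DQ b (x + n) = DQ b x) :
    Periodic3 (saddleField c Z P DP Q DQ) := by
  intro x n
  funext i
  unfold saddleField
  simp only [hZ, hP, hDP, hQ, hDQ]

theorem const_div (v : Pt) (x : Pt) : ∑ j : Fin 3, dX j (fun _ : Pt => v j) x = 0 := by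
  unfold dX
  simp

theorem glued_div (θ : ℝ → ℝ) (W : ℤ → Pt → Pt)
    (hW : ∀ k x, ∑ j : Fin 3, dX j (fun y => W k y j) x = 0) (t : ℝ) (x : Pt) :
    ∑ j : Fin 3, dX j (fun y => (θ t • W ⌊t⌋ y) j) x = 0 := by
  have h : ∀ j : Fin 3, dX j (fun y => (θ t • W ⌊t⌋ y) j) x
      = θ t * dX j (fun y => W ⌊t⌋ y j) x := by
    intro j
    unfold dX
    simp only [Pi.smul_apply, smul_eq_mul]
    exact deriv_const_mul_field (θ t)
  simp only [h]
  rw [← Finset.mul_sum, hW, mul_zero]

theorem glued_periodic (θ : ℝ → ℝ) (W : ℤ → Pt → Pt) (hW : ∀ k, Periodic3 (W k)) (t : ℝ) :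
    Periodic3 (fun y => θ t • W ⌊t⌋ y) := by
  intro x n
  show θ t • W ⌊t⌋ (fun i => x i + n i) = θ t • W ⌊t⌋ x
  rw [hW ⌊t⌋ x n]

end Vale.Agent.Lib.P113
end

section
open scoped ContDiff

namespace Vale.Agent.Lib.P113

/-- Time profile of one phase: `0` up to time `1/4`, `1` from time `3/4` on. -/
noncomputable def ThS (τ : ℝ) : ℝ := Real.smoothTransition (2 * τ - 1 / 2)

/-- Its derivative. -/
noncomputable def dThS (τ : ℝ) : ℝ := deriv ThS τ

lemma ThS_contDiff : ContDiff ℝ ∞ ThS := by
  unfold ThS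
  exact Real.smoothTransition.contDiff.comp ((contDiff_const.mul contDiff_id).sub contDiff_const)

lemma ThS_hasDerivAt (τ : ℝ) : HasDerivAt ThS (dThS τ) τ :=
  ((ThS_contDiff.differentiable (by simp)).differentiableAt).hasDerivAt

lemma ThS_zero (τ : ℝ) (h : τ ≤ 1 / 4) : ThS τ = 0 := by
  unfold ThS
  exact Real.smoothTransition.zero_of_nonpos (by linarith)

lemma ThS_one (τ : ℝ) (h : 3 / 4 ≤ τ) : ThS τ = 1 := by
  unfold ThS
  exact Real.smoothTransition.one_of_one_le (by linarith)

lemma ThS_range (τ : ℝ) : 0 ≤ ThS τ ∧ ThS τ ≤ 1 := by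
  unfold ThS
  exact ⟨Real.smoothTransition.nonneg _, Real.smoothTransition.le_one _⟩

lemma dThS_contDiff : ContDiff ℝ ∞ dThS :=
  (contDiff_infty_iff_deriv.mp ThS_contDiff).2

lemma dThS_zero_left (τ : ℝ) (h : τ < 1 / 4) : dThS τ = 0 := by
  have h1 : HasDerivAt ThS 0 τ := by
    refine (hasDerivAt_const τ (0 : ℝ)).congr_of_eventuallyEq ?_
    filter_upwards [Iio_mem_nhds h] with s hs
    exact ThS_zero s (le_of_lt hs)
  exact (ThS_hasDerivAt τ).unique h1

lemma dThS_zero_right (τ : ℝ) (h : 3 / 4 < τ) : dThS τ = 0 := by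
  have h1 : HasDerivAt ThS 0 τ := by
    refine (hasDerivAt_const τ (1 : ℝ)).congr_of_eventuallyEq ?_
    filter_upwards [Ioi_mem_nhds h] with s hs
    exact ThS_one s (le_of_lt hs)
  exact (ThS_hasDerivAt τ).unique h1

/-- The speed factor at time `t`: the derivative of the profile at the time elapsed since the
last integer time. -/
noncomputable def thT (t : ℝ) : ℝ := dThS (t - ⌊t⌋)

lemma thT_eq (t : ℝ) : thT t = per (fun y => dThS (y + 1 / 4)) (t - 1 / 4) := by
  unfold thT per
  have h1 : t - 1 / 4 + 1 / 4 = t := by ring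
  rw [h1]
  congr 1
  ring

lemma thT_contDiff : ContDiff ℝ ∞ thT := by
  have h : thT = fun t => per (fun y => dThS (y + 1 / 4)) (t - 1 / 4) := funext thT_eq
  rw [h]
  have hp : ContDiff ℝ ∞ (per (fun y => dThS (y + 1 / 4))) := by
    apply per_contDiff
    · exact dThS_contDiff.comp (contDiff_id.add contDiff_const)
    · intro y hy
      exact dThS_zero_left _ (by linarith)
    · intro y hy
      exact dThS_zero_right _ (by linarith)
  exact hp.comp (contDiff_id.sub contDiff_const)

lemma thT_zero (t : ℝ) (n : ℤ) (h : |t - n| ≤ 1 / 8) : thT t = 0 := by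
  unfold thT
  rw [abs_le] at h
  rcases lt_or_ge t (n : ℝ) with hlt | hge
  · have hfl : ⌊t⌋ = n - 1 := by
      rw [Int.floor_eq_iff]
      push_cast
      constructor <;> linarith
    rw [hfl]
    push_cast
    exact dThS_zero_right _ (by linarith)
  · have hfl : ⌊t⌋ = n := by
      rw [Int.floor_eq_iff]
      constructor <;> linarith
    rw [hfl]
    exact dThS_zero_left _ (by linarith)

lemma thT_add_int (t : ℝ) (n : ℤ) : thT (t + n) = thT t := by
  unfold thT
  rw [Int.floor_add_intCast]
  push_cast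
  congr 1
  ring

/-- The velocity field obtained by running the field `W k` during the time interval
`[k, k + 1]`, with the speed factor `thT`. -/
noncomputable def gluedU (W : ℤ → Pt → Pt) : ℝ → Pt → Pt := fun t p => thT t • W ⌊t⌋ p

lemma gluedU_contDiff (W : ℤ → Pt → Pt) (hW : ∀ k, ContDiff ℝ ∞ (W k)) :
    ContDiff ℝ ∞ (fun q : ℝ × Pt => gluedU W q.1 q.2) :=
  contDiff_glue thT thT_contDiff thT_zero W hW

lemma gluedU_periodic (W : ℤ → Pt → Pt) (hW : ∀ k, Periodic3 (W k)) (t : ℝ) :
    Periodic3 (gluedU W t) :=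
  glued_periodic thT W hW t

lemma gluedU_div (W : ℤ → Pt → Pt)
    (hW : ∀ k x, ∑ j : Fin 3, dX j (fun y => W k y j) x = 0) (t : ℝ) (x : Pt) :
    ∑ j : Fin 3, dX j (fun y => gluedU W t y j) x = 0 :=
  glued_div thT W hW t x

lemma gluedU_zero (W : ℤ → Pt → Pt) (x : Pt) : gluedU W 0 x = 0 := by
  unfold gluedU
  have : thT 0 = 0 := thT_zero 0 0 (by norm_num)
  rw [this, zero_smul]

lemma gluedU_solves (ν : ℝ) (W : ℤ → Pt → Pt)
    (hW : ∀ k x, ∑ j : Fin 3, dX j (fun y => W k y j) x = 0) :
    SolvesNS ν (forceOf ν (gluedU W)) (gluedU W) (fun _ _ => 0) :=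
  solvesNS_forceOf ν (gluedU W) (fun t _ x => gluedU_div W hW t x) (gluedU_zero W)

/-- Two schedules that agree from the index `1` on give the same force from time `1` on. -/
lemma force_eq_of_agree (ν : ℝ) (W W' : ℤ → Pt → Pt) (h : ∀ k : ℤ, 1 ≤ k → W k = W' k)
    (t : ℝ) (ht : 1 ≤ t) (x : Pt) : forceOf ν (gluedU W) t x = forceOf ν (gluedU W') t x := by
  apply forceOf_congr ν (gluedU W) (gluedU W') t (1 / 8) (by norm_num)
  intro s hs y
  rw [abs_lt] at hs
  unfold gluedU
  rcases lt_or_ge s 1 with hlt | hge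
  · have : thT s = 0 := thT_zero s 1 (by rw [abs_le]; push_cast; constructor <;> linarith)
    rw [this, zero_smul, zero_smul]
  · have hk : (1 : ℤ) ≤ ⌊s⌋ := Int.le_floor.mpr (by exact_mod_cast hge)
    rw [h ⌊s⌋ hk]

/-- A schedule of period `3` gives a force of period `3`. -/
lemma force_periodic (ν : ℝ) (W : ℤ → Pt → Pt) (h : ∀ k : ℤ, W (k + 3) = W k)
    (t : ℝ) (x : Pt) : forceOf ν (gluedU W) (t + 3) x = forceOf ν (gluedU W) t x := by
  rw [← forceOf_shift ν (gluedU W) 3 t x]
  have hu : (fun s => gluedU W (s + 3)) = gluedU W := by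
    funext s p
    unfold gluedU
    have h1 : thT (s + 3) = thT s := by
      have := thT_add_int s 3
      push_cast at this
      exact this
    have h2 : ⌊s + 3⌋ = ⌊s⌋ + 3 := by
      have := Int.floor_add_intCast s 3
      push_cast at this
      exact this
    rw [h1, h2, h]
  rw [hu]

/-- During the first unit of time a schedule that starts with a constant field `v0` gives a
force that is constant in space: the derivative of the speed factor times `v0`. -/
lemma force_kick (ν : ℝ) (W : ℤ → Pt → Pt) (v0 : Pt) (h0 : W 0 = fun _ => v0)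
    (t : ℝ) (ht0 : 0 ≤ t) (ht1 : t ≤ 1) (x : Pt) :
    forceOf ν (gluedU W) t x = deriv thT t • v0 := by
  have hc : ∀ y, forceOf ν (gluedU W) t y = forceOf ν (fun s _ => thT s • v0) t y := by
    apply forceOf_congr ν (gluedU W) (fun s _ => thT s • v0) t (1 / 8) (by norm_num)
    intro s hs y
    rw [abs_lt] at hs
    unfold gluedU
    rcases lt_or_ge s 0 with hneg | hpos
    · have : thT s = 0 := thT_zero s 0 (by rw [abs_le]; push_cast; constructor <;> linarith)
      rw [this, zero_smul, zero_smul]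
    · rcases lt_or_ge s 1 with hlt | hge
      · have hfl : ⌊s⌋ = 0 := by
          rw [Int.floor_eq_iff]
          push_cast
          constructor <;> linarith
        rw [hfl, h0]
      · have : thT s = 0 := thT_zero s 1 (by rw [abs_le]; push_cast; constructor <;> linarith)
        rw [this, zero_smul, zero_smul]
  rw [hc x]
  funext i
  unfold forceOf
  have hd1 : ∀ j : Fin 3, dX j (fun _ : Pt => (thT t • v0) i) x = 0 := by
    intro j
    unfold dX
    simp
  have hd2 : ∀ j : Fin 3, dX j (dX j (fun _ : Pt => (thT t • v0) i)) x = 0 := by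
    intro j
    unfold dX
    simp
  have hdt : deriv (fun s : ℝ => (thT s • v0) i) t = deriv thT t * v0 i := by
    have hdiff : DifferentiableAt ℝ thT t := (thT_contDiff.differentiable (by simp)).differentiableAt
    have : (fun s : ℝ => (thT s • v0) i) = fun s : ℝ => thT s * v0 i := by
      funext s
      simp
    rw [this]
    exact deriv_mul_const hdiff (v0 i)
  simp only [hd1, hd2, hdt]
  simp

/-- The glued curve follows the glued velocity field. -/
lemma gluedU_traj (pos : ℤ → ℝ → Pt) (W : ℤ → Pt → Pt)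
    (hjoin : ∀ k : ℤ, pos k 1 = pos (k + 1) 0)
    (hflow : ∀ (k : ℤ) (σ : ℝ), 0 ≤ σ → σ ≤ 1 → HasDerivAt (pos k) (W k (pos k σ)) σ) (t : ℝ) :
    HasDerivAt (fun s : ℝ => pos ⌊s⌋ (ThS (s - ⌊s⌋)))
      (gluedU W t (pos ⌊t⌋ (ThS (t - ⌊t⌋)))) t :=
  traj_glue ThS dThS ThS_hasDerivAt ThS_zero ThS_one ThS_range pos W hjoin hflow t

end Vale.Agent.Lib.P113
end

section
namespace Vale.Agent.Lib.P113

/-- Reversibility of the transition table (Bennett): two distinct (state, symbol) pairs that
lead to the same state move the head in the same direction and write different symbols. -/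
def Machine.Reversible (M : Machine) : Prop :=
  ∀ (q₁ q₂ : Fin (M.k + 1)) (s₁ s₂ : Fin (M.m + 1)), (q₁, s₁) ≠ (q₂, s₂) →
    (M.trans q₁ s₁).1 = (M.trans q₂ s₂).1 →
      (M.trans q₁ s₁).2.2 = (M.trans q₂ s₂).2.2 ∧ (M.trans q₁ s₁).2.1 ≠ (M.trans q₂ s₂).2.1

/-- Digit bound for the machine `M`: all state and symbol digits are below `N`. -/
def Machine.N (M : Machine) : ℕ := M.k + M.m + 2

lemma Machine.N_pos (M : Machine) : 1 ≤ M.N := by unfold Machine.N; omega

/-- The base `2N` as a real number. -/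
noncomputable def Machine.B (M : Machine) : ℝ := 2 * (M.N : ℝ)

lemma Machine.B_ge (M : Machine) : 4 ≤ M.B := by
  unfold Machine.B Machine.N
  have : (2 : ℝ) ≤ ((M.k + M.m + 2 : ℕ) : ℝ) := by
    push_cast
    have h1 : (0 : ℝ) ≤ (M.k : ℝ) := by positivity
    have h2 : (0 : ℝ) ≤ (M.m : ℝ) := by positivity
    linarith
  linarith

/-- Tape digits from the head to the right (cell `0, 1, 2, …`). -/
def rdig (M : Machine) (c : Cfg M) : ℕ → ℕ := fun i => (c.tape (i : ℤ)).val

/-- Tape digits to the left of the head (cell `-1, -2, …`). -/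
def ldig (M : Machine) (c : Cfg M) : ℕ → ℕ := fun i => (c.tape (-1 - (i : ℤ))).val

/-- Digit stream of the first coordinate: the state, then the right part of the tape. -/
def xdig (M : Machine) (c : Cfg M) : ℕ → ℕ := dcons c.state.val (rdig M c)

lemma rdig_lt (M : Machine) (c : Cfg M) (i : ℕ) : rdig M c i < M.N := by
  unfold rdig Machine.N
  have := (c.tape (i : ℤ)).isLt
  omega

lemma ldig_lt (M : Machine) (c : Cfg M) (i : ℕ) : ldig M c i < M.N := by
  unfold ldig Machine.N
  have := (c.tape (-1 - (i : ℤ))).isLt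
  omega

lemma state_lt (M : Machine) (q : Fin (M.k + 1)) : q.val < M.N := by
  unfold Machine.N
  have := q.isLt
  omega

lemma sym_lt (M : Machine) (s : Fin (M.m + 1)) : s.val < M.N := by
  unfold Machine.N
  have := s.isLt
  omega

lemma xdig_lt (M : Machine) (c : Cfg M) (i : ℕ) : xdig M c i < M.N := by
  unfold xdig dcons
  cases i with
  | zero => exact state_lt M c.state
  | succ j => exact rdig_lt M c j

/-- First coordinate of the code of a configuration. -/
noncomputable def encX (M : Machine) (c : Cfg M) : ℝ := code M.N (xdig M c)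

/-- Second coordinate of the code of a configuration. -/
noncomputable def encY (M : Machine) (c : Cfg M) : ℝ := code M.N (ldig M c)

lemma encX_mem (M : Machine) (c : Cfg M) : 0 ≤ encX M c ∧ encX M c ≤ 1 / 2 :=
  ⟨code_nonneg _ M.N_pos _ (xdig_lt M c), code_le_half _ M.N_pos _ (xdig_lt M c)⟩

lemma encY_mem (M : Machine) (c : Cfg M) : 0 ≤ encY M c ∧ encY M c ≤ 1 / 2 :=
  ⟨code_nonneg _ M.N_pos _ (ldig_lt M c), code_le_half _ M.N_pos _ (ldig_lt M c)⟩

/-- Blocks: (state, scanned symbol, symbol left of the head). -/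
abbrev Blk (M : Machine) : Type := Fin (M.k + 1) × Fin (M.m + 1) × Fin (M.m + 1)

/-- The block of a configuration. -/
def blk (M : Machine) (c : Cfg M) : Blk M := (c.state, c.tape 0, c.tape (-1))

/-- Stream identities for a right move. -/
lemma rdig_next_right (M : Machine) (c : Cfg M) (h : (M.trans c.state (c.tape 0)).2.2 = true) :
    rdig M (M.next c) = fun i => rdig M c (i + 1) := by
  funext i
  unfold rdig Machine.next
  simp only [h, if_true]
  rw [Function.update_of_ne (by omega)]
  push_cast; rfl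

lemma ldig_next_right (M : Machine) (c : Cfg M) (h : (M.trans c.state (c.tape 0)).2.2 = true) :
    ldig M (M.next c) = dcons (M.trans c.state (c.tape 0)).2.1.val (ldig M c) := by
  funext i
  unfold ldig Machine.next dcons
  simp only [h, if_true]
  cases i with
  | zero => simp
  | succ j =>
    rw [Function.update_of_ne (by push_cast; omega)]
    simp only
    congr 2
    push_cast; ring

lemma rdig_next_left (M : Machine) (c : Cfg M) (h : (M.trans c.state (c.tape 0)).2.2 = false) :
    rdig M (M.next c) = dcons (c.tape (-1)).val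
      (dcons (M.trans c.state (c.tape 0)).2.1.val (fun i => rdig M c (i + 1))) := by
  funext i
  unfold rdig Machine.next dcons
  simp only [h]
  cases i with
  | zero => simp
  | succ j =>
    cases j with
    | zero => simp
    | succ l =>
      rw [Function.update_of_ne (by push_cast; omega)]
      simp only
      congr 2
      push_cast; ring

lemma ldig_next_left (M : Machine) (c : Cfg M) (h : (M.trans c.state (c.tape 0)).2.2 = false) :
    ldig M (M.next c) = fun i => ldig M c (i + 1) := by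
  funext i
  unfold ldig Machine.next
  simp only [h, Bool.false_eq_true, if_false]
  rw [Function.update_of_ne (by omega)]
  congr 2
  push_cast; ring

lemma next_state (M : Machine) (c : Cfg M) :
    (M.next c).state = (M.trans c.state (c.tape 0)).1 := rfl

/-- Center (first coordinate) of the affine hyperbolic map attached to a block. -/
noncomputable def xc (M : Machine) (b : Blk M) : ℝ :=
  if (M.trans b.1 b.2.1).2.2 then
    ((b.1.val : ℝ) - (((M.trans b.1 b.2.1).1.val : ℝ) - (b.2.1.val : ℝ)) / M.B) / (M.B - 1)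
  else
    (((M.trans b.1 b.2.1).1.val : ℝ) + ((b.2.2.val : ℝ) - (b.1.val : ℝ)) / M.B
      + (((M.trans b.1 b.2.1).2.1.val : ℝ) - (b.2.1.val : ℝ)) / M.B ^ 2) / (M.B - 1)

/-- Center (second coordinate) of the affine hyperbolic map attached to a block. -/
noncomputable def yc (M : Machine) (b : Blk M) : ℝ :=
  if (M.trans b.1 b.2.1).2.2 then ((M.trans b.1 b.2.1).2.1.val : ℝ) / (M.B - 1)
  else (b.2.2.val : ℝ) / (M.B - 1)

/-- Logarithmic expansion rate of the first coordinate on a block. -/
noncomputable def alpha (M : Machine) (b : Blk M) : ℝ :=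
  if (M.trans b.1 b.2.1).2.2 then Real.log M.B else - Real.log M.B

lemma xdig_tail_tail (M : Machine) (c : Cfg M) :
    encX M c = ((c.state.val : ℝ) + (((c.tape 0).val : ℝ)
      + code M.N (fun i => rdig M c (i + 1))) / M.B) / M.B := by
  unfold encX xdig Machine.B
  rw [code_dcons _ M.N_pos _ (state_lt M c.state) _ (rdig_lt M c),
    code_tail _ M.N_pos _ (rdig_lt M c)]
  simp [rdig]

/-- The code of the next configuration is the image of the code under the affine hyperbolic
map of the current block. -/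
theorem enc_next (M : Machine) (c : Cfg M) :
    encX M (M.next c) = xc M (blk M c) + (encX M c - xc M (blk M c)) * Real.exp (alpha M (blk M c))
    ∧ encY M (M.next c)
      = yc M (blk M c) + (encY M c - yc M (blk M c)) * Real.exp (- alpha M (blk M c)) := by
  have hB4 := M.B_ge
  have hB0 : (0 : ℝ) < M.B := by linarith
  have hB1 : M.B - 1 ≠ 0 := by linarith
  have hexp : Real.exp (Real.log M.B) = M.B := Real.exp_log hB0
  have hX := xdig_tail_tail M c
  set T : ℝ := code M.N (fun i => rdig M c (i + 1)) with hT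
  have hTlt : ∀ i, (fun i => rdig M c (i + 1)) i < M.N := fun i => rdig_lt M c (i + 1)
  by_cases h : (M.trans c.state (c.tape 0)).2.2 = true
  · -- right move
    have hx' : encX M (M.next c) = (((M.trans c.state (c.tape 0)).1.val : ℝ) + T) / M.B := by
      unfold encX xdig
      rw [next_state, rdig_next_right M c h,
        code_dcons _ M.N_pos _ (state_lt M _) _ hTlt]
      rfl
    have hy' : encY M (M.next c)
        = (((M.trans c.state (c.tape 0)).2.1.val : ℝ) + encY M c) / M.B := by
      unfold encY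
      rw [ldig_next_right M c h, code_dcons _ M.N_pos _ (sym_lt M _) _ (ldig_lt M c)]
      rfl
    have hxc : xc M (blk M c) = ((c.state.val : ℝ)
        - (((M.trans c.state (c.tape 0)).1.val : ℝ) - ((c.tape 0).val : ℝ)) / M.B) / (M.B - 1) := by
      unfold xc blk; simp only [h, if_true]
    have hyc : yc M (blk M c) = ((M.trans c.state (c.tape 0)).2.1.val : ℝ) / (M.B - 1) := by
      unfold yc blk; simp only [h, if_true]
    have ha : alpha M (blk M c) = Real.log M.B := by
      unfold alpha blk; simp only [h, if_true]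
    rw [ha, Real.exp_neg, hexp, hx', hy', hxc, hyc, hX]
    constructor
    · field_simp
      ring
    · field_simp
      ring
  · -- left move
    have h' : (M.trans c.state (c.tape 0)).2.2 = false := by simpa using h
    have hx' : encX M (M.next c) = (((M.trans c.state (c.tape 0)).1.val : ℝ)
        + (((c.tape (-1)).val : ℝ) + (((M.trans c.state (c.tape 0)).2.1.val : ℝ) + T) / M.B)
          / M.B) / M.B := by
      unfold encX xdig
      have hlt2 : ∀ i, dcons (M.trans c.state (c.tape 0)).2.1.val (fun i => rdig M c (i + 1)) i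
          < M.N := by
        intro i
        cases i with
        | zero => exact sym_lt M _
        | succ j => exact rdig_lt M c (j + 1)
      have hlt3 : ∀ i, dcons (c.tape (-1)).val
          (dcons (M.trans c.state (c.tape 0)).2.1.val (fun i => rdig M c (i + 1))) i < M.N := by
        intro i
        cases i with
        | zero => exact sym_lt M _
        | succ j => exact hlt2 j
      rw [next_state, rdig_next_left M c h',
        code_dcons _ M.N_pos _ (state_lt M _) _ hlt3,
        code_dcons _ M.N_pos _ (sym_lt M _) _ hlt2,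
        code_dcons _ M.N_pos _ (sym_lt M _) _ hTlt]
      rfl
    have hy : encY M c = (((c.tape (-1)).val : ℝ) + encY M (M.next c)) / M.B := by
      unfold encY
      rw [ldig_next_left M c h', code_tail _ M.N_pos (ldig M c) (ldig_lt M c)]
      simp [ldig, Machine.B]
    have hy' : encY M (M.next c) = M.B * encY M c - ((c.tape (-1)).val : ℝ) := by
      rw [hy]; field_simp; ring
    have hxc : xc M (blk M c) = (((M.trans c.state (c.tape 0)).1.val : ℝ)
        + (((c.tape (-1)).val : ℝ) - (c.state.val : ℝ)) / M.B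
        + (((M.trans c.state (c.tape 0)).2.1.val : ℝ) - ((c.tape 0).val : ℝ)) / M.B ^ 2)
          / (M.B - 1) := by
      unfold xc blk; simp only [h', Bool.false_eq_true, if_false]
    have hyc : yc M (blk M c) = ((c.tape (-1)).val : ℝ) / (M.B - 1) := by
      unfold yc blk; simp only [h', Bool.false_eq_true, if_false]
    have ha : alpha M (blk M c) = - Real.log M.B := by
      unfold alpha blk; simp only [h', Bool.false_eq_true, if_false]
    rw [ha, neg_neg, Real.exp_neg, hexp, hx', hy', hxc, hyc, hX]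
    constructor
    · field_simp
      ring
    · field_simp
      ring

end Vale.Agent.Lib.P113
end

section
open scoped ContDiff

namespace Vale.Agent.Lib.P113

/-- Number of blocks. -/
noncomputable def Machine.K (M : Machine) : ℕ := Fintype.card (Blk M)

lemma Machine.K_pos (M : Machine) : 1 ≤ M.K := by
  unfold Machine.K
  exact Fintype.card_pos

/-- Height of the block `b`: in `(0, 1/8]` for non-halting states and in `(1/4, 3/8]` for
halting states; distinct blocks are at least `1/(8K)` apart. -/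
noncomputable def lvl (M : Machine) (b : Blk M) : ℝ :=
  (((Fintype.equivFin (Blk M) b).val : ℝ) + 1) / (8 * (M.K : ℝ))
    + (if M.halting b.1 = true then 1 / 4 else 0)

lemma lvl_base (M : Machine) (b : Blk M) :
    0 < (((Fintype.equivFin (Blk M) b).val : ℝ) + 1) / (8 * (M.K : ℝ))
    ∧ (((Fintype.equivFin (Blk M) b).val : ℝ) + 1) / (8 * (M.K : ℝ)) ≤ 1 / 8 := by
  have hK : (1 : ℝ) ≤ (M.K : ℝ) := by exact_mod_cast M.K_pos
  have hi : ((Fintype.equivFin (Blk M) b).val : ℝ) + 1 ≤ (M.K : ℝ) := by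
    have := (Fintype.equivFin (Blk M) b).isLt
    have h2 : (Fintype.equivFin (Blk M) b).val + 1 ≤ M.K := this
    exact_mod_cast h2
  constructor
  · positivity
  · rw [div_le_iff₀ (by positivity)]
    linarith

lemma lvl_pos (M : Machine) (b : Blk M) : 0 < lvl M b := by
  unfold lvl
  have := (lvl_base M b).1
  split_ifs <;> linarith

lemma lvl_le (M : Machine) (b : Blk M) : lvl M b ≤ 3 / 8 := by
  unfold lvl
  have := (lvl_base M b).2
  split_ifs <;> linarith

lemma lvl_nonhalt (M : Machine) (b : Blk M) (h : M.halting b.1 = false) : lvl M b ≤ 1 / 8 := by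
  unfold lvl
  have := (lvl_base M b).2
  simp only [h, Bool.false_eq_true, if_false]
  linarith

lemma lvl_halt (M : Machine) (b : Blk M) (h : M.halting b.1 = true) : 1 / 4 < lvl M b := by
  unfold lvl
  have := (lvl_base M b).1
  simp only [h, if_true]
  linarith

lemma lvl_sep_aux (K u u' i i' δ δ' : ℝ) (e1 : 8 * K * u = i + 1) (e2 : 8 * K * u' = i' + 1) :
    8 * K * (u + δ - (u' + δ')) = (i - i') + 8 * K * (δ - δ') := by
  linear_combination e1 - e2

lemma lvl_sep (M : Machine) (b b' : Blk M) (hne : b ≠ b') :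
    1 ≤ 8 * (M.K : ℝ) * (lvl M b - lvl M b') ∨ 8 * (M.K : ℝ) * (lvl M b - lvl M b') ≤ -1 := by
  have hK : (1 : ℝ) ≤ (M.K : ℝ) := by exact_mod_cast M.K_pos
  have hidx : (Fintype.equivFin (Blk M) b).val ≠ (Fintype.equivFin (Blk M) b').val := by
    intro h
    exact hne ((Fintype.equivFin (Blk M)).injective (Fin.ext h))
  have hmul : ∀ c : Blk M, 8 * (M.K : ℝ) * ((((Fintype.equivFin (Blk M) c).val : ℝ) + 1)
      / (8 * (M.K : ℝ))) = ((Fintype.equivFin (Blk M) c).val : ℝ) + 1 := by
    intro c; field_simp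
  have hlt : (Fintype.equivFin (Blk M) b).val < M.K := (Fintype.equivFin (Blk M) b).isLt
  have hlt' : (Fintype.equivFin (Blk M) b').val < M.K := (Fintype.equivFin (Blk M) b').isLt
  have hltR : ((Fintype.equivFin (Blk M) b).val : ℝ) + 1 ≤ (M.K : ℝ) := by exact_mod_cast hlt
  have hltR' : ((Fintype.equivFin (Blk M) b').val : ℝ) + 1 ≤ (M.K : ℝ) := by exact_mod_cast hlt'
  have h0 : (0 : ℝ) ≤ ((Fintype.equivFin (Blk M) b).val : ℝ) := by positivity
  have h0' : (0 : ℝ) ≤ ((Fintype.equivFin (Blk M) b').val : ℝ) := by positivity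
  unfold lvl
  rw [lvl_sep_aux _ _ _ _ _ _ _ (hmul b) (hmul b')]
  by_cases h1 : M.halting b.1 = true <;> by_cases h2 : M.halting b'.1 = true
  · rw [if_pos h1, if_pos h2]
    rcases Nat.lt_or_gt_of_ne hidx with h | h
    · right
      have h' : ((Fintype.equivFin (Blk M) b).val : ℝ) + 1 ≤ ((Fintype.equivFin (Blk M) b').val : ℝ) := by
        exact_mod_cast h
      linarith
    · left
      have h' : ((Fintype.equivFin (Blk M) b').val : ℝ) + 1 ≤ ((Fintype.equivFin (Blk M) b).val : ℝ) := by
        exact_mod_cast h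
      linarith
  · left
    rw [if_pos h1, if_neg h2]
    linarith
  · right
    rw [if_neg h1, if_pos h2]
    linarith
  · rw [if_neg h1, if_neg h2]
    rcases Nat.lt_or_gt_of_ne hidx with h | h
    · right
      have h' : ((Fintype.equivFin (Blk M) b).val : ℝ) + 1 ≤ ((Fintype.equivFin (Blk M) b').val : ℝ) := by
        exact_mod_cast h
      linarith
    · left
      have h' : ((Fintype.equivFin (Blk M) b').val : ℝ) + 1 ≤ ((Fintype.equivFin (Blk M) b).val : ℝ) := by
        exact_mod_cast h
      linarith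

/-- The profile of the level indicator of block `b` before periodization. -/
noncomputable def zfun (M : Machine) (b : Blk M) : ℝ → ℝ :=
  fun z => hB (8 * (M.K : ℝ) * (z - lvl M b) + 1 / 4)

/-- Smooth one-periodic indicator of the level of block `b`. -/
noncomputable def Zb (M : Machine) (b : Blk M) : ℝ → ℝ := per (zfun M b)

lemma zfun_contDiff (M : Machine) (b : Blk M) : ContDiff ℝ ∞ (zfun M b) := by
  unfold zfun
  exact hB_contDiff.comp ((contDiff_const.mul (contDiff_id.sub contDiff_const)).add contDiff_const)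

lemma zfun_zero_left (M : Machine) (b : Blk M) : ∀ y, y ≤ -1 / 8 → zfun M b y = 0 := by
  intro y hy
  have hK : (1 : ℝ) ≤ (M.K : ℝ) := by exact_mod_cast M.K_pos
  have := lvl_pos M b
  unfold zfun
  apply hB_zero_left
  nlinarith

lemma zfun_zero_right (M : Machine) (b : Blk M) : ∀ y, 5 / 8 ≤ y → zfun M b y = 0 := by
  intro y hy
  have hK : (1 : ℝ) ≤ (M.K : ℝ) := by exact_mod_cast M.K_pos
  have := lvl_le M b
  unfold zfun
  apply hB_zero_right
  nlinarith

lemma Zb_contDiff (M : Machine) (b : Blk M) : ContDiff ℝ ∞ (Zb M b) :=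
  per_contDiff (zfun_contDiff M b) (zfun_zero_left M b) (zfun_zero_right M b)

lemma Zb_periodic (M : Machine) (b : Blk M) (x : ℝ) (n : ℤ) : Zb M b (x + n) = Zb M b x :=
  per_add_int _ x n

lemma Zb_lvl (M : Machine) (b b' : Blk M) : Zb M b (lvl M b') = if b = b' then 1 else 0 := by
  have h1 := lvl_pos M b'
  have h2 := lvl_le M b'
  unfold Zb
  rw [per_of_mem _ (by linarith) (by linarith)]
  unfold zfun
  by_cases h : b = b'
  · subst h
    rw [if_pos rfl]
    apply hB_one <;> norm_num
  · rw [if_neg h]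
    rcases lvl_sep M b' b (Ne.symm h) with h3 | h3
    · apply hB_zero_right; linarith
    · apply hB_zero_left; linarith

end Vale.Agent.Lib.P113
end

section
open scoped ContDiff

namespace Vale.Agent.Lib.P113

/-- The affine function `x - c`, cut off outside `(-1/8, 5/8)`. -/
noncomputable def pfun (c : ℝ) : ℝ → ℝ := fun x => (x - c) * hB x

lemma pfun_contDiff (c : ℝ) : ContDiff ℝ ∞ (pfun c) := by
  unfold pfun
  exact (contDiff_id.sub contDiff_const).mul hB_contDiff

lemma pfun_zero_left (c : ℝ) : ∀ y, y ≤ -1 / 8 → pfun c y = 0 := by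
  intro y hy; unfold pfun; rw [hB_zero_left hy, mul_zero]

lemma pfun_zero_right (c : ℝ) : ∀ y, 5 / 8 ≤ y → pfun c y = 0 := by
  intro y hy; unfold pfun; rw [hB_zero_right hy, mul_zero]

lemma dpfun_contDiff (c : ℝ) : ContDiff ℝ ∞ (deriv (pfun c)) :=
  (contDiff_infty_iff_deriv.mp (pfun_contDiff c)).2

lemma pfun_eval (c : ℝ) {x : ℝ} (h0 : 0 ≤ x) (h1 : x ≤ 1 / 2) : pfun c x = x - c := by
  unfold pfun
  rw [hB_one (by linarith) (by linarith), mul_one]

lemma dpfun_eval (c : ℝ) {x : ℝ} (h0 : 0 ≤ x) (h1 : x ≤ 1 / 2) : deriv (pfun c) x = 1 := by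
  have hmem : x ∈ Set.Ioo (-1 / 16 : ℝ) (9 / 16) := ⟨by linarith, by linarith⟩
  have hev : pfun c =ᶠ[nhds x] fun y => y - c := by
    filter_upwards [isOpen_Ioo.mem_nhds hmem] with y hy
    unfold pfun
    rw [hB_one hy.1.le hy.2.le, mul_one]
  rw [hev.deriv_eq]
  simp

/-- The cut-off affine functions of a block, made one-periodic, and their derivatives. -/
noncomputable def Pb (M : Machine) (b : Blk M) : ℝ → ℝ := per (pfun (xc M b))
noncomputable def DPb (M : Machine) (b : Blk M) : ℝ → ℝ := per (deriv (pfun (xc M b)))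
noncomputable def Qb (M : Machine) (b : Blk M) : ℝ → ℝ := per (pfun (yc M b))
noncomputable def DQb (M : Machine) (b : Blk M) : ℝ → ℝ := per (deriv (pfun (yc M b)))

/-- The field of the hyperbolic phase. -/
noncomputable def WB (M : Machine) : Pt → Pt :=
  saddleField (alpha M) (Zb M) (Pb M) (DPb M) (Qb M) (DQb M)

lemma WB_div (M : Machine) (x : Pt) : ∑ j : Fin 3, dX j (fun y => WB M y j) x = 0 := by
  unfold WB
  apply saddleField_div
  · intro b x
    exact per_hasDerivAt (pfun_contDiff _) (pfun_zero_left _) (pfun_zero_right _) x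
  · intro b y
    exact per_hasDerivAt (pfun_contDiff _) (pfun_zero_left _) (pfun_zero_right _) y

lemma WB_contDiff (M : Machine) : ContDiff ℝ ∞ (WB M) := by
  unfold WB
  apply saddleField_contDiff
  · exact fun b => Zb_contDiff M b
  · exact fun b => per_contDiff (pfun_contDiff _) (pfun_zero_left _) (pfun_zero_right _)
  · exact fun b => per_contDiff (dpfun_contDiff _) (deriv_zero_left (pfun_zero_left _))
      (deriv_zero_right (pfun_zero_right _))
  · exact fun b => per_contDiff (pfun_contDiff _) (pfun_zero_left _) (pfun_zero_right _)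
  · exact fun b => per_contDiff (dpfun_contDiff _) (deriv_zero_left (pfun_zero_left _))
      (deriv_zero_right (pfun_zero_right _))

lemma WB_periodic (M : Machine) : Periodic3 (WB M) := by
  unfold WB
  apply saddleField_periodic
  · exact fun b x n => Zb_periodic M b x n
  · exact fun b x n => per_add_int _ x n
  · exact fun b x n => per_add_int _ x n
  · exact fun b x n => per_add_int _ x n
  · exact fun b x n => per_add_int _ x n

lemma WB_eval (M : Machine) (b0 : Blk M) (p : Pt) (hz : p 2 = lvl M b0)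
    (hx0 : 0 ≤ p 0) (hx1 : p 0 ≤ 1 / 2) (hy0 : 0 ≤ p 1) (hy1 : p 1 ≤ 1 / 2) :
    WB M p = fun i => if i = 0 then alpha M b0 * (p 0 - xc M b0)
      else if i = 1 then - (alpha M b0 * (p 1 - yc M b0)) else 0 := by
  funext i
  unfold WB saddleField
  have hZ : ∀ b : Blk M, Zb M b (p 2) = if b = b0 then 1 else 0 := by
    intro b; rw [hz]; exact Zb_lvl M b b0
  by_cases h0 : i = 0
  · simp only [h0, if_true]
    rw [Finset.sum_eq_single b0]
    · rw [hZ b0, if_pos rfl]
      unfold Pb DQb
      rw [per_of_mem _ (by linarith) (by linarith), per_of_mem _ (by linarith) (by linarith),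
        pfun_eval _ hx0 hx1, dpfun_eval _ hy0 hy1]
      ring
    · intro b _ hb
      rw [hZ b, if_neg hb]; ring
    · intro h; exact absurd (Finset.mem_univ b0) h
  · by_cases h1 : i = 1
    · simp only [h1, if_true]
      have h10 : ¬ ((1 : Fin 3) = 0) := by decide
      simp only [h10, if_false]
      rw [Finset.sum_eq_single b0]
      · rw [hZ b0, if_pos rfl]
        unfold Qb DPb
        rw [per_of_mem _ (by linarith) (by linarith), per_of_mem _ (by linarith) (by linarith),
          pfun_eval _ hy0 hy1, dpfun_eval _ hx0 hx1]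
        ring
      · intro b _ hb
        rw [hZ b, if_neg hb]; ring
      · intro h; exact absurd (Finset.mem_univ b0) h
    · simp only [h0, h1, if_false]

/-- Profile of the first vertical phase: the height of the block of the encoded configuration. -/
noncomputable def psiA (M : Machine) (x y : ℝ) : ℝ :=
  ∑ b : Blk M, lvl M b * per (cyl2 M.N b.1.val b.2.1.val) x * per (cyl1 M.N b.2.2.val) y

lemma psiA_enc (M : Machine) (c : Cfg M) : psiA M (encX M c) (encY M c) = lvl M (blk M c) := by
  unfold psiA encX encY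
  rw [Finset.sum_eq_single (blk M c)]
  · rw [cyl2_code M.N M.N_pos _ (xdig_lt M c), cyl1_code M.N M.N_pos _ (ldig_lt M c)]
    have h1 : xdig M c 0 = (blk M c).1.val ∧ xdig M c 1 = (blk M c).2.1.val := by
      constructor <;> rfl
    have h2 : ldig M c 0 = (blk M c).2.2.val := by
      unfold ldig blk; simp
    rw [if_pos h1, if_pos h2]; ring
  · intro b _ hb
    rw [cyl2_code M.N M.N_pos _ (xdig_lt M c), cyl1_code M.N M.N_pos _ (ldig_lt M c)]
    by_cases h1 : xdig M c 0 = b.1.val ∧ xdig M c 1 = b.2.1.val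
    · by_cases h2 : ldig M c 0 = b.2.2.val
      · exfalso
        apply hb
        have e1 : c.state = b.1 := Fin.ext h1.1
        have e2 : c.tape 0 = b.2.1 := Fin.ext h1.2
        have e3 : c.tape (-1) = b.2.2 := by
          apply Fin.ext
          have : ldig M c 0 = (c.tape (-1)).val := by unfold ldig; simp
          rw [← this]; exact h2
        unfold blk
        rw [e1, e2, e3]
      · rw [if_neg h2]; ring
    · rw [if_neg h1]; ring
  · intro h; exact absurd (Finset.mem_univ _) h

/-- Indicator pieces of the image of a block under one machine step. -/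
noncomputable def icx (M : Machine) (b : Blk M) : ℝ → ℝ :=
  if (M.trans b.1 b.2.1).2.2 = true then per (cyl1 M.N (M.trans b.1 b.2.1).1.val)
  else per (cyl3 M.N (M.trans b.1 b.2.1).1.val b.2.2.val (M.trans b.1 b.2.1).2.1.val)

noncomputable def icy (M : Machine) (b : Blk M) : ℝ → ℝ :=
  if (M.trans b.1 b.2.1).2.2 = true then per (cyl2 M.N (M.trans b.1 b.2.1).2.1.val b.2.2.val)
  else fun _ => 1

/-- Profile of the second vertical phase: minus the height of the block one came from. -/
noncomputable def psiC (M : Machine) (x y : ℝ) : ℝ :=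
  ∑ b : Blk M, (- lvl M b) * icx M b x * icy M b y

lemma ic_enc (M : Machine) (hrev : M.Reversible) (c : Cfg M) (b : Blk M) :
    icx M b (encX M (M.next c)) * icy M b (encY M (M.next c))
      = if b = blk M c then 1 else 0 := by
  have hx0 : xdig M (M.next c) 0 = (M.trans c.state (c.tape 0)).1.val := rfl
  by_cases hdir : (M.trans b.1 b.2.1).2.2 = true
  · -- the block `b` moves right
    have e1 : icx M b (encX M (M.next c))
        = if xdig M (M.next c) 0 = (M.trans b.1 b.2.1).1.val then 1 else 0 := by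
      unfold icx encX
      rw [if_pos hdir, cyl1_code M.N M.N_pos _ (xdig_lt M _)]
    have e2 : icy M b (encY M (M.next c))
        = if ldig M (M.next c) 0 = (M.trans b.1 b.2.1).2.1.val ∧ ldig M (M.next c) 1 = b.2.2.val
          then 1 else 0 := by
      unfold icy encY
      rw [if_pos hdir, cyl2_code M.N M.N_pos _ (ldig_lt M _)]
    rw [e1, e2, hx0]
    by_cases hb : b = blk M c
    · subst hb
      have hdir' : (M.trans c.state (c.tape 0)).2.2 = true := hdir
      have hl := ldig_next_right M c hdir'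
      have h1 : ldig M (M.next c) 0 = (M.trans c.state (c.tape 0)).2.1.val := by rw [hl]; rfl
      have h2 : ldig M (M.next c) 1 = (c.tape (-1)).val := by
        rw [hl]; unfold dcons ldig; simp
      simp only [blk] at *
      simp [h1, h2]
    · rw [if_neg hb]
      by_cases ht : (M.trans c.state (c.tape 0)).1.val = (M.trans b.1 b.2.1).1.val
      · by_cases hqs : (b.1, b.2.1) = (c.state, c.tape 0)
        · -- same (state, symbol): the left neighbour differs
          have hq : b.1 = c.state := (Prod.ext_iff.mp hqs).1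
          have hs : b.2.1 = c.tape 0 := (Prod.ext_iff.mp hqs).2
          have hdir' : (M.trans c.state (c.tape 0)).2.2 = true := by rw [← hq, ← hs]; exact hdir
          have hl := ldig_next_right M c hdir'
          have h2 : ldig M (M.next c) 1 = (c.tape (-1)).val := by
            rw [hl]; unfold dcons ldig; simp
          have hne : ¬ (ldig M (M.next c) 1 = b.2.2.val) := by
            rw [h2]
            intro h
            apply hb
            have : c.tape (-1) = b.2.2 := Fin.ext h
            unfold blk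
            rw [← hq, ← hs, this]
          simp [hne]
        · -- different (state, symbol), same target: reversibility
          have hrv := hrev b.1 c.state b.2.1 (c.tape 0) hqs (Fin.ext ht.symm)
          have hdir' : (M.trans c.state (c.tape 0)).2.2 = true := by rw [← hrv.1]; exact hdir
          have hl := ldig_next_right M c hdir'
          have h1 : ldig M (M.next c) 0 = (M.trans c.state (c.tape 0)).2.1.val := by rw [hl]; rfl
          have hne : ¬ (ldig M (M.next c) 0 = (M.trans b.1 b.2.1).2.1.val) := by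
            rw [h1]
            intro h
            exact hrv.2 (Fin.ext h.symm)
          simp [hne]
      · simp [ht]
  · -- the block `b` moves left
    have hdirf : (M.trans b.1 b.2.1).2.2 = false := by simpa using hdir
    have e1 : icx M b (encX M (M.next c))
        = if xdig M (M.next c) 0 = (M.trans b.1 b.2.1).1.val ∧ xdig M (M.next c) 1 = b.2.2.val
            ∧ xdig M (M.next c) 2 = (M.trans b.1 b.2.1).2.1.val then 1 else 0 := by
      unfold icx encX
      rw [if_neg hdir, cyl3_code M.N M.N_pos _ (xdig_lt M _)]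
    have e2 : icy M b (encY M (M.next c)) = 1 := by
      unfold icy
      rw [if_neg hdir]
    rw [e1, e2, hx0, mul_one]
    have hx1 : xdig M (M.next c) 1 = rdig M (M.next c) 0 := rfl
    have hx2 : xdig M (M.next c) 2 = rdig M (M.next c) 1 := rfl
    by_cases hb : b = blk M c
    · subst hb
      have hdir' : (M.trans c.state (c.tape 0)).2.2 = false := hdirf
      have hr := rdig_next_left M c hdir'
      have h1 : rdig M (M.next c) 0 = (c.tape (-1)).val := by rw [hr]; rfl
      have h2 : rdig M (M.next c) 1 = (M.trans c.state (c.tape 0)).2.1.val := by rw [hr]; rfl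
      simp only [blk] at *
      simp [hx1, hx2, h1, h2]
    · rw [if_neg hb]
      by_cases ht : (M.trans c.state (c.tape 0)).1.val = (M.trans b.1 b.2.1).1.val
      · by_cases hqs : (b.1, b.2.1) = (c.state, c.tape 0)
        · have hq : b.1 = c.state := (Prod.ext_iff.mp hqs).1
          have hs : b.2.1 = c.tape 0 := (Prod.ext_iff.mp hqs).2
          have hdir' : (M.trans c.state (c.tape 0)).2.2 = false := by rw [← hq, ← hs]; exact hdirf
          have hr := rdig_next_left M c hdir'
          have h1 : rdig M (M.next c) 0 = (c.tape (-1)).val := by rw [hr]; rfl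
          have hne : ¬ (xdig M (M.next c) 1 = b.2.2.val) := by
            rw [hx1, h1]
            intro h
            apply hb
            have : c.tape (-1) = b.2.2 := Fin.ext h
            unfold blk
            rw [← hq, ← hs, this]
          simp [hne]
        · have hrv := hrev b.1 c.state b.2.1 (c.tape 0) hqs (Fin.ext ht.symm)
          have hdir' : (M.trans c.state (c.tape 0)).2.2 = false := by rw [← hrv.1]; exact hdirf
          have hr := rdig_next_left M c hdir'
          have h2 : rdig M (M.next c) 1 = (M.trans c.state (c.tape 0)).2.1.val := by rw [hr]; rfl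
          have hne : ¬ (xdig M (M.next c) 2 = (M.trans b.1 b.2.1).2.1.val) := by
            rw [hx2, h2]
            intro h
            exact hrv.2 (Fin.ext h.symm)
          simp [hne]
      · simp [ht]

lemma psiC_enc (M : Machine) (hrev : M.Reversible) (c : Cfg M) :
    psiC M (encX M (M.next c)) (encY M (M.next c)) = - lvl M (blk M c) := by
  unfold psiC
  rw [Finset.sum_eq_single (blk M c)]
  · rw [mul_assoc, ic_enc M hrev c, if_pos rfl, mul_one]
  · intro b _ hb
    rw [mul_assoc, ic_enc M hrev c, if_neg hb, mul_zero]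
  · intro h; exact absurd (Finset.mem_univ _) h

end Vale.Agent.Lib.P113
end

section
open scoped ContDiff

namespace Vale.Agent.Lib.P113

/-- Height attached to the index `κ` of a finite family: in `(0, 1/8]` when `halt κ = false`
and in `(1/4, 3/8]` when `halt κ = true`; distinct indices are at least `1/(8K)` apart,
`K` being the size of the family. -/
noncomputable def lvlG {ι : Type} [Fintype ι] (halt : ι → Bool) (κ : ι) : ℝ :=
  (((Fintype.equivFin ι κ).val : ℝ) + 1) / (8 * (Fintype.card ι : ℝ))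
    + (if halt κ = true then 1 / 4 else 0)

section
variable {ι : Type} [Fintype ι] (halt : ι → Bool)

lemma card_pos_of (κ : ι) : (1 : ℝ) ≤ (Fintype.card ι : ℝ) := by
  have : 1 ≤ Fintype.card ι := Fintype.card_pos_iff.mpr ⟨κ⟩
  exact_mod_cast this

lemma lvlG_base (κ : ι) :
    0 < (((Fintype.equivFin ι κ).val : ℝ) + 1) / (8 * (Fintype.card ι : ℝ))
    ∧ (((Fintype.equivFin ι κ).val : ℝ) + 1) / (8 * (Fintype.card ι : ℝ)) ≤ 1 / 8 := by
  have hK := card_pos_of κ
  have hi : ((Fintype.equivFin ι κ).val : ℝ) + 1 ≤ (Fintype.card ι : ℝ) := by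
    have h2 : (Fintype.equivFin ι κ).val + 1 ≤ Fintype.card ι := (Fintype.equivFin ι κ).isLt
    exact_mod_cast h2
  constructor
  · positivity
  · rw [div_le_iff₀ (by positivity)]
    linarith

lemma lvlG_pos (κ : ι) : 0 < lvlG halt κ := by
  unfold lvlG
  have := (lvlG_base κ).1
  split_ifs <;> linarith

lemma lvlG_le (κ : ι) : lvlG halt κ ≤ 3 / 8 := by
  unfold lvlG
  have := (lvlG_base κ).2
  split_ifs <;> linarith

lemma lvlG_nonhalt (κ : ι) (h : halt κ = false) : lvlG halt κ ≤ 1 / 8 := by
  unfold lvlG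
  have := (lvlG_base κ).2
  simp only [h, Bool.false_eq_true, if_false]
  linarith

lemma lvlG_halt (κ : ι) (h : halt κ = true) : 1 / 4 < lvlG halt κ := by
  unfold lvlG
  have := (lvlG_base κ).1
  simp only [h, if_true]
  linarith

lemma lvlG_sep_aux (K u u' i i' δ δ' : ℝ) (e1 : 8 * K * u = i + 1) (e2 : 8 * K * u' = i' + 1) :
    8 * K * (u + δ - (u' + δ')) = (i - i') + 8 * K * (δ - δ') := by
  linear_combination e1 - e2

lemma lvlG_sep (b b' : ι) (hne : b ≠ b') :
    1 ≤ 8 * (Fintype.card ι : ℝ) * (lvlG halt b - lvlG halt b')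
      ∨ 8 * (Fintype.card ι : ℝ) * (lvlG halt b - lvlG halt b') ≤ -1 := by
  have hK := card_pos_of b
  have hidx : (Fintype.equivFin ι b).val ≠ (Fintype.equivFin ι b').val := by
    intro h
    exact hne ((Fintype.equivFin ι).injective (Fin.ext h))
  have hmul : ∀ c : ι, 8 * (Fintype.card ι : ℝ) * ((((Fintype.equivFin ι c).val : ℝ) + 1)
      / (8 * (Fintype.card ι : ℝ))) = ((Fintype.equivFin ι c).val : ℝ) + 1 := by
    intro c; field_simp
  have hlt : (Fintype.equivFin ι b).val < Fintype.card ι := (Fintype.equivFin ι b).isLt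
  have hlt' : (Fintype.equivFin ι b').val < Fintype.card ι := (Fintype.equivFin ι b').isLt
  have hltR : ((Fintype.equivFin ι b).val : ℝ) + 1 ≤ (Fintype.card ι : ℝ) := by exact_mod_cast hlt
  have hltR' : ((Fintype.equivFin ι b').val : ℝ) + 1 ≤ (Fintype.card ι : ℝ) := by
    exact_mod_cast hlt'
  have h0 : (0 : ℝ) ≤ ((Fintype.equivFin ι b).val : ℝ) := by positivity
  have h0' : (0 : ℝ) ≤ ((Fintype.equivFin ι b').val : ℝ) := by positivity
  unfold lvlG
  rw [lvlG_sep_aux _ _ _ _ _ _ _ (hmul b) (hmul b')]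
  by_cases h1 : halt b = true <;> by_cases h2 : halt b' = true
  · rw [if_pos h1, if_pos h2]
    rcases Nat.lt_or_gt_of_ne hidx with h | h
    · right
      have h' : ((Fintype.equivFin ι b).val : ℝ) + 1 ≤ ((Fintype.equivFin ι b').val : ℝ) := by
        exact_mod_cast h
      linarith
    · left
      have h' : ((Fintype.equivFin ι b').val : ℝ) + 1 ≤ ((Fintype.equivFin ι b).val : ℝ) := by
        exact_mod_cast h
      linarith
  · left
    rw [if_pos h1, if_neg h2]
    linarith
  · right
    rw [if_neg h1, if_pos h2]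
    linarith
  · rw [if_neg h1, if_neg h2]
    rcases Nat.lt_or_gt_of_ne hidx with h | h
    · right
      have h' : ((Fintype.equivFin ι b).val : ℝ) + 1 ≤ ((Fintype.equivFin ι b').val : ℝ) := by
        exact_mod_cast h
      linarith
    · left
      have h' : ((Fintype.equivFin ι b').val : ℝ) + 1 ≤ ((Fintype.equivFin ι b).val : ℝ) := by
        exact_mod_cast h
      linarith

end

end Vale.Agent.Lib.P113
end

section
open scoped ContDiff

namespace Vale.Agent.Lib.P113

/-- finite sum of planar affine-node-type terms, each modulated in the third variable;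
the third component makes the field divergence free -/
noncomputable def nodeField {ι : Type} [Fintype ι] (a b : ι → ℝ) (S DS P DP Q DQ : ι → ℝ → ℝ) :
    Pt → Pt := fun p i =>
  if i = 0 then ∑ κ : ι, a κ * P κ (p 0) * DS κ (p 2)
  else if i = 1 then ∑ κ : ι, b κ * Q κ (p 1) * DS κ (p 2)
  else - ∑ κ : ι, (a κ * DP κ (p 0) + b κ * DQ κ (p 1)) * S κ (p 2)

theorem nodeField_div {ι : Type} [Fintype ι] (a b : ι → ℝ) (S DS P DP Q DQ : ι → ℝ → ℝ)
    (hS : ∀ κ z, HasDerivAt (S κ) (DS κ z) z) (hP : ∀ κ x, HasDerivAt (P κ) (DP κ x) x)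
    (hQ : ∀ κ y, HasDerivAt (Q κ) (DQ κ y) y) (x : Pt) :
    ∑ j : Fin 3, dX j (fun y => nodeField a b S DS P DP Q DQ y j) x = 0 := by
  rw [Fin.sum_univ_three]
  have h0 : dX 0 (fun y => nodeField a b S DS P DP Q DQ y 0) x
      = ∑ κ : ι, a κ * DP κ (x 0) * DS κ (x 2) := by
    have hfun : (fun s : ℝ => nodeField a b S DS P DP Q DQ (Function.update x 0 s) 0)
        = fun s : ℝ => ∑ κ : ι, a κ * P κ s * DS κ (x 2) := by
      funext s
      simp [nodeField, Function.update]
    show deriv (fun s : ℝ => nodeField a b S DS P DP Q DQ (Function.update x 0 s) 0) (x 0) = _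
    rw [hfun]
    have hd : HasDerivAt (fun s : ℝ => ∑ κ : ι, a κ * P κ s * DS κ (x 2))
        (∑ κ : ι, a κ * DP κ (x 0) * DS κ (x 2)) (x 0) := by
      apply HasDerivAt.fun_sum
      intro κ _
      exact ((hP κ (x 0)).const_mul (a κ)).mul_const (DS κ (x 2))
    exact hd.deriv
  have h1 : dX 1 (fun y => nodeField a b S DS P DP Q DQ y 1) x
      = ∑ κ : ι, b κ * DQ κ (x 1) * DS κ (x 2) := by
    have hfun : (fun s : ℝ => nodeField a b S DS P DP Q DQ (Function.update x 1 s) 1)
        = fun s : ℝ => ∑ κ : ι, b κ * Q κ s * DS κ (x 2) := by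
      funext s
      simp [nodeField, Function.update]
    show deriv (fun s : ℝ => nodeField a b S DS P DP Q DQ (Function.update x 1 s) 1) (x 1) = _
    rw [hfun]
    have hd : HasDerivAt (fun s : ℝ => ∑ κ : ι, b κ * Q κ s * DS κ (x 2))
        (∑ κ : ι, b κ * DQ κ (x 1) * DS κ (x 2)) (x 1) := by
      apply HasDerivAt.fun_sum
      intro κ _
      exact ((hQ κ (x 1)).const_mul (b κ)).mul_const (DS κ (x 2))
    exact hd.deriv
  have h2 : dX 2 (fun y => nodeField a b S DS P DP Q DQ y 2) x
      = - ∑ κ : ι, (a κ * DP κ (x 0) + b κ * DQ κ (x 1)) * DS κ (x 2) := by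
    have hfun : (fun s : ℝ => nodeField a b S DS P DP Q DQ (Function.update x 2 s) 2)
        = fun s : ℝ => - ∑ κ : ι, (a κ * DP κ (x 0) + b κ * DQ κ (x 1)) * S κ s := by
      funext s
      have h20 : ¬ ((2 : Fin 3) = 0) := by decide
      have h21 : ¬ ((2 : Fin 3) = 1) := by decide
      simp [nodeField, Function.update, h20, h21]
    show deriv (fun s : ℝ => nodeField a b S DS P DP Q DQ (Function.update x 2 s) 2) (x 2) = _
    rw [hfun]
    have hd : HasDerivAt (fun s : ℝ => - ∑ κ : ι, (a κ * DP κ (x 0) + b κ * DQ κ (x 1)) * S κ s)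
        (- ∑ κ : ι, (a κ * DP κ (x 0) + b κ * DQ κ (x 1)) * DS κ (x 2)) (x 2) := by
      apply HasDerivAt.neg
      apply HasDerivAt.fun_sum
      intro κ _
      exact (hS κ (x 2)).const_mul (a κ * DP κ (x 0) + b κ * DQ κ (x 1))
    exact hd.deriv
  rw [h0, h1, h2, ← Finset.sum_add_distrib, ← sub_eq_add_neg, sub_eq_zero]
  apply Finset.sum_congr rfl
  intro κ _
  ring

theorem nodeField_contDiff {ι : Type} [Fintype ι] (a b : ι → ℝ) (S DS P DP Q DQ : ι → ℝ → ℝ)
    (hS : ∀ κ, ContDiff ℝ ∞ (S κ)) (hDS : ∀ κ, ContDiff ℝ ∞ (DS κ))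
    (hP : ∀ κ, ContDiff ℝ ∞ (P κ)) (hDP : ∀ κ, ContDiff ℝ ∞ (DP κ))
    (hQ : ∀ κ, ContDiff ℝ ∞ (Q κ)) (hDQ : ∀ κ, ContDiff ℝ ∞ (DQ κ)) :
    ContDiff ℝ ∞ (nodeField a b S DS P DP Q DQ) := by
  rw [contDiff_pi]
  intro i
  unfold nodeField
  have e0 : ContDiff ℝ ∞ (fun p : Pt => p 0) := contDiff_apply ℝ ℝ (0 : Fin 3)
  have e1 : ContDiff ℝ ∞ (fun p : Pt => p 1) := contDiff_apply ℝ ℝ (1 : Fin 3)
  have e2 : ContDiff ℝ ∞ (fun p : Pt => p 2) := contDiff_apply ℝ ℝ (2 : Fin 3)
  by_cases hi0 : i = 0
  · simp only [hi0, if_true]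
    apply ContDiff.sum
    intro κ _
    exact (contDiff_const.mul ((hP κ).comp e0)).mul ((hDS κ).comp e2)
  · by_cases hi1 : i = 1
    · simp only [hi1, if_true]
      have h10 : ¬ ((1 : Fin 3) = 0) := by decide
      simp only [h10, if_false]
      apply ContDiff.sum
      intro κ _
      exact (contDiff_const.mul ((hQ κ).comp e1)).mul ((hDS κ).comp e2)
    · simp only [hi0, hi1, if_false]
      apply ContDiff.neg
      apply ContDiff.sum
      intro κ _
      exact ((contDiff_const.mul ((hDP κ).comp e0)).add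
        (contDiff_const.mul ((hDQ κ).comp e1))).mul ((hS κ).comp e2)

theorem nodeField_periodic {ι : Type} [Fintype ι] (a b : ι → ℝ) (S DS P DP Q DQ : ι → ℝ → ℝ)
    (hS : ∀ κ x (n : ℤ), S κ (x + n) = S κ x) (hDS : ∀ κ x (n : ℤ), DS κ (x + n) = DS κ x)
    (hP : ∀ κ x (n : ℤ), P κ (x + n) = P κ x) (hDP : ∀ κ x (n : ℤ), DP κ (x + n) = DP κ x)
    (hQ : ∀ κ x (n : ℤ), Q κ (x + n) = Q κ x) (hDQ : ∀ κ x (n : ℤ), DQ κ (x + n) = DQ κ x) :
    Periodic3 (nodeField a b S DS P DP Q DQ) := by
  intro x n
  funext i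
  unfold nodeField
  simp only [hS, hDS, hP, hDP, hQ, hDQ]

/-- profile vanishing at every level, with slope 1 at its own level and slope 0 at the other
levels -/
noncomputable def sfunG {ι : Type} [Fintype ι] (halt : ι → Bool) (κ : ι) : ℝ → ℝ :=
  fun z => (z - lvlG halt κ) * hB (8 * (Fintype.card ι : ℝ) * (z - lvlG halt κ) + 1 / 4)

noncomputable def SG {ι : Type} [Fintype ι] (halt : ι → Bool) (κ : ι) : ℝ → ℝ :=
  per (sfunG halt κ)

noncomputable def DSG {ι : Type} [Fintype ι] (halt : ι → Bool) (κ : ι) : ℝ → ℝ :=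
  per (deriv (sfunG halt κ))

section
variable {ι : Type} [Fintype ι] (halt : ι → Bool)

lemma sfunG_contDiff (κ : ι) : ContDiff ℝ ∞ (sfunG halt κ) := by
  unfold sfunG
  exact (contDiff_id.sub contDiff_const).mul
    (hB_contDiff.comp ((contDiff_const.mul (contDiff_id.sub contDiff_const)).add contDiff_const))

lemma sfunG_zero_left (κ : ι) : ∀ y, y ≤ -1 / 8 → sfunG halt κ y = 0 := by
  intro y hy
  have hK := card_pos_of κ
  have := lvlG_pos halt κ
  unfold sfunG
  rw [hB_zero_left (by nlinarith), mul_zero]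

lemma sfunG_zero_right (κ : ι) : ∀ y, 5 / 8 ≤ y → sfunG halt κ y = 0 := by
  intro y hy
  have hK := card_pos_of κ
  have := lvlG_le halt κ
  unfold sfunG
  rw [hB_zero_right (by nlinarith), mul_zero]

lemma dsfunG_contDiff (κ : ι) : ContDiff ℝ ∞ (deriv (sfunG halt κ)) :=
  (contDiff_infty_iff_deriv.mp (sfunG_contDiff halt κ)).2

lemma SG_contDiff (κ : ι) : ContDiff ℝ ∞ (SG halt κ) :=
  per_contDiff (sfunG_contDiff halt κ) (sfunG_zero_left halt κ) (sfunG_zero_right halt κ)

lemma DSG_contDiff (κ : ι) : ContDiff ℝ ∞ (DSG halt κ) :=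
  per_contDiff (dsfunG_contDiff halt κ) (deriv_zero_left (sfunG_zero_left halt κ))
    (deriv_zero_right (sfunG_zero_right halt κ))

lemma SG_hasDerivAt (κ : ι) (z : ℝ) : HasDerivAt (SG halt κ) (DSG halt κ z) z :=
  per_hasDerivAt (sfunG_contDiff halt κ) (sfunG_zero_left halt κ) (sfunG_zero_right halt κ) z

lemma SG_periodic (κ : ι) (x : ℝ) (n : ℤ) : SG halt κ (x + n) = SG halt κ x :=
  per_add_int _ x n

lemma DSG_periodic (κ : ι) (x : ℝ) (n : ℤ) : DSG halt κ (x + n) = DSG halt κ x :=
  per_add_int _ x n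

/-- near its own level the profile is `z - lvlG halt κ` -/
lemma sfunG_eventually_self (κ : ι) :
    sfunG halt κ =ᶠ[nhds (lvlG halt κ)] fun z => z - lvlG halt κ := by
  have hK := card_pos_of κ
  have hKpos : (0 : ℝ) < 8 * (Fintype.card ι : ℝ) := by linarith
  have hmem : lvlG halt κ ∈ Set.Ioo (lvlG halt κ - 1 / (32 * (Fintype.card ι : ℝ)))
      (lvlG halt κ + 1 / (32 * (Fintype.card ι : ℝ))) := by
    have : (0 : ℝ) < 1 / (32 * (Fintype.card ι : ℝ)) := by positivity
    constructor <;> linarith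
  filter_upwards [isOpen_Ioo.mem_nhds hmem] with z hz
  have hc : 8 * (Fintype.card ι : ℝ) * (1 / (32 * (Fintype.card ι : ℝ))) = 1 / 4 := by
    field_simp
    norm_num
  have h1 : -(1 / 4) < 8 * (Fintype.card ι : ℝ) * (z - lvlG halt κ) := by
    have : -(1 / (32 * (Fintype.card ι : ℝ))) < z - lvlG halt κ := by linarith [hz.1]
    have := mul_lt_mul_of_pos_left this hKpos
    rw [mul_neg, hc] at this
    exact this
  have h2 : 8 * (Fintype.card ι : ℝ) * (z - lvlG halt κ) < 1 / 4 := by
    have : z - lvlG halt κ < 1 / (32 * (Fintype.card ι : ℝ)) := by linarith [hz.2]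
    have := mul_lt_mul_of_pos_left this hKpos
    rw [hc] at this
    exact this
  unfold sfunG
  rw [hB_one (by linarith) (by linarith), mul_one]

/-- near every other level the profile vanishes identically -/
lemma sfunG_eventually_other (κ κ' : ι) (hne : κ ≠ κ') :
    sfunG halt κ =ᶠ[nhds (lvlG halt κ')] fun _ => (0 : ℝ) := by
  have hK := card_pos_of κ
  have hKpos : (0 : ℝ) < 8 * (Fintype.card ι : ℝ) := by linarith
  have hmem : lvlG halt κ' ∈ Set.Ioo (lvlG halt κ' - 1 / (32 * (Fintype.card ι : ℝ)))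
      (lvlG halt κ' + 1 / (32 * (Fintype.card ι : ℝ))) := by
    have : (0 : ℝ) < 1 / (32 * (Fintype.card ι : ℝ)) := by positivity
    constructor <;> linarith
  filter_upwards [isOpen_Ioo.mem_nhds hmem] with z hz
  have hc : 8 * (Fintype.card ι : ℝ) * (1 / (32 * (Fintype.card ι : ℝ))) = 1 / 4 := by
    field_simp
    norm_num
  have h1 : -(1 / 4) < 8 * (Fintype.card ι : ℝ) * (z - lvlG halt κ') := by
    have : -(1 / (32 * (Fintype.card ι : ℝ))) < z - lvlG halt κ' := by linarith [hz.1]
    have := mul_lt_mul_of_pos_left this hKpos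
    rw [mul_neg, hc] at this
    exact this
  have h2 : 8 * (Fintype.card ι : ℝ) * (z - lvlG halt κ') < 1 / 4 := by
    have : z - lvlG halt κ' < 1 / (32 * (Fintype.card ι : ℝ)) := by linarith [hz.2]
    have := mul_lt_mul_of_pos_left this hKpos
    rw [hc] at this
    exact this
  have hsplit : 8 * (Fintype.card ι : ℝ) * (z - lvlG halt κ)
      = 8 * (Fintype.card ι : ℝ) * (z - lvlG halt κ')
        + 8 * (Fintype.card ι : ℝ) * (lvlG halt κ' - lvlG halt κ) := by ring
  unfold sfunG
  rcases lvlG_sep halt κ' κ (Ne.symm hne) with h3 | h3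
  · rw [hB_zero_right (by linarith), mul_zero]
  · rw [hB_zero_left (by linarith), mul_zero]

theorem SG_lvl (κ κ' : ι) : SG halt κ (lvlG halt κ') = 0 := by
  have h1 := lvlG_pos halt κ'
  have h2 := lvlG_le halt κ'
  unfold SG
  rw [per_of_mem _ (by linarith) (by linarith)]
  by_cases h : κ = κ'
  · subst h
    unfold sfunG
    rw [sub_self, zero_mul]
  · exact (sfunG_eventually_other halt κ κ' h).self_of_nhds

theorem DSG_lvl [DecidableEq ι] (κ κ' : ι) :
    DSG halt κ (lvlG halt κ') = if κ = κ' then 1 else 0 := by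
  have h1 := lvlG_pos halt κ'
  have h2 := lvlG_le halt κ'
  unfold DSG
  rw [per_of_mem _ (by linarith) (by linarith)]
  by_cases h : κ = κ'
  · subst h
    rw [if_pos rfl, (sfunG_eventually_self halt κ).deriv_eq]
    simp
  · rw [if_neg h, (sfunG_eventually_other halt κ κ' h).deriv_eq]
    simp

end

/-- the field of the node phase -/
noncomputable def WG {ι : Type} [Fintype ι] (halt : ι → Bool) (al be xc yc : ι → ℝ) : Pt → Pt :=
  nodeField al be (SG halt) (DSG halt) (fun κ => per (pfun (xc κ)))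
    (fun κ => per (deriv (pfun (xc κ))))
    (fun κ => per (pfun (yc κ))) (fun κ => per (deriv (pfun (yc κ))))

theorem WG_div {ι : Type} [Fintype ι] (halt : ι → Bool) (al be xc yc : ι → ℝ) (x : Pt) :
    ∑ j : Fin 3, dX j (fun y => WG halt al be xc yc y j) x = 0 := by
  unfold WG
  apply nodeField_div
  · exact fun κ z => SG_hasDerivAt halt κ z
  · intro κ x
    exact per_hasDerivAt (pfun_contDiff _) (pfun_zero_left _) (pfun_zero_right _) x
  · intro κ y
    exact per_hasDerivAt (pfun_contDiff _) (pfun_zero_left _) (pfun_zero_right _) y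

theorem WG_contDiff {ι : Type} [Fintype ι] (halt : ι → Bool) (al be xc yc : ι → ℝ) :
    ContDiff ℝ ∞ (WG halt al be xc yc) := by
  unfold WG
  apply nodeField_contDiff
  · exact fun κ => SG_contDiff halt κ
  · exact fun κ => DSG_contDiff halt κ
  · exact fun κ => per_contDiff (pfun_contDiff _) (pfun_zero_left _) (pfun_zero_right _)
  · exact fun κ => per_contDiff (dpfun_contDiff _) (deriv_zero_left (pfun_zero_left _))
      (deriv_zero_right (pfun_zero_right _))
  · exact fun κ => per_contDiff (pfun_contDiff _) (pfun_zero_left _) (pfun_zero_right _)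
  · exact fun κ => per_contDiff (dpfun_contDiff _) (deriv_zero_left (pfun_zero_left _))
      (deriv_zero_right (pfun_zero_right _))

theorem WG_periodic {ι : Type} [Fintype ι] (halt : ι → Bool) (al be xc yc : ι → ℝ) :
    Periodic3 (WG halt al be xc yc) := by
  unfold WG
  apply nodeField_periodic
  · exact fun κ x n => SG_periodic halt κ x n
  · exact fun κ x n => DSG_periodic halt κ x n
  · exact fun κ x n => per_add_int _ x n
  · exact fun κ x n => per_add_int _ x n
  · exact fun κ x n => per_add_int _ x n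
  · exact fun κ x n => per_add_int _ x n

theorem WG_eval {ι : Type} [Fintype ι] [DecidableEq ι] (halt : ι → Bool) (al be xc yc : ι → ℝ)
    (κ0 : ι) (p : Pt) (hz : p 2 = lvlG halt κ0) (hx0 : 0 ≤ p 0) (hx1 : p 0 ≤ 1 / 2)
    (hy0 : 0 ≤ p 1) (hy1 : p 1 ≤ 1 / 2) :
    WG halt al be xc yc p = fun i => if i = 0 then al κ0 * (p 0 - xc κ0)
      else if i = 1 then be κ0 * (p 1 - yc κ0) else 0 := by
  funext i
  unfold WG nodeField
  have hD : ∀ κ : ι, DSG halt κ (p 2) = if κ = κ0 then 1 else 0 := by
    intro κ; rw [hz]; exact DSG_lvl halt κ κ0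
  have hS : ∀ κ : ι, SG halt κ (p 2) = 0 := by
    intro κ; rw [hz]; exact SG_lvl halt κ κ0
  by_cases h0 : i = 0
  · simp only [h0, if_true]
    rw [Finset.sum_eq_single κ0]
    · rw [hD κ0, if_pos rfl, per_of_mem _ (by linarith) (by linarith), pfun_eval _ hx0 hx1]
      ring
    · intro κ _ hκ
      rw [hD κ, if_neg hκ]; ring
    · intro h; exact absurd (Finset.mem_univ κ0) h
  · by_cases h1 : i = 1
    · simp only [h1, if_true]
      have h10 : ¬ ((1 : Fin 3) = 0) := by decide
      simp only [h10, if_false]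
      rw [Finset.sum_eq_single κ0]
      · rw [hD κ0, if_pos rfl, per_of_mem _ (by linarith) (by linarith), pfun_eval _ hy0 hy1]
        ring
      · intro κ _ hκ
        rw [hD κ, if_neg hκ]; ring
      · intro h; exact absurd (Finset.mem_univ κ0) h
    · simp only [h0, h1, if_false]
      rw [neg_eq_zero]
      apply Finset.sum_eq_zero
      intro κ _
      rw [hS κ, mul_zero]

end Vale.Agent.Lib.P113
end

section
open scoped ContDiff

namespace Vale.Agent.Lib.P113

/-- The detection zone: points whose height, modulo one, lies strictly between `3/16`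
and `7/16`. -/
def haltZone : Set Pt := {p | ∃ n : ℤ, 3 / 16 < p 2 - n ∧ p 2 - n < 7 / 16}

lemma haltZone_open : IsOpen haltZone := by
  have h : haltZone = ⋃ n : ℤ, {p : Pt | 3 / 16 < p 2 - n ∧ p 2 - n < 7 / 16} := by
    ext p
    simp [haltZone]
  rw [h]
  apply isOpen_iUnion
  intro n
  have hc : Continuous (fun p : Pt => p 2 - (n : ℝ)) := (continuous_apply 2).sub continuous_const
  exact (isOpen_lt continuous_const hc).inter (isOpen_lt hc continuous_const)

lemma haltZone_periodic (p : Pt) (n : Fin 3 → ℤ) :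
    (fun i => p i + n i) ∈ haltZone ↔ p ∈ haltZone := by
  unfold haltZone
  show (∃ m : ℤ, 3 / 16 < p 2 + (n 2 : ℝ) - m ∧ p 2 + (n 2 : ℝ) - m < 7 / 16)
    ↔ ∃ m : ℤ, 3 / 16 < p 2 - m ∧ p 2 - m < 7 / 16
  constructor
  · rintro ⟨m, h1, h2⟩
    refine ⟨m - n 2, ?_, ?_⟩ <;> push_cast <;> linarith
  · rintro ⟨m, h1, h2⟩
    refine ⟨m + n 2, ?_, ?_⟩ <;> push_cast <;> linarith

section
variable {ι : Type} [Fintype ι] (halt : ι → Bool) (al be xc yc : ι → ℝ)
  (psiA psiC : ℝ → ℝ → ℝ)

/-- The three fields of one cycle: index `0` lifts the point to the height of its rule,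
index `1` applies the planar node of that rule, any other index lowers the point back. -/
noncomputable def cycW (j : ℕ) : Pt → Pt :=
  if j = 0 then zShear psiA else if j = 1 then WG halt al be xc yc else zShear psiC

/-- The schedule of fields, of period `3` in the index. -/
noncomputable def WM (k : ℤ) : Pt → Pt := cycW halt al be xc yc psiA psiC ((k - 1) % 3).toNat

/-- The schedule for the starting data `(x0, y0)`: rest before time `0`, a constant field
during `[0, 1]`, and the periodic schedule afterwards. -/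
noncomputable def Ww (x0 y0 : ℝ) (k : ℤ) : Pt → Pt :=
  if k < 0 then fun _ => 0 else if k = 0 then fun _ => ![x0, y0, 0]
  else WM halt al be xc yc psiA psiC k

lemma cycW_contDiff (hA : ContDiff ℝ ∞ (fun q : ℝ × ℝ => psiA q.1 q.2))
    (hC : ContDiff ℝ ∞ (fun q : ℝ × ℝ => psiC q.1 q.2)) (j : ℕ) :
    ContDiff ℝ ∞ (cycW halt al be xc yc psiA psiC j) := by
  unfold cycW
  split_ifs
  · exact zShear_contDiff psiA hA
  · exact WG_contDiff halt al be xc yc
  · exact zShear_contDiff psiC hC

lemma cycW_periodic (hAp : ∀ (x y : ℝ) (a b : ℤ), psiA (x + a) (y + b) = psiA x y)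
    (hCp : ∀ (x y : ℝ) (a b : ℤ), psiC (x + a) (y + b) = psiC x y) (j : ℕ) :
    Periodic3 (cycW halt al be xc yc psiA psiC j) := by
  unfold cycW
  split_ifs
  · exact zShear_periodic psiA hAp
  · exact WG_periodic halt al be xc yc
  · exact zShear_periodic psiC hCp

lemma cycW_div (j : ℕ) (x : Pt) :
    ∑ i : Fin 3, dX i (fun y => cycW halt al be xc yc psiA psiC j y i) x = 0 := by
  unfold cycW
  split_ifs
  · exact zShear_div psiA x
  · exact WG_div halt al be xc yc x
  · exact zShear_div psiC x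

lemma WM_add_three (k : ℤ) :
    WM halt al be xc yc psiA psiC (k + 3) = WM halt al be xc yc psiA psiC k := by
  unfold WM
  have : (k + 3 - 1) % 3 = (k - 1) % 3 := by omega
  rw [this]

lemma Ww_contDiff (hA : ContDiff ℝ ∞ (fun q : ℝ × ℝ => psiA q.1 q.2))
    (hC : ContDiff ℝ ∞ (fun q : ℝ × ℝ => psiC q.1 q.2)) (x0 y0 : ℝ) (k : ℤ) :
    ContDiff ℝ ∞ (Ww halt al be xc yc psiA psiC x0 y0 k) := by
  unfold Ww
  split_ifs
  · exact contDiff_const
  · exact contDiff_const
  · exact cycW_contDiff halt al be xc yc psiA psiC hA hC _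

lemma Ww_periodic (hAp : ∀ (x y : ℝ) (a b : ℤ), psiA (x + a) (y + b) = psiA x y)
    (hCp : ∀ (x y : ℝ) (a b : ℤ), psiC (x + a) (y + b) = psiC x y) (x0 y0 : ℝ) (k : ℤ) :
    Periodic3 (Ww halt al be xc yc psiA psiC x0 y0 k) := by
  unfold Ww
  split_ifs
  · intro x n; rfl
  · intro x n; rfl
  · exact cycW_periodic halt al be xc yc psiA psiC hAp hCp _

lemma Ww_div (x0 y0 : ℝ) (k : ℤ) (x : Pt) :
    ∑ i : Fin 3, dX i (fun y => Ww halt al be xc yc psiA psiC x0 y0 k y i) x = 0 := by
  unfold Ww
  split_ifs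
  · exact const_div 0 x
  · exact const_div ![x0, y0, 0] x
  · exact cycW_div halt al be xc yc psiA psiC _ x

/-- A run of the abstract system: positions in the unit square of codes, the rule applied at
each step, the node form of the rule, and the two selection identities. -/
structure IsRun (X Y : ℕ → ℝ) (κ : ℕ → ι) : Prop where
  x_mem : ∀ n, 0 ≤ X n ∧ X n ≤ 1 / 2
  y_mem : ∀ n, 0 ≤ Y n ∧ Y n ≤ 1 / 2
  x_step : ∀ n, X (n + 1) = xc (κ n) + (X n - xc (κ n)) * Real.exp (al (κ n))
  y_step : ∀ n, Y (n + 1) = yc (κ n) + (Y n - yc (κ n)) * Real.exp (be (κ n))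
  src : ∀ n, psiA (X n) (Y n) = lvlG halt (κ n)
  img : ∀ n, psiC (X (n + 1)) (Y (n + 1)) = - lvlG halt (κ n)

/-- The curve during the unit time interval number `m + 1`. -/
noncomputable def stageN (X Y : ℕ → ℝ) (κ : ℕ → ι) (m : ℕ) (σ : ℝ) : Pt :=
  if m % 3 = 0 then ![X (m / 3), Y (m / 3), σ * lvlG halt (κ (m / 3))]
  else if m % 3 = 1 then
    ![xc (κ (m / 3)) + (X (m / 3) - xc (κ (m / 3))) * Real.exp (al (κ (m / 3)) * σ),
      yc (κ (m / 3)) + (Y (m / 3) - yc (κ (m / 3))) * Real.exp (be (κ (m / 3)) * σ),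
      lvlG halt (κ (m / 3))]
  else ![X (m / 3 + 1), Y (m / 3 + 1), (1 - σ) * lvlG halt (κ (m / 3))]

/-- The curve during the unit time interval number `k`. -/
noncomputable def posZ (X Y : ℕ → ℝ) (κ : ℕ → ι) (k : ℤ) (σ : ℝ) : Pt :=
  if k < 0 then 0 else if k = 0 then σ • ![X 0, Y 0, 0]
  else stageN halt al be xc yc X Y κ (k - 1).toNat σ

end

lemma node_between (c X r σ lo hi : ℝ) (hσ0 : 0 ≤ σ) (hσ1 : σ ≤ 1) (h1 : lo ≤ X) (h2 : X ≤ hi)
    (h3 : lo ≤ c + (X - c) * Real.exp r) (h4 : c + (X - c) * Real.exp r ≤ hi) :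
    lo ≤ c + (X - c) * Real.exp (r * σ) ∧ c + (X - c) * Real.exp (r * σ) ≤ hi := by
  rcases le_total 0 r with hr | hr
  · have e1 : 1 ≤ Real.exp (r * σ) := Real.one_le_exp (mul_nonneg hr hσ0)
    have e2 : Real.exp (r * σ) ≤ Real.exp r := Real.exp_le_exp.mpr (by nlinarith)
    rcases le_total c X with hc | hc
    · constructor <;> nlinarith
    · constructor <;> nlinarith
  · have e1 : Real.exp (r * σ) ≤ 1 := by
      rw [← Real.exp_zero]
      exact Real.exp_le_exp.mpr (by nlinarith)
    have e2 : Real.exp r ≤ Real.exp (r * σ) := Real.exp_le_exp.mpr (by nlinarith)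
    rcases le_total c X with hc | hc
    · constructor <;> nlinarith
    · constructor <;> nlinarith

end Vale.Agent.Lib.P113
end

section
open scoped ContDiff

namespace Vale.Agent.Lib.P113

/-- indicator (on codes) of the set of configurations whose rule key is `κ` -/
noncomputable def srcS (M : Machine) (κ : Key M) (x y : ℝ) : ℝ :=
  if κ.1 then per (cyl2 M.NS (stDigit M true κ.2.1) (symDigit M κ.2.2)) x
  else per (cyl1 M.NS (stDigit M false κ.2.1)) x * per (cyl1 M.NS (symDigit M κ.2.2)) y

/-- indicator (on codes) of the image of that set under one step -/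
noncomputable def imgS (M : Machine) : Key M → ℝ → ℝ → ℝ
  | (true, q, Sum.inr g) => fun x y =>
      per (cyl1 M.NS (stDigit M true q)) x * per (cyl1 M.NS (symDigit M (Sum.inr g))) y
  | (true, q, Sum.inl s) => fun x y =>
      if (M.trans q s).2.2 then per (cyl1 M.NS (stDigit M true (M.trans q s).1)) x
          * per (cyl2 M.NS (M.trans q s).2.1.val (symDigit M (Sum.inr (some (true, q, s))))) y
      else per (cyl3 M.NS (stDigit M false (M.trans q s).1) (M.trans q s).2.1.val
          (symDigit M (Sum.inr (some (true, q, s))))) x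
  | (false, q, Sum.inr g) => fun x _ =>
      per (cyl2 M.NS (stDigit M false q) (symDigit M (Sum.inr g))) x
  | (false, q, Sum.inl t) => fun x y =>
      if (M.trans q t).2.2 then per (cyl1 M.NS (stDigit M true (M.trans q t).1)) x
          * per (cyl2 M.NS (M.trans q t).2.1.val (symDigit M (Sum.inr (some (false, q, t))))) y
      else per (cyl3 M.NS (stDigit M false (M.trans q t).1) (M.trans q t).2.1.val
          (symDigit M (Sum.inr (some (false, q, t))))) x

/-- Profile of the first vertical phase of the two-stack system. -/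
noncomputable def psiAS (M : Machine) (x y : ℝ) : ℝ :=
  ∑ κ : Key M, lvlG (haltS M) κ * srcS M κ x y

/-- Profile of the second vertical phase of the two-stack system. -/
noncomputable def psiCS (M : Machine) (x y : ℝ) : ℝ :=
  ∑ κ : Key M, (- lvlG (haltS M) κ) * imgS M κ x y

/-! Smoothness and periodicity of the digit tests -/

lemma val_lt_NS (M : Machine) (s : Fin (M.m + 1)) : s.val < M.NS := symDigit_lt M (Sum.inl s)

lemma perCyl1_contDiff (M : Machine) (e0 : ℕ) (he0 : e0 < M.NS) :
    ContDiff ℝ ∞ (per (cyl1 M.NS e0)) :=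
  per_contDiff (cyl1_contDiff _ _) (cyl1_zero_left _ _ M.NS_pos) (cyl1_zero_right _ _ he0)

lemma perCyl2_contDiff (M : Machine) (e0 e1 : ℕ) (he0 : e0 < M.NS) :
    ContDiff ℝ ∞ (per (cyl2 M.NS e0 e1)) :=
  per_contDiff (cyl2_contDiff _ _ _) (cyl2_zero_left _ _ _ M.NS_pos) (cyl2_zero_right _ _ _ he0)

lemma perCyl3_contDiff (M : Machine) (e0 e1 e2 : ℕ) (he0 : e0 < M.NS) :
    ContDiff ℝ ∞ (per (cyl3 M.NS e0 e1 e2)) :=
  per_contDiff (cyl3_contDiff _ _ _ _) (cyl3_zero_left _ _ _ _ M.NS_pos)
    (cyl3_zero_right _ _ _ _ he0)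

lemma srcS_contDiff (M : Machine) (κ : Key M) :
    ContDiff ℝ ∞ (fun q : ℝ × ℝ => srcS M κ q.1 q.2) := by
  unfold srcS
  by_cases h : κ.1 = true
  · simp only [h, if_true]
    exact (perCyl2_contDiff M _ _ (stDigit_lt M _ _)).comp contDiff_fst
  · simp only [h]
    exact ((perCyl1_contDiff M _ (stDigit_lt M _ _)).comp contDiff_fst).mul
      ((perCyl1_contDiff M _ (symDigit_lt M _)).comp contDiff_snd)

lemma imgS_contDiff (M : Machine) (κ : Key M) :
    ContDiff ℝ ∞ (fun q : ℝ × ℝ => imgS M κ q.1 q.2) := by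
  rcases κ with ⟨km, kq, ks | kg⟩
  · cases km
    · by_cases hd : (M.trans kq ks).2.2 = true
      · simp only [imgS, hd, if_true]
        exact ((perCyl1_contDiff M _ (stDigit_lt M _ _)).comp contDiff_fst).mul
          ((perCyl2_contDiff M _ _ (val_lt_NS M _)).comp contDiff_snd)
      · simp only [imgS, hd]
        exact (perCyl3_contDiff M _ _ _ (stDigit_lt M _ _)).comp contDiff_fst
    · by_cases hd : (M.trans kq ks).2.2 = true
      · simp only [imgS, hd, if_true]
        exact ((perCyl1_contDiff M _ (stDigit_lt M _ _)).comp contDiff_fst).mul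
          ((perCyl2_contDiff M _ _ (val_lt_NS M _)).comp contDiff_snd)
      · simp only [imgS, hd]
        exact (perCyl3_contDiff M _ _ _ (stDigit_lt M _ _)).comp contDiff_fst
  · cases km
    · simp only [imgS]
      exact (perCyl2_contDiff M _ _ (stDigit_lt M _ _)).comp contDiff_fst
    · simp only [imgS]
      exact ((perCyl1_contDiff M _ (stDigit_lt M _ _)).comp contDiff_fst).mul
        ((perCyl1_contDiff M _ (symDigit_lt M _)).comp contDiff_snd)

theorem psiAS_contDiff (M : Machine) : ContDiff ℝ ∞ (fun q : ℝ × ℝ => psiAS M q.1 q.2) := by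
  unfold psiAS
  exact ContDiff.sum (fun κ _ => contDiff_const.mul (srcS_contDiff M κ))

theorem psiCS_contDiff (M : Machine) : ContDiff ℝ ∞ (fun q : ℝ × ℝ => psiCS M q.1 q.2) := by
  unfold psiCS
  exact ContDiff.sum (fun κ _ => contDiff_const.mul (imgS_contDiff M κ))

lemma srcS_periodic (M : Machine) (κ : Key M) (x y : ℝ) (a b : ℤ) :
    srcS M κ (x + a) (y + b) = srcS M κ x y := by
  unfold srcS
  simp only [per_add_int]

lemma imgS_periodic (M : Machine) (κ : Key M) (x y : ℝ) (a b : ℤ) :
    imgS M κ (x + a) (y + b) = imgS M κ x y := by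
  rcases κ with ⟨km, kq, ks | kg⟩ <;> cases km <;> simp only [imgS, per_add_int]

theorem psiAS_periodic (M : Machine) (x y : ℝ) (a b : ℤ) :
    psiAS M (x + a) (y + b) = psiAS M x y := by
  unfold psiAS
  simp only [srcS_periodic]

theorem psiCS_periodic (M : Machine) (x y : ℝ) (a b : ℤ) :
    psiCS M (x + a) (y + b) = psiCS M x y := by
  unfold psiCS
  simp only [imgS_periodic]

/-! Digit tests on codes of configurations -/

lemma xS_lt (M : Machine) (d : SCfg M) :
    ∀ i, dcons (stDigit M d.mode d.state) (padS M d.right) i < M.NS :=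
  dcons_lt M.NS _ (stDigit_lt M _ _) _ (padS_lt M _)

lemma cyl1X (M : Machine) (d : SCfg M) (e0 : ℕ) :
    per (cyl1 M.NS e0) (encSX M d) = if stDigit M d.mode d.state = e0 then 1 else 0 := by
  unfold encSX
  rw [cyl1_code M.NS M.NS_pos _ (xS_lt M d)]
  rfl

lemma cyl2X (M : Machine) (d : SCfg M) (e0 e1 : ℕ) :
    per (cyl2 M.NS e0 e1) (encSX M d)
      = if stDigit M d.mode d.state = e0 ∧ symDigit M (d.right.getD 0 (blankS M)) = e1
        then 1 else 0 := by
  unfold encSX
  rw [cyl2_code M.NS M.NS_pos _ (xS_lt M d)]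
  rfl

lemma cyl3X (M : Machine) (d : SCfg M) (e0 e1 e2 : ℕ) :
    per (cyl3 M.NS e0 e1 e2) (encSX M d)
      = if stDigit M d.mode d.state = e0 ∧ symDigit M (d.right.getD 0 (blankS M)) = e1
          ∧ symDigit M (d.right.getD 1 (blankS M)) = e2 then 1 else 0 := by
  unfold encSX
  rw [cyl3_code M.NS M.NS_pos _ (xS_lt M d)]
  rfl

lemma cyl1Y (M : Machine) (d : SCfg M) (e0 : ℕ) :
    per (cyl1 M.NS e0) (encSY M d)
      = if symDigit M (d.left.getD 0 (blankS M)) = e0 then 1 else 0 := by
  unfold encSY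
  rw [cyl1_code M.NS M.NS_pos _ (padS_lt M _)]
  rfl

lemma cyl2Y (M : Machine) (d : SCfg M) (e0 e1 : ℕ) :
    per (cyl2 M.NS e0 e1) (encSY M d)
      = if symDigit M (d.left.getD 0 (blankS M)) = e0
          ∧ symDigit M (d.left.getD 1 (blankS M)) = e1 then 1 else 0 := by
  unfold encSY
  rw [cyl2_code M.NS M.NS_pos _ (padS_lt M _)]
  rfl

lemma stDigit_eq_iff (M : Machine) (d d' : Bool) (q q' : Fin (M.k + 1)) :
    stDigit M d q = stDigit M d' q' ↔ d = d' ∧ q = q' :=
  ⟨stDigit_inj M d d' q q', fun h => by rw [h.1, h.2]⟩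

lemma symDigit_eq_iff (M : Machine) (a b : Sym M) : symDigit M a = symDigit M b ↔ a = b :=
  ⟨symDigit_inj M a b, fun h => by rw [h]⟩

lemma symDigit_eq_val (M : Machine) (a : Sym M) (s : Fin (M.m + 1)) :
    symDigit M a = s.val ↔ a = Sum.inl s :=
  symDigit_eq_iff M a (Sum.inl s)

theorem srcS_enc (M : Machine) (c : SCfg M) (κ : Key M) :
    srcS M κ (encSX M c) (encSY M c) = if κ = keyOf M c then 1 else 0 := by
  obtain ⟨km, kq, ks⟩ := κ
  obtain ⟨cm, cq, cr, cl⟩ := c
  unfold srcS keyOf SCfg.top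
  cases km <;> cases cm <;>
    simp [cyl1X, cyl2X, cyl1Y, stDigit_eq_iff, symDigit_eq_iff, List.head?_eq_getElem?,
      eq_comm, ite_and]
  split_ifs <;> rfl

/-- The condition on a configuration `d` tested by `imgS M κ`. -/
def condS (M : Machine) : Key M → SCfg M → Prop
  | (true, q, Sum.inr g), d =>
      d.mode = true ∧ d.state = q ∧ d.left.getD 0 (blankS M) = Sum.inr g
  | (true, q, Sum.inl s), d =>
      if (M.trans q s).2.2 then
        d.mode = true ∧ d.state = (M.trans q s).1
          ∧ d.left.getD 0 (blankS M) = Sum.inl (M.trans q s).2.1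
          ∧ d.left.getD 1 (blankS M) = Sum.inr (some (true, q, s))
      else
        d.mode = false ∧ d.state = (M.trans q s).1
          ∧ d.right.getD 0 (blankS M) = Sum.inl (M.trans q s).2.1
          ∧ d.right.getD 1 (blankS M) = Sum.inr (some (true, q, s))
  | (false, q, Sum.inr g), d =>
      d.mode = false ∧ d.state = q ∧ d.right.getD 0 (blankS M) = Sum.inr g
  | (false, q, Sum.inl t), d =>
      if (M.trans q t).2.2 then
        d.mode = true ∧ d.state = (M.trans q t).1
          ∧ d.left.getD 0 (blankS M) = Sum.inl (M.trans q t).2.1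
          ∧ d.left.getD 1 (blankS M) = Sum.inr (some (false, q, t))
      else
        d.mode = false ∧ d.state = (M.trans q t).1
          ∧ d.right.getD 0 (blankS M) = Sum.inl (M.trans q t).2.1
          ∧ d.right.getD 1 (blankS M) = Sum.inr (some (false, q, t))

lemma ind_mul_one {p q : Prop} [Decidable p] [Decidable q] (hp : p) (hq : q) :
    (if p then (1 : ℝ) else 0) * (if q then (1 : ℝ) else 0) = 1 := by
  rw [if_pos hp, if_pos hq, mul_one]

lemma ind_mul_zero {p q : Prop} [Decidable p] [Decidable q] (h : ¬ (p ∧ q)) :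
    (if p then (1 : ℝ) else 0) * (if q then (1 : ℝ) else 0) = 0 := by
  by_cases hp : p
  · by_cases hq : q
    · exact absurd ⟨hp, hq⟩ h
    · rw [if_neg hq, mul_zero]
  · rw [if_neg hp, zero_mul]

lemma imgS_eval (M : Machine) (κ : Key M) (d : SCfg M) :
    (condS M κ d → imgS M κ (encSX M d) (encSY M d) = 1)
      ∧ (¬ condS M κ d → imgS M κ (encSX M d) (encSY M d) = 0) := by
  rcases κ with ⟨km, kq, ks | kg⟩
  · cases km
    · by_cases hd : (M.trans kq ks).2.2 = true
      · simp only [imgS, condS, hd, if_true, cyl1X, cyl2Y]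
        constructor
        · rintro ⟨h1, h2, h3, h4⟩
          refine ind_mul_one ?_ ⟨?_, ?_⟩
          · rw [h1, h2]
          · rw [h3]; rfl
          · rw [h4]
        · intro hc
          refine ind_mul_zero ?_
          rintro ⟨h1, h2, h3⟩
          rw [stDigit_eq_iff] at h1
          rw [symDigit_eq_val] at h2
          rw [symDigit_eq_iff] at h3
          exact hc ⟨h1.1, h1.2, h2, h3⟩
      · have hdf : (M.trans kq ks).2.2 = false := by simpa using hd
        simp only [imgS, condS, hdf, Bool.false_eq_true, if_false, cyl3X]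
        constructor
        · rintro ⟨h1, h2, h3, h4⟩
          rw [if_pos]
          refine ⟨?_, ?_, ?_⟩
          · rw [h1, h2]
          · rw [h3]; rfl
          · rw [h4]
        · intro hc
          rw [if_neg]
          rintro ⟨h1, h2, h3⟩
          rw [stDigit_eq_iff] at h1
          rw [symDigit_eq_val] at h2
          rw [symDigit_eq_iff] at h3
          exact hc ⟨h1.1, h1.2, h2, h3⟩
    · by_cases hd : (M.trans kq ks).2.2 = true
      · simp only [imgS, condS, hd, if_true, cyl1X, cyl2Y]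
        constructor
        · rintro ⟨h1, h2, h3, h4⟩
          refine ind_mul_one ?_ ⟨?_, ?_⟩
          · rw [h1, h2]
          · rw [h3]; rfl
          · rw [h4]
        · intro hc
          refine ind_mul_zero ?_
          rintro ⟨h1, h2, h3⟩
          rw [stDigit_eq_iff] at h1
          rw [symDigit_eq_val] at h2
          rw [symDigit_eq_iff] at h3
          exact hc ⟨h1.1, h1.2, h2, h3⟩
      · have hdf : (M.trans kq ks).2.2 = false := by simpa using hd
        simp only [imgS, condS, hdf, Bool.false_eq_true, if_false, cyl3X]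
        constructor
        · rintro ⟨h1, h2, h3, h4⟩
          rw [if_pos]
          refine ⟨?_, ?_, ?_⟩
          · rw [h1, h2]
          · rw [h3]; rfl
          · rw [h4]
        · intro hc
          rw [if_neg]
          rintro ⟨h1, h2, h3⟩
          rw [stDigit_eq_iff] at h1
          rw [symDigit_eq_val] at h2
          rw [symDigit_eq_iff] at h3
          exact hc ⟨h1.1, h1.2, h2, h3⟩
  · cases km
    · simp only [imgS, condS, cyl2X]
      constructor
      · rintro ⟨h1, h2, h3⟩
        rw [if_pos]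
        refine ⟨?_, ?_⟩
        · rw [h1, h2]
        · rw [h3]
      · intro hc
        rw [if_neg]
        rintro ⟨h1, h2⟩
        rw [stDigit_eq_iff] at h1
        rw [symDigit_eq_iff] at h2
        exact hc ⟨h1.1, h1.2, h2⟩
    · simp only [imgS, condS, cyl1X, cyl1Y]
      constructor
      · rintro ⟨h1, h2, h3⟩
        refine ind_mul_one ?_ ?_
        · rw [h1, h2]
        · rw [h3]
      · intro hc
        refine ind_mul_zero ?_
        rintro ⟨h1, h2⟩
        rw [stDigit_eq_iff] at h1
        rw [symDigit_eq_iff] at h2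
        exact hc ⟨h1.1, h1.2, h2⟩

lemma condS_step (M : Machine) (c : SCfg M) : condS M (keyOf M c) (stepS M c) := by
  obtain ⟨cm, cq, cr, cl⟩ := c
  cases cm
  · rcases h : cl.headD (blankS M) with t | g
    · by_cases hd : (M.trans cq t).2.2 = true
      · simp only [keyOf, SCfg.top, stepS, h, hd, Bool.false_eq_true, if_false, if_true]
        simp [condS, hd]
      · have hdf : (M.trans cq t).2.2 = false := by simpa using hd
        simp only [keyOf, SCfg.top, stepS, h, hdf, Bool.false_eq_true, if_false]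
        simp [condS, hdf]
    · simp only [keyOf, SCfg.top, stepS, h, Bool.false_eq_true, if_false]
      simp [condS]
  · rcases h : cr.headD (blankS M) with s | g
    · by_cases hd : (M.trans cq s).2.2 = true
      · simp only [keyOf, SCfg.top, stepS, h, hd, if_true]
        simp [condS, hd]
      · have hdf : (M.trans cq s).2.2 = false := by simpa using hd
        simp only [keyOf, SCfg.top, stepS, h, hdf, Bool.false_eq_true, if_false, if_true]
        simp [condS, hdf]
    · simp only [keyOf, SCfg.top, stepS, h, if_true]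
      simp [condS]

lemma condS_unique (M : Machine) (κ κ' : Key M) (d : SCfg M) (h : condS M κ d)
    (h' : condS M κ' d) : κ = κ' := by
  rcases κ with ⟨km, kq, ks | kg⟩ <;> rcases κ' with ⟨km', kq', ks' | kg'⟩ <;>
    cases km <;> cases km' <;> simp only [condS] at h h' <;>
    (try split_ifs at h h') <;> simp_all

theorem imgS_enc (M : Machine) (c : SCfg M) (κ : Key M) :
    imgS M κ (encSX M (stepS M c)) (encSY M (stepS M c)) = if κ = keyOf M c then 1 else 0 := by
  by_cases hκ : κ = keyOf M c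
  · rw [if_pos hκ, hκ]
    exact (imgS_eval M _ _).1 (condS_step M c)
  · rw [if_neg hκ]
    exact (imgS_eval M _ _).2 (fun h => hκ (condS_unique M _ _ _ h (condS_step M c)))

theorem psiAS_enc (M : Machine) (c : SCfg M) :
    psiAS M (encSX M c) (encSY M c) = lvlG (haltS M) (keyOf M c) := by
  unfold psiAS
  rw [Finset.sum_eq_single (keyOf M c)]
  · rw [srcS_enc, if_pos rfl, mul_one]
  · intro κ _ hκ
    rw [srcS_enc, if_neg hκ, mul_zero]
  · intro h
    exact absurd (Finset.mem_univ _) h

theorem psiCS_enc (M : Machine) (c : SCfg M) :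
    psiCS M (encSX M (stepS M c)) (encSY M (stepS M c)) = - lvlG (haltS M) (keyOf M c) := by
  unfold psiCS
  rw [Finset.sum_eq_single (keyOf M c)]
  · rw [imgS_enc, if_pos rfl, mul_one]
  · intro κ _ hκ
    rw [imgS_enc, if_neg hκ, mul_zero]
  · intro h
    exact absurd (Finset.mem_univ _) h

end Vale.Agent.Lib.P113
end

section
open scoped ContDiff

namespace Vale.Agent.Lib.P113

section
variable {ι : Type} [Fintype ι] [DecidableEq ι] (halt : ι → Bool) (al be xc yc : ι → ℝ)
  (psiA psiC : ℝ → ℝ → ℝ)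

omit [DecidableEq ι] in
lemma stageN_join (X Y : ℕ → ℝ) (κ : ℕ → ι) (hr : IsRun halt al be xc yc psiA psiC X Y κ)
    (m : ℕ) : stageN halt al be xc yc X Y κ m 1 = stageN halt al be xc yc X Y κ (m + 1) 0 := by
  have h3 : m % 3 = 0 ∨ m % 3 = 1 ∨ m % 3 = 2 := by omega
  rcases h3 with h | h | h
  · have h1 : (m + 1) % 3 = 1 := by omega
    have h2 : (m + 1) / 3 = m / 3 := by omega
    unfold stageN
    rw [if_pos h, if_neg (by omega), if_pos h1, h2]
    simp
  · have h1 : (m + 1) % 3 = 2 := by omega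
    have h2 : (m + 1) / 3 = m / 3 := by omega
    unfold stageN
    rw [if_neg (by omega), if_pos h, if_neg (by omega), if_neg (by omega), h2,
      hr.x_step (m / 3), hr.y_step (m / 3)]
    simp
  · have h1 : (m + 1) % 3 = 0 := by omega
    have h2 : (m + 1) / 3 = m / 3 + 1 := by omega
    unfold stageN
    rw [if_neg (by omega), if_neg (by omega), if_pos h1, h2]
    simp

omit [DecidableEq ι] in
lemma posZ_join (X Y : ℕ → ℝ) (κ : ℕ → ι) (hr : IsRun halt al be xc yc psiA psiC X Y κ)
    (k : ℤ) : posZ halt al be xc yc X Y κ k 1 = posZ halt al be xc yc X Y κ (k + 1) 0 := by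
  unfold posZ
  rcases lt_trichotomy k (-1) with hk | hk | hk
  · rw [if_pos (by omega), if_pos (by omega)]
  · rw [if_pos (by omega), if_neg (by omega), if_pos (by omega)]
    simp
  · rcases eq_or_lt_of_le (show (0 : ℤ) ≤ k by omega) with hk0 | hk0
    · subst hk0
      rw [if_neg (by omega), if_pos rfl, if_neg (by omega), if_neg (by omega)]
      have : ((0 : ℤ) + 1 - 1).toNat = 0 := by simp
      rw [this]
      unfold stageN
      simp
    · rw [if_neg (by omega), if_neg (by omega), if_neg (by omega), if_neg (by omega)]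
      have : (k + 1 - 1).toNat = (k - 1).toNat + 1 := by omega
      rw [this]
      exact stageN_join halt al be xc yc psiA psiC X Y κ hr _

lemma stageN_flow (X Y : ℕ → ℝ) (κ : ℕ → ι) (hr : IsRun halt al be xc yc psiA psiC X Y κ)
    (m : ℕ) (σ : ℝ) (h0 : 0 ≤ σ) (h1 : σ ≤ 1) :
    HasDerivAt (stageN halt al be xc yc X Y κ m)
      (cycW halt al be xc yc psiA psiC (m % 3) (stageN halt al be xc yc X Y κ m σ)) σ := by
  have h3 : m % 3 = 0 ∨ m % 3 = 1 ∨ m % 3 = 2 := by omega
  rcases h3 with h | h | h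
  · have hfun : stageN halt al be xc yc X Y κ m
        = fun s : ℝ => ![X (m / 3), Y (m / 3), s * lvlG halt (κ (m / 3))] := by
      funext s
      unfold stageN
      rw [if_pos h]
    have hW : cycW halt al be xc yc psiA psiC (m % 3) (stageN halt al be xc yc X Y κ m σ)
        = ![0, 0, lvlG halt (κ (m / 3))] := by
      rw [hfun, h]
      unfold cycW zShear
      rw [if_pos rfl]
      funext i
      fin_cases i <;> simp [hr.src]
    rw [hW, hfun, hasDerivAt_pi]
    intro i
    fin_cases i
    · simpa using hasDerivAt_const σ (X (m / 3))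
    · simpa using hasDerivAt_const σ (Y (m / 3))
    · simpa using (hasDerivAt_id σ).mul_const (lvlG halt (κ (m / 3)))
  · have hfun : stageN halt al be xc yc X Y κ m
        = fun s : ℝ =>
          ![xc (κ (m / 3)) + (X (m / 3) - xc (κ (m / 3))) * Real.exp (al (κ (m / 3)) * s),
            yc (κ (m / 3)) + (Y (m / 3) - yc (κ (m / 3))) * Real.exp (be (κ (m / 3)) * s),
            lvlG halt (κ (m / 3))] := by
      funext s
      unfold stageN
      rw [if_neg (by omega), if_pos h]
    have hx := node_between (xc (κ (m / 3))) (X (m / 3)) (al (κ (m / 3))) σ 0 (1 / 2) h0 h1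
      (hr.x_mem (m / 3)).1 (hr.x_mem (m / 3)).2
      (by rw [← hr.x_step]; exact (hr.x_mem _).1) (by rw [← hr.x_step]; exact (hr.x_mem _).2)
    have hy := node_between (yc (κ (m / 3))) (Y (m / 3)) (be (κ (m / 3))) σ 0 (1 / 2) h0 h1
      (hr.y_mem (m / 3)).1 (hr.y_mem (m / 3)).2
      (by rw [← hr.y_step]; exact (hr.y_mem _).1) (by rw [← hr.y_step]; exact (hr.y_mem _).2)
    have hW : cycW halt al be xc yc psiA psiC (m % 3) (stageN halt al be xc yc X Y κ m σ)
        = ![al (κ (m / 3)) * ((X (m / 3) - xc (κ (m / 3))) * Real.exp (al (κ (m / 3)) * σ)),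
            be (κ (m / 3)) * ((Y (m / 3) - yc (κ (m / 3))) * Real.exp (be (κ (m / 3)) * σ)),
            0] := by
      rw [hfun, h]
      unfold cycW
      rw [if_neg (by omega), if_pos rfl]
      rw [WG_eval halt al be xc yc (κ (m / 3)) _ (by simp) (by simpa using hx.1)
        (by simpa using hx.2) (by simpa using hy.1) (by simpa using hy.2)]
      funext i
      fin_cases i <;> simp
    rw [hW, hfun, hasDerivAt_pi]
    intro i
    fin_cases i
    · have hd : HasDerivAt (fun s : ℝ => xc (κ (m / 3))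
          + (X (m / 3) - xc (κ (m / 3))) * Real.exp (al (κ (m / 3)) * s))
          ((X (m / 3) - xc (κ (m / 3))) * (Real.exp (al (κ (m / 3)) * σ) * al (κ (m / 3)))) σ := by
        have he : HasDerivAt (fun s : ℝ => Real.exp (al (κ (m / 3)) * s))
            (Real.exp (al (κ (m / 3)) * σ) * al (κ (m / 3))) σ := by
          have := ((hasDerivAt_id σ).const_mul (al (κ (m / 3)))).exp
          simpa using this
        have := (he.const_mul (X (m / 3) - xc (κ (m / 3)))).const_add (xc (κ (m / 3)))
        exact this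
      have heq : (X (m / 3) - xc (κ (m / 3))) * (Real.exp (al (κ (m / 3)) * σ) * al (κ (m / 3)))
          = al (κ (m / 3)) * ((X (m / 3) - xc (κ (m / 3))) * Real.exp (al (κ (m / 3)) * σ)) := by
        ring
      rw [heq] at hd
      simpa using hd
    · have hd : HasDerivAt (fun s : ℝ => yc (κ (m / 3))
          + (Y (m / 3) - yc (κ (m / 3))) * Real.exp (be (κ (m / 3)) * s))
          ((Y (m / 3) - yc (κ (m / 3))) * (Real.exp (be (κ (m / 3)) * σ) * be (κ (m / 3)))) σ := by
        have he : HasDerivAt (fun s : ℝ => Real.exp (be (κ (m / 3)) * s))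
            (Real.exp (be (κ (m / 3)) * σ) * be (κ (m / 3))) σ := by
          have := ((hasDerivAt_id σ).const_mul (be (κ (m / 3)))).exp
          simpa using this
        have := (he.const_mul (Y (m / 3) - yc (κ (m / 3)))).const_add (yc (κ (m / 3)))
        exact this
      have heq : (Y (m / 3) - yc (κ (m / 3))) * (Real.exp (be (κ (m / 3)) * σ) * be (κ (m / 3)))
          = be (κ (m / 3)) * ((Y (m / 3) - yc (κ (m / 3))) * Real.exp (be (κ (m / 3)) * σ)) := by
        ring
      rw [heq] at hd
      simpa using hd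
    · simpa using hasDerivAt_const σ (lvlG halt (κ (m / 3)))
  · have hfun : stageN halt al be xc yc X Y κ m
        = fun s : ℝ => ![X (m / 3 + 1), Y (m / 3 + 1), (1 - s) * lvlG halt (κ (m / 3))] := by
      funext s
      unfold stageN
      rw [if_neg (by omega), if_neg (by omega)]
    have hW : cycW halt al be xc yc psiA psiC (m % 3) (stageN halt al be xc yc X Y κ m σ)
        = ![0, 0, - lvlG halt (κ (m / 3))] := by
      rw [hfun, h]
      unfold cycW zShear
      rw [if_neg (by omega), if_neg (by omega)]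
      funext i
      fin_cases i <;> simp [hr.img]
    rw [hW, hfun, hasDerivAt_pi]
    intro i
    fin_cases i
    · simpa using hasDerivAt_const σ (X (m / 3 + 1))
    · simpa using hasDerivAt_const σ (Y (m / 3 + 1))
    · have hd : HasDerivAt (fun s : ℝ => (1 - s) * lvlG halt (κ (m / 3)))
          ((0 - 1) * lvlG halt (κ (m / 3))) σ :=
        ((hasDerivAt_const σ (1 : ℝ)).sub (hasDerivAt_id σ)).mul_const _
      simpa using hd

lemma posZ_flow (X Y : ℕ → ℝ) (κ : ℕ → ι) (hr : IsRun halt al be xc yc psiA psiC X Y κ)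
    (k : ℤ) (σ : ℝ) (h0 : 0 ≤ σ) (h1 : σ ≤ 1) :
    HasDerivAt (posZ halt al be xc yc X Y κ k)
      (Ww halt al be xc yc psiA psiC (X 0) (Y 0) k (posZ halt al be xc yc X Y κ k σ)) σ := by
  rcases lt_trichotomy k 0 with hk | hk | hk
  · have hfun : posZ halt al be xc yc X Y κ k = fun _ : ℝ => (0 : Pt) := by
      funext s
      unfold posZ
      rw [if_pos hk]
    have hW : Ww halt al be xc yc psiA psiC (X 0) (Y 0) k (posZ halt al be xc yc X Y κ k σ)
        = 0 := by
      unfold Ww
      rw [if_pos hk]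
    rw [hW, hfun]
    exact hasDerivAt_const σ (0 : Pt)
  · subst hk
    have hfun : posZ halt al be xc yc X Y κ 0 = fun s : ℝ => s • ![X 0, Y 0, 0] := by
      funext s
      unfold posZ
      rw [if_neg (by omega), if_pos rfl]
    have hW : Ww halt al be xc yc psiA psiC (X 0) (Y 0) 0 (posZ halt al be xc yc X Y κ 0 σ)
        = ![X 0, Y 0, 0] := by
      unfold Ww
      rw [if_neg (by omega), if_pos rfl]
    rw [hW, hfun]
    have := (hasDerivAt_id σ).smul_const (![X 0, Y 0, 0] : Pt)
    simpa using this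
  · have hfun : posZ halt al be xc yc X Y κ k
        = stageN halt al be xc yc X Y κ (k - 1).toNat := by
      funext s
      unfold posZ
      rw [if_neg (by omega), if_neg (by omega)]
    have hW : Ww halt al be xc yc psiA psiC (X 0) (Y 0) k
        = cycW halt al be xc yc psiA psiC ((k - 1).toNat % 3) := by
      unfold Ww WM
      rw [if_neg (by omega), if_neg (by omega)]
      have : ((k - 1) % 3).toNat = (k - 1).toNat % 3 := by omega
      rw [this]
    rw [hW, hfun]
    exact stageN_flow halt al be xc yc psiA psiC X Y κ hr _ σ h0 h1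

omit [DecidableEq ι] in
lemma stageN_z (X Y : ℕ → ℝ) (κ : ℕ → ι) (m : ℕ) (σ : ℝ) (h0 : 0 ≤ σ) (h1 : σ ≤ 1) :
    0 ≤ stageN halt al be xc yc X Y κ m σ 2
      ∧ stageN halt al be xc yc X Y κ m σ 2 ≤ lvlG halt (κ (m / 3)) := by
  have hl := lvlG_pos halt (κ (m / 3))
  unfold stageN
  split_ifs
  · simp only [Matrix.cons_val_two, Matrix.tail_cons, Matrix.head_cons]
    constructor <;> nlinarith
  · simp only [Matrix.cons_val_two, Matrix.tail_cons, Matrix.head_cons]
    constructor <;> linarith
  · simp only [Matrix.cons_val_two, Matrix.tail_cons, Matrix.head_cons]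
    constructor <;> nlinarith

omit [DecidableEq ι] in
lemma posZ_zone (X Y : ℕ → ℝ) (κ : ℕ → ι) (k : ℤ) (σ : ℝ) (h0 : 0 ≤ σ) (h1 : σ ≤ 1)
    (hz : posZ halt al be xc yc X Y κ k σ ∈ haltZone) : ∃ n, halt (κ n) = true := by
  obtain ⟨n, hn1, hn2⟩ := hz
  have key : ∀ z : ℝ, 0 ≤ z → z ≤ 3 / 8 → 3 / 16 < z - (n : ℝ) → z - (n : ℝ) < 7 / 16 →
      3 / 16 < z := by
    intro z hz0 hz1 g1 g2
    have hn_lt : (n : ℝ) < 1 := by linarith
    have hn_gt : (-1 : ℝ) < (n : ℝ) := by linarith
    have e1 : n < 1 := by exact_mod_cast hn_lt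
    have e2 : -1 < n := by exact_mod_cast hn_gt
    have e3 : n = 0 := by omega
    rw [e3] at g1
    simpa using g1
  rcases lt_trichotomy k 0 with hk | hk | hk
  · exfalso
    have hp : posZ halt al be xc yc X Y κ k σ = 0 := by
      unfold posZ
      rw [if_pos hk]
    rw [hp] at hn1 hn2
    have := key 0 le_rfl (by norm_num) (by simpa using hn1) (by simpa using hn2)
    linarith
  · exfalso
    have hp : posZ halt al be xc yc X Y κ k σ 2 = 0 := by
      unfold posZ
      rw [if_neg (by omega), if_pos hk]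
      simp
    rw [hp] at hn1 hn2
    have := key 0 le_rfl (by norm_num) hn1 hn2
    linarith
  · have hp : posZ halt al be xc yc X Y κ k σ
        = stageN halt al be xc yc X Y κ (k - 1).toNat σ := by
      unfold posZ
      rw [if_neg (by omega), if_neg (by omega)]
    rw [hp] at hn1 hn2
    obtain ⟨z0, z1⟩ := stageN_z halt al be xc yc X Y κ (k - 1).toNat σ h0 h1
    have hle := lvlG_le halt (κ ((k - 1).toNat / 3))
    have hgt := key _ z0 (le_trans z1 hle) hn1 hn2
    refine ⟨(k - 1).toNat / 3, ?_⟩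
    by_contra hh
    have hf : halt (κ ((k - 1).toNat / 3)) = false := by simpa using hh
    have := lvlG_nonhalt halt _ hf
    linarith

omit [DecidableEq ι] in
lemma posZ_hit (X Y : ℕ → ℝ) (κ : ℕ → ι) (n : ℕ) (hn : halt (κ n) = true) :
    posZ halt al be xc yc X Y κ (3 * (n : ℤ) + 2) 0 ∈ haltZone := by
  have hp : posZ halt al be xc yc X Y κ (3 * (n : ℤ) + 2) 0 2 = lvlG halt (κ n) := by
    unfold posZ
    rw [if_neg (by omega), if_neg (by omega)]
    have e : (3 * (n : ℤ) + 2 - 1).toNat = 3 * n + 1 := by omega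
    rw [e]
    unfold stageN
    have e1 : (3 * n + 1) % 3 = 1 := by omega
    have e2 : (3 * n + 1) / 3 = n := by omega
    rw [if_neg (by omega), if_pos e1, e2]
    simp
  refine ⟨0, ?_, ?_⟩
  · rw [hp]
    have := lvlG_halt halt (κ n) hn
    push_cast
    linarith
  · rw [hp]
    have := lvlG_le halt (κ n)
    push_cast
    linarith

end

end Vale.Agent.Lib.P113
end

section
open scoped ContDiff

namespace Vale.Agent.Lib.P113

/-- The abstract construction. From smooth periodic selection functions and node data one gets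
a force `G` of period `3`, and for every run of the abstract system a force `f` (equal to `G`
from time `1` on), a velocity field `u` solving the forced system from rest with zero
pressure, and a curve following `u` from the origin that meets the detection zone exactly
when some rule of the run is marked. -/
theorem flow_main (ν : ℝ) {ι : Type} [Fintype ι] [DecidableEq ι] (halt : ι → Bool)
    (al be xc yc : ι → ℝ) (psiA psiC : ℝ → ℝ → ℝ)
    (hA : ContDiff ℝ ∞ (fun q : ℝ × ℝ => psiA q.1 q.2))
    (hAp : ∀ (x y : ℝ) (a b : ℤ), psiA (x + a) (y + b) = psiA x y)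
    (hC : ContDiff ℝ ∞ (fun q : ℝ × ℝ => psiC q.1 q.2))
    (hCp : ∀ (x y : ℝ) (a b : ℤ), psiC (x + a) (y + b) = psiC x y) :
    ∃ G : ℝ → Pt → Pt, ContDiff ℝ ∞ (fun q : ℝ × Pt => G q.1 q.2) ∧ (∀ t, Periodic3 (G t)) ∧
      (∀ t x, G (t + 3) x = G t x) ∧
      ∀ (X Y : ℕ → ℝ) (κ : ℕ → ι), IsRun halt al be xc yc psiA psiC X Y κ →
        ∃ (f u : ℝ → Pt → Pt) (traj : ℝ → Pt),
          ContDiff ℝ ∞ (fun q : ℝ × Pt => f q.1 q.2) ∧ (∀ t, Periodic3 (f t)) ∧
          (∀ t, 0 ≤ t → t ≤ 1 → ∀ x, f t x = deriv thT t • ![X 0, Y 0, 0]) ∧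
          (∀ t, 1 ≤ t → ∀ x, f t x = G t x) ∧
          ContDiff ℝ ∞ (fun q : ℝ × Pt => u q.1 q.2) ∧ (∀ t, Periodic3 (u t)) ∧
          SolvesNS ν f u (fun _ _ => 0) ∧
          traj 0 = 0 ∧ (∀ t, 0 ≤ t → HasDerivAt traj (u t (traj t)) t) ∧
          ((∃ t, 0 ≤ t ∧ traj t ∈ haltZone) ↔ ∃ n, halt (κ n) = true) := by
  have hWMs : ∀ k, ContDiff ℝ ∞ (WM halt al be xc yc psiA psiC k) :=
    fun k => cycW_contDiff halt al be xc yc psiA psiC hA hC _
  have hWMp : ∀ k, Periodic3 (WM halt al be xc yc psiA psiC k) :=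
    fun k => cycW_periodic halt al be xc yc psiA psiC hAp hCp _
  refine ⟨forceOf ν (gluedU (WM halt al be xc yc psiA psiC)), ?_, ?_, ?_, ?_⟩
  · exact contDiff_forceOf ν _ (gluedU_contDiff _ hWMs)
  · exact periodic_forceOf ν _ (gluedU_periodic _ hWMp)
  · exact force_periodic ν _ (WM_add_three halt al be xc yc psiA psiC)
  intro X Y κ hr
  have hWs : ∀ k, ContDiff ℝ ∞ (Ww halt al be xc yc psiA psiC (X 0) (Y 0) k) :=
    Ww_contDiff halt al be xc yc psiA psiC hA hC (X 0) (Y 0)
  have hWp : ∀ k, Periodic3 (Ww halt al be xc yc psiA psiC (X 0) (Y 0) k) :=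
    Ww_periodic halt al be xc yc psiA psiC hAp hCp (X 0) (Y 0)
  have hWd : ∀ k x, ∑ i : Fin 3,
      dX i (fun y => Ww halt al be xc yc psiA psiC (X 0) (Y 0) k y i) x = 0 :=
    Ww_div halt al be xc yc psiA psiC (X 0) (Y 0)
  refine ⟨forceOf ν (gluedU (Ww halt al be xc yc psiA psiC (X 0) (Y 0))),
    gluedU (Ww halt al be xc yc psiA psiC (X 0) (Y 0)),
    fun s : ℝ => posZ halt al be xc yc X Y κ ⌊s⌋ (ThS (s - ⌊s⌋)),
    ?_, ?_, ?_, ?_, ?_, ?_, ?_, ?_, ?_, ?_⟩
  · exact contDiff_forceOf ν _ (gluedU_contDiff _ hWs)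
  · exact periodic_forceOf ν _ (gluedU_periodic _ hWp)
  · intro t ht0 ht1 x
    apply force_kick ν _ ![X 0, Y 0, 0] _ t ht0 ht1 x
    unfold Ww
    rw [if_neg (by omega), if_pos rfl]
  · intro t ht x
    apply force_eq_of_agree ν _ _ _ t ht x
    intro k hk
    unfold Ww
    rw [if_neg (by omega), if_neg (by omega)]
  · exact gluedU_contDiff _ hWs
  · exact gluedU_periodic _ hWp
  · exact gluedU_solves ν _ hWd
  · show posZ halt al be xc yc X Y κ ⌊(0 : ℝ)⌋ (ThS ((0 : ℝ) - ⌊(0 : ℝ)⌋)) = 0
    rw [Int.floor_zero]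
    unfold posZ
    rw [if_neg (by omega), if_pos rfl]
    have : ThS ((0 : ℝ) - ((0 : ℤ) : ℝ)) = 0 := ThS_zero _ (by norm_num)
    rw [this, zero_smul]
  · intro t _
    exact gluedU_traj (posZ halt al be xc yc X Y κ) _
      (posZ_join halt al be xc yc psiA psiC X Y κ hr)
      (posZ_flow halt al be xc yc psiA psiC X Y κ hr) t
  · constructor
    · rintro ⟨t, _, hz⟩
      exact posZ_zone halt al be xc yc X Y κ ⌊t⌋ (ThS (t - ⌊t⌋)) (ThS_range _).1 (ThS_range _).2 hz
    · rintro ⟨n, hn⟩
      refine ⟨3 * (n : ℝ) + 2, by positivity, ?_⟩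
      have hfl : ⌊3 * (n : ℝ) + 2⌋ = 3 * (n : ℤ) + 2 := by
        rw [Int.floor_eq_iff]
        push_cast
        constructor <;> linarith
      show posZ halt al be xc yc X Y κ ⌊3 * (n : ℝ) + 2⌋
        (ThS (3 * (n : ℝ) + 2 - ⌊3 * (n : ℝ) + 2⌋)) ∈ haltZone
      rw [hfl]
      have : ThS (3 * (n : ℝ) + 2 - ((3 * (n : ℤ) + 2 : ℤ) : ℝ)) = 0 :=
        ThS_zero _ (by push_cast; linarith)
      rw [this]
      exact posZ_hit halt al be xc yc X Y κ n hn

end Vale.Agent.Lib.P113
end

section
namespace Vale.Agent.Lib.P113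

theorem padS_cons (M : Machine) (s : Sym M) (l : List (Sym M)) :
    padS M (s :: l) = dcons (symDigit M s) (padS M l) := by
  funext i
  cases i with
  | zero => simp [padS, dcons]
  | succ i => simp [padS, dcons]

theorem padS_eq (M : Machine) (l : List (Sym M)) :
    padS M l = dcons (symDigit M (l.headD (blankS M))) (padS M l.tail) := by
  cases l with
  | nil =>
    funext i
    cases i with
    | zero => simp [padS, dcons]
    | succ i => simp [padS, dcons]
  | cons s l => exact padS_cons M s l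

theorem Machine.BS_pos (M : Machine) : 0 < M.BS := by
  unfold Machine.BS
  exact two_N_pos M.NS M.NS_pos

theorem code_padS_cons (M : Machine) (s : Sym M) (l : List (Sym M)) :
    code M.NS (padS M (s :: l)) = ((symDigit M s : ℝ) + code M.NS (padS M l)) / M.BS := by
  rw [padS_cons, code_dcons M.NS M.NS_pos _ (symDigit_lt M s) _ (padS_lt M l)]
  rfl

theorem code_padS (M : Machine) (l : List (Sym M)) :
    code M.NS (padS M l) =
      ((symDigit M (l.headD (blankS M)) : ℝ) + code M.NS (padS M l.tail)) / M.BS := by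
  conv_lhs => rw [padS_eq]
  rw [code_dcons M.NS M.NS_pos _ (symDigit_lt M _) _ (padS_lt M l.tail)]
  rfl

theorem encSX_eq (M : Machine) (c : SCfg M) :
    encSX M c = ((stDigit M c.mode c.state : ℝ) + code M.NS (padS M c.right)) / M.BS := by
  unfold encSX
  rw [code_dcons M.NS M.NS_pos _ (stDigit_lt M _ _) _ (padS_lt M c.right)]
  rfl

theorem encSX_mem (M : Machine) (c : SCfg M) : 0 ≤ encSX M c ∧ encSX M c ≤ 1 / 2 := by
  have hlt : ∀ i, dcons (stDigit M c.mode c.state) (padS M c.right) i < M.NS :=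
    dcons_lt M.NS _ (stDigit_lt M _ _) _ (padS_lt M c.right)
  exact ⟨code_nonneg M.NS M.NS_pos _ hlt, code_le_half M.NS M.NS_pos _ hlt⟩

theorem encSY_mem (M : Machine) (c : SCfg M) : 0 ≤ encSY M c ∧ encSY M c ≤ 1 / 2 :=
  ⟨code_nonneg M.NS M.NS_pos _ (padS_lt M c.left), code_le_half M.NS M.NS_pos _ (padS_lt M c.left)⟩

theorem encSX_step (M : Machine) (c : SCfg M) :
    encSX M (stepS M c) = lamX M (keyOf M c) * encSX M c + muX M (keyOf M c) := by
  have hB := M.BS_pos
  have hB0 : M.BS ≠ 0 := ne_of_gt hB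
  obtain ⟨mode, q, right, left⟩ := c
  cases mode with
  | true =>
    rcases htop : right.headD (blankS M) with s | g
    · -- tape symbol on the right stack
      have hR := code_padS M right
      rw [htop] at hR
      by_cases hmv : (M.trans q s).2.2 = true
      · simp only [stepS, keyOf, SCfg.top, htop, hmv, lamX, muX, encSX_eq, ↓reduceIte]
        rw [hR]
        simp only [symDigit]
        field_simp
        ring
      · simp only [stepS, keyOf, SCfg.top, htop, hmv, lamX, muX, encSX_eq, Bool.false_eq_true, ↓reduceIte]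
        rw [hR, code_padS_cons, code_padS_cons]
        simp only [symDigit]
        field_simp
        ring
    · have hR := code_padS M right
      rw [htop] at hR
      simp only [stepS, keyOf, SCfg.top, htop, lamX, muX, encSX_eq, ↓reduceIte]
      rw [hR]
      field_simp
      ring
  | false =>
    rcases htop : left.headD (blankS M) with t | g
    · by_cases hmv : (M.trans q t).2.2 = true
      · simp only [stepS, keyOf, SCfg.top, htop, hmv, lamX, muX, encSX_eq, Bool.false_eq_true, ↓reduceIte]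
        rw [code_padS_cons]
        field_simp
        ring
      · simp only [stepS, keyOf, SCfg.top, htop, hmv, lamX, muX, encSX_eq, Bool.false_eq_true, ↓reduceIte]
        rw [code_padS_cons, code_padS_cons]
        simp only [symDigit]
        field_simp
        ring
    · simp only [stepS, keyOf, SCfg.top, htop, lamX, muX, encSX_eq, Bool.false_eq_true, ↓reduceIte]
      rw [code_padS_cons]
      field_simp
      ring

theorem encSY_step (M : Machine) (c : SCfg M) :
    encSY M (stepS M c) = lamY M (keyOf M c) * encSY M c + muY M (keyOf M c) := by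
  have hB := M.BS_pos
  have hB0 : M.BS ≠ 0 := ne_of_gt hB
  obtain ⟨mode, q, right, left⟩ := c
  cases mode with
  | true =>
    rcases htop : right.headD (blankS M) with s | g
    · by_cases hmv : (M.trans q s).2.2 = true
      · simp only [stepS, keyOf, SCfg.top, htop, hmv, lamY, muY, encSY, ↓reduceIte]
        rw [code_padS_cons, code_padS_cons]
        simp only [symDigit]
        field_simp
        ring
      · simp only [stepS, keyOf, SCfg.top, htop, hmv, lamY, muY, encSY, Bool.false_eq_true, ↓reduceIte]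
        ring
    · simp only [stepS, keyOf, SCfg.top, htop, lamY, muY, encSY, ↓reduceIte]
      rw [code_padS_cons]
      field_simp
      ring
  | false =>
    rcases htop : left.headD (blankS M) with t | g
    · have hL := code_padS M left
      rw [htop] at hL
      by_cases hmv : (M.trans q t).2.2 = true
      · simp only [stepS, keyOf, SCfg.top, htop, hmv, lamY, muY, encSY, Bool.false_eq_true, ↓reduceIte]
        rw [code_padS_cons, code_padS_cons, hL]
        simp only [symDigit]
        field_simp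
        ring
      · simp only [stepS, keyOf, SCfg.top, htop, hmv, lamY, muY, encSY, Bool.false_eq_true, ↓reduceIte]
        rw [hL]
        simp only [symDigit]
        field_simp
        ring
    · have hL := code_padS M left
      rw [htop] at hL
      simp only [stepS, keyOf, SCfg.top, htop, lamY, muY, encSY, Bool.false_eq_true, ↓reduceIte]
      rw [hL]
      field_simp
      ring

theorem Machine.BS_ge_two (M : Machine) : 2 ≤ M.BS := by
  unfold Machine.BS
  have h : (1 : ℝ) ≤ (M.NS : ℝ) := by exact_mod_cast M.NS_pos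
  linarith

theorem lamX_pos (M : Machine) (κ : Key M) : 0 < lamX M κ := by
  have hB := M.BS_pos
  obtain ⟨mode, q, top⟩ := κ
  cases mode <;> rcases top with s | g <;> simp only [lamX] <;> (try split_ifs) <;>
    first
      | exact hB
      | exact one_div_pos.mpr hB
      | exact one_div_pos.mpr (pow_pos hB 2)

theorem lamY_pos (M : Machine) (κ : Key M) : 0 < lamY M κ := by
  have hB := M.BS_pos
  obtain ⟨mode, q, top⟩ := κ
  cases mode <;> rcases top with s | g <;> simp only [lamY] <;> (try split_ifs) <;>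
    first
      | exact hB
      | exact one_div_pos.mpr hB
      | exact one_div_pos.mpr (pow_pos hB 2)
      | exact one_pos

theorem Machine.BS_ne_one (M : Machine) : M.BS ≠ 1 := by
  have := M.BS_ge_two
  intro h
  linarith

theorem Machine.inv_BS_ne_one (M : Machine) : 1 / M.BS ≠ 1 := by
  have h2 := M.BS_ge_two
  have hB := M.BS_pos
  intro h
  have : 1 / M.BS < 1 := by
    rw [div_lt_one hB]
    linarith
  linarith

theorem Machine.inv_BS_sq_ne_one (M : Machine) : 1 / M.BS ^ 2 ≠ 1 := by
  have h2 := M.BS_ge_two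
  have hB := M.BS_pos
  intro h
  have : 1 / M.BS ^ 2 < 1 := by
    rw [div_lt_one (pow_pos hB 2)]
    nlinarith
  linarith

theorem muX_of_lamX_one (M : Machine) (κ : Key M) (h : lamX M κ = 1) : muX M κ = 0 := by
  obtain ⟨mode, q, top⟩ := κ
  exfalso
  cases mode <;> rcases top with s | g <;> simp only [lamX] at h <;> (try split_ifs at h) <;>
    first
      | exact M.BS_ne_one h
      | exact M.inv_BS_ne_one h
      | exact M.inv_BS_sq_ne_one h

theorem muY_of_lamY_one (M : Machine) (κ : Key M) (h : lamY M κ = 1) : muY M κ = 0 := by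
  obtain ⟨mode, q, top⟩ := κ
  cases mode with
  | true =>
    rcases top with s | g
    · simp only [lamY] at h
      simp only [muY]
      split_ifs at h with hmv
      · exact absurd h M.inv_BS_sq_ne_one
      · rw [if_neg hmv]
    · simp only [lamY] at h
      exact absurd h M.inv_BS_ne_one
  | false =>
    rcases top with s | g
    · simp only [lamY] at h
      split_ifs at h
      · exact absurd h M.inv_BS_ne_one
      · exact absurd h M.BS_ne_one
    · simp only [lamY] at h
      exact absurd h M.BS_ne_one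

end Vale.Agent.Lib.P113
end

section
namespace Vale.Agent.Lib.P113

theorem padS_nil (M : Machine) : padS M [] = fun _ => 0 := by
  funext i
  simp [padS, symDigit, blankS]

theorem Machine.base_cast (M : Machine) : (M.base : ℝ) = M.BS := by
  unfold Machine.base Machine.BS Machine.NS
  push_cast
  ring

theorem code_padS_map_inl (M : Machine) (l : List (Fin (M.m + 1))) :
    code M.NS (padS M (l.map Sum.inl)) =
      ∑ i ∈ Finset.range l.length, ((l.getD i 0).val : ℝ) / (M.base : ℝ) ^ (i + 1) := by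
  induction l with
  | nil => simp [padS_nil, code_zero]
  | cons s l ih =>
    rw [List.map_cons, code_padS_cons, ih, List.length_cons, Finset.sum_range_succ',
      Machine.base_cast]
    simp only [List.getD_cons_succ, List.getD_cons_zero, symDigit]
    rw [add_div, Finset.sum_div, add_comm]
    congr 1
    · apply Finset.sum_congr rfl
      intro i _
      rw [div_div, ← pow_succ]
    · simp

theorem encSX_initS (M : Machine) (w : List (Fin (M.m + 1))) :
    encSX M (initS M w) = inputCode M w := by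
  rw [encSX_eq]
  show ((stDigit M true M.start : ℝ) + code M.NS (padS M (w.map Sum.inl))) / M.BS = _
  rw [code_padS_map_inl, ← Machine.base_cast]
  unfold inputCode stDigit
  rw [add_div, Finset.sum_div]
  congr 1
  · push_cast
    simp
  · apply Finset.sum_congr rfl
    intro i _
    rw [div_div, ← pow_succ]

theorem encSY_initS (M : Machine) (w : List (Fin (M.m + 1))) : encSY M (initS M w) = 0 := by
  show code M.NS (padS M []) = 0
  rw [padS_nil, code_zero]

end Vale.Agent.Lib.P113
end

section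
namespace Vale.Agent.Lib.P113

/-- A two-sided tape built from two lists: cells `0, 1, …` read `R`, cells `-1, -2, …`
read `L`, everything else is blank. -/
def mkTape {m : ℕ} (R L : List (Fin (m + 1))) : ℤ → Fin (m + 1) :=
  fun i => if 0 ≤ i then R.getD i.toNat 0 else L.getD (-1 - i).toNat 0

lemma mkTape_nat {m : ℕ} (R L : List (Fin (m + 1))) (k : ℕ) :
    mkTape R L (k : ℤ) = R.getD k 0 := by
  simp [mkTape]

lemma mkTape_negSucc {m : ℕ} (R L : List (Fin (m + 1))) (k : ℕ) :
    mkTape R L (Int.negSucc k) = L.getD k 0 := by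
  have h1 : ¬ (0 ≤ Int.negSucc k) := by
    have := Int.negSucc_lt_zero k
    omega
  have h2 : (-1 - Int.negSucc k).toNat = k := by
    have : (-1 - Int.negSucc k) = (k : ℤ) := by
      rw [Int.negSucc_eq]
      ring
    rw [this]
    exact Int.toNat_natCast k
  unfold mkTape
  rw [if_neg h1, h2]

lemma mkTape_shift_right {m : ℕ} (R L : List (Fin (m + 1))) (b : Fin (m + 1)) :
    (fun i : ℤ => Function.update (mkTape R L) 0 b (i + 1)) = mkTape R.tail (b :: L) := by
  funext i
  rcases i with k | k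
  · have h : (Int.ofNat k + 1) = ((k + 1 : ℕ) : ℤ) := rfl
    have hne : ((k + 1 : ℕ) : ℤ) ≠ 0 := by
      have : (0 : ℤ) < ((k + 1 : ℕ) : ℤ) := by exact_mod_cast Nat.succ_pos k
      omega
    show Function.update (mkTape R L) 0 b (Int.ofNat k + 1) = mkTape R.tail (b :: L) ((k : ℕ) : ℤ)
    rw [h, Function.update_of_ne hne, mkTape_nat, mkTape_nat]
    cases R <;> simp
  · cases k with
    | zero =>
      have h : Int.negSucc 0 + 1 = 0 := rfl
      show Function.update (mkTape R L) 0 b (Int.negSucc 0 + 1) = _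
      rw [h, Function.update_self, mkTape_negSucc]
      simp
    | succ k =>
      have h : Int.negSucc (k + 1) + 1 = Int.negSucc k := by
        rw [Int.negSucc_eq, Int.negSucc_eq]
        push_cast
        ring
      have hne : Int.negSucc k ≠ 0 := by
        have := Int.negSucc_lt_zero k
        omega
      show Function.update (mkTape R L) 0 b (Int.negSucc (k + 1) + 1) = _
      rw [h, Function.update_of_ne hne, mkTape_negSucc, mkTape_negSucc]
      simp

lemma mkTape_shift_left {m : ℕ} (R L : List (Fin (m + 1))) (b : Fin (m + 1)) :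
    (fun i : ℤ => Function.update (mkTape R L) 0 b (i - 1))
      = mkTape (L.headD 0 :: b :: R.tail) L.tail := by
  funext i
  rcases i with k | k
  · cases k with
    | zero =>
      have h : Int.ofNat 0 - 1 = Int.negSucc 0 := rfl
      have hne : Int.negSucc 0 ≠ 0 := by
        have := Int.negSucc_lt_zero 0
        omega
      show Function.update (mkTape R L) 0 b (Int.ofNat 0 - 1)
        = mkTape (L.headD 0 :: b :: R.tail) L.tail ((0 : ℕ) : ℤ)
      rw [h, Function.update_of_ne hne, mkTape_negSucc, mkTape_nat]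
      cases L <;> simp
    | succ k =>
      cases k with
      | zero =>
        have h : Int.ofNat (0 + 1) - 1 = 0 := rfl
        show Function.update (mkTape R L) 0 b (Int.ofNat (0 + 1) - 1)
          = mkTape (L.headD 0 :: b :: R.tail) L.tail ((1 : ℕ) : ℤ)
        rw [h, Function.update_self, mkTape_nat]
        simp
      | succ k =>
        have h : Int.ofNat (k + 1 + 1) - 1 = ((k + 1 : ℕ) : ℤ) := by
          show ((k + 1 + 1 : ℕ) : ℤ) - 1 = ((k + 1 : ℕ) : ℤ)
          push_cast
          ring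
        have hne : ((k + 1 : ℕ) : ℤ) ≠ 0 := by
          have : (0 : ℤ) < ((k + 1 : ℕ) : ℤ) := by exact_mod_cast Nat.succ_pos k
          omega
        show Function.update (mkTape R L) 0 b (Int.ofNat (k + 1 + 1) - 1)
          = mkTape (L.headD 0 :: b :: R.tail) L.tail ((k + 1 + 1 : ℕ) : ℤ)
        rw [h, Function.update_of_ne hne, mkTape_nat, mkTape_nat]
        cases R <;> simp
  · have h : Int.negSucc k - 1 = Int.negSucc (k + 1) := by
      rw [Int.negSucc_eq, Int.negSucc_eq]
      push_cast
      ring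
    have hne : Int.negSucc (k + 1) ≠ 0 := by
      have := Int.negSucc_lt_zero (k + 1)
      omega
    show Function.update (mkTape R L) 0 b (Int.negSucc k - 1) = _
    rw [h, Function.update_of_ne hne, mkTape_negSucc, mkTape_negSucc]
    cases L <;> simp

lemma mkTape_zero {m : ℕ} (R L : List (Fin (m + 1))) : mkTape R L 0 = R.headD 0 := by
  have := mkTape_nat R L 0
  rw [Nat.cast_zero] at this
  rw [this]
  cases R <;> simp

lemma stripS_nil (M : Machine) : stripS M [] = [] := rfl

lemma stripS_inl (M : Machine) (s : Fin (M.m + 1)) (l : List (Sym M)) :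
    stripS M (Sum.inl s :: l) = s :: stripS M l := by
  simp [stripS]

lemma stripS_inr (M : Machine) (g : Option (Bool × Fin (M.k + 1) × Fin (M.m + 1)))
    (l : List (Sym M)) : stripS M (Sum.inr g :: l) = stripS M l := rfl

lemma stripS_map_inl (M : Machine) (w : List (Fin (M.m + 1))) :
    stripS M (w.map Sum.inl) = w := by
  induction w with
  | nil => rfl
  | cons a w ih =>
    rw [List.map_cons, stripS_inl, ih]

lemma decodeS_true (M : Machine) (q : Fin (M.k + 1)) (r l : List (Sym M)) :
    decodeS M ⟨true, q, r, l⟩ = ⟨q, mkTape (stripS M r) (stripS M l)⟩ := rfl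

lemma decodeS_false (M : Machine) (q : Fin (M.k + 1)) (r l : List (Sym M)) :
    decodeS M ⟨false, q, r, l⟩
      = ⟨q, mkTape ((stripS M l).headD 0 :: stripS M r) (stripS M l).tail⟩ := rfl

lemma decodeS_state (M : Machine) (c : SCfg M) : (decodeS M c).state = c.state := by
  obtain ⟨mode, q, r, l⟩ := c
  cases mode <;> rfl

lemma decodeS_initS (M : Machine) (w : List (Fin (M.m + 1))) :
    decodeS M (initS M w) = M.init w := by
  unfold initS
  rw [decodeS_true, stripS_map_inl, stripS_nil]
  unfold Machine.init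
  congr 1

/-- Length of the stack being read. -/
def measS {M : Machine} (c : SCfg M) : ℕ := if c.mode then c.right.length else c.left.length

lemma next_mk_right (M : Machine) (q : Fin (M.k + 1)) (T : ℤ → Fin (M.m + 1))
    (s : Fin (M.m + 1)) (h0 : T 0 = s) (h : (M.trans q s).2.2 = true) :
    M.next ⟨q, T⟩ = ⟨(M.trans q s).1, fun i => Function.update T 0 (M.trans q s).2.1 (i + 1)⟩ := by
  subst h0
  unfold Machine.next
  simp only [h, if_true]

lemma next_mk_left (M : Machine) (q : Fin (M.k + 1)) (T : ℤ → Fin (M.m + 1))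
    (s : Fin (M.m + 1)) (h0 : T 0 = s) (h : ¬ (M.trans q s).2.2 = true) :
    M.next ⟨q, T⟩ = ⟨(M.trans q s).1, fun i => Function.update T 0 (M.trans q s).2.1 (i - 1)⟩ := by
  subst h0
  unfold Machine.next
  simp only [h, Bool.false_eq_true, if_false]

lemma decodeS_step_inr (M : Machine) (c : SCfg M)
    (g : Option (Bool × Fin (M.k + 1) × Fin (M.m + 1))) (h : c.top = Sum.inr g) :
    decodeS M (stepS M c) = decodeS M c ∧ measS (stepS M c) < measS c := by
  obtain ⟨mode, q, r, l⟩ := c
  cases mode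
  · cases l with
    | nil => exact absurd h (by simp [SCfg.top, blankS])
    | cons a l =>
      rcases a with s | g'
      · exact absurd h (by simp [SCfg.top])
      · have hs : stepS M ⟨false, q, r, Sum.inr g' :: l⟩ = ⟨false, q, Sum.inr g' :: r, l⟩ := by
          simp [stepS]
        rw [hs, decodeS_false, decodeS_false, stripS_inr, stripS_inr]
        exact ⟨rfl, by simp [measS]⟩
  · cases r with
    | nil => exact absurd h (by simp [SCfg.top, blankS])
    | cons a r =>
      rcases a with s | g'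
      · exact absurd h (by simp [SCfg.top])
      · have hs : stepS M ⟨true, q, Sum.inr g' :: r, l⟩ = ⟨true, q, r, Sum.inr g' :: l⟩ := by
          simp [stepS]
        rw [hs, decodeS_true, decodeS_true, stripS_inr, stripS_inr]
        exact ⟨rfl, by simp [measS]⟩

/-- the machine step on a mode-`true` configuration whose right stack starts with a tape
symbol `s` (the stack `r` being the rest) -/
lemma decodeS_step_true_aux (M : Machine) (q : Fin (M.k + 1)) (s : Fin (M.m + 1))
    (r r' l : List (Sym M)) (hr : stripS M r = s :: stripS M r' ∨ (stripS M r = [] ∧ s = 0 ∧ stripS M r' = []))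
    (hstep : stepS M ⟨true, q, r, l⟩ =
      if (M.trans q s).2.2 then
        { mode := true, state := (M.trans q s).1, right := r',
          left := Sum.inl (M.trans q s).2.1 :: Sum.inr (some (true, q, s)) :: l }
      else
        { mode := false, state := (M.trans q s).1,
          right := Sum.inl (M.trans q s).2.1 :: Sum.inr (some (true, q, s)) :: r',
          left := l }) :
    decodeS M (stepS M ⟨true, q, r, l⟩) = M.next (decodeS M ⟨true, q, r, l⟩) := by
  have h0 : mkTape (stripS M r) (stripS M l) 0 = s := by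
    rw [mkTape_zero]
    rcases hr with hr | ⟨hr, hs, _⟩
    · rw [hr]
      rfl
    · rw [hr, hs]
      rfl
  have htail : (stripS M r).tail = stripS M r' := by
    rcases hr with hr | ⟨hr, _, hr'⟩
    · rw [hr]
      rfl
    · rw [hr, hr']
      rfl
  rw [hstep, decodeS_true]
  by_cases hd : (M.trans q s).2.2 = true
  · rw [if_pos hd, decodeS_true, stripS_inl, stripS_inr, next_mk_right M q _ s h0 hd,
      mkTape_shift_right, htail]
  · rw [if_neg hd, decodeS_false, stripS_inl, stripS_inr, next_mk_left M q _ s h0 hd,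
      mkTape_shift_left, htail]

/-- the machine step on a mode-`false` configuration whose left stack starts with a tape
symbol `t` (the stack `l'` being the rest) -/
lemma decodeS_step_false_aux (M : Machine) (q : Fin (M.k + 1)) (t : Fin (M.m + 1))
    (r l l' : List (Sym M)) (hl : stripS M l = t :: stripS M l' ∨ (stripS M l = [] ∧ t = 0 ∧ stripS M l' = []))
    (hstep : stepS M ⟨false, q, r, l⟩ =
      if (M.trans q t).2.2 then
        { mode := true, state := (M.trans q t).1, right := Sum.inr none :: r,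
          left := Sum.inl (M.trans q t).2.1 :: Sum.inr (some (false, q, t)) :: l' }
      else
        { mode := false, state := (M.trans q t).1,
          right := Sum.inl (M.trans q t).2.1 :: Sum.inr (some (false, q, t)) :: r,
          left := l' }) :
    decodeS M (stepS M ⟨false, q, r, l⟩) = M.next (decodeS M ⟨false, q, r, l⟩) := by
  have hhead : (stripS M l).headD 0 = t := by
    rcases hl with hl | ⟨hl, ht, _⟩
    · rw [hl]
      rfl
    · rw [hl, ht]
      rfl
  have htail : (stripS M l).tail = stripS M l' := by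
    rcases hl with hl | ⟨hl, _, hl'⟩
    · rw [hl]
      rfl
    · rw [hl, hl']
      rfl
  have h0 : mkTape ((stripS M l).headD 0 :: stripS M r) (stripS M l).tail 0 = t := by
    rw [mkTape_zero, hhead]
    rfl
  rw [hstep, decodeS_false]
  by_cases hd : (M.trans q t).2.2 = true
  · rw [if_pos hd, decodeS_true, stripS_inl, stripS_inr, stripS_inr, next_mk_right M q _ t h0 hd,
      mkTape_shift_right, htail]
    rfl
  · rw [if_neg hd, decodeS_false, stripS_inl, stripS_inr, next_mk_left M q _ t h0 hd,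
      mkTape_shift_left, htail]
    rfl

lemma decodeS_step_inl (M : Machine) (c : SCfg M) (s : Fin (M.m + 1)) (h : c.top = Sum.inl s) :
    decodeS M (stepS M c) = M.next (decodeS M c) := by
  obtain ⟨mode, q, r, l⟩ := c
  cases mode
  · cases l with
    | nil =>
      have hs : s = 0 := by
        have : (Sum.inl 0 : Sym M) = Sum.inl s := h
        exact (Sum.inl.inj this).symm
      subst hs
      exact decodeS_step_false_aux M q 0 r [] [] (Or.inr ⟨rfl, rfl, rfl⟩) (by simp [stepS, blankS])
    | cons a l =>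
      rcases a with s' | g'
      · have hs : s' = s := by
          have : (Sum.inl s' : Sym M) = Sum.inl s := h
          exact Sum.inl.inj this
        subst hs
        exact decodeS_step_false_aux M q s' r (Sum.inl s' :: l) l (Or.inl (stripS_inl M s' l))
          (by simp [stepS])
      · exact absurd h (by simp [SCfg.top])
  · cases r with
    | nil =>
      have hs : s = 0 := by
        have : (Sum.inl 0 : Sym M) = Sum.inl s := h
        exact (Sum.inl.inj this).symm
      subst hs
      exact decodeS_step_true_aux M q 0 [] [] l (Or.inr ⟨rfl, rfl, rfl⟩) (by simp [stepS, blankS])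
    | cons a r =>
      rcases a with s' | g'
      · have hs : s' = s := by
          have : (Sum.inl s' : Sym M) = Sum.inl s := h
          exact Sum.inl.inj this
        subst hs
        exact decodeS_step_true_aux M q s' (Sum.inl s' :: r) r l (Or.inl (stripS_inl M s' r))
          (by simp [stepS])
      · exact absurd h (by simp [SCfg.top])

lemma stepS_progress (M : Machine) : ∀ (n : ℕ) (c : SCfg M), measS c ≤ n →
    ∃ j : ℕ, decodeS M ((stepS M)^[j + 1] c) = M.next (decodeS M c) := by
  intro n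
  induction n with
  | zero =>
    intro c hc
    rcases h : c.top with s | g
    · exact ⟨0, decodeS_step_inl M c s h⟩
    · have := (decodeS_step_inr M c g h).2
      omega
  | succ n ih =>
    intro c hc
    rcases h : c.top with s | g
    · exact ⟨0, decodeS_step_inl M c s h⟩
    · obtain ⟨h1, h2⟩ := decodeS_step_inr M c g h
      obtain ⟨j, hj⟩ := ih (stepS M c) (by omega)
      refine ⟨j + 1, ?_⟩
      rw [Function.iterate_succ_apply, hj, h1]

lemma stepS_reaches (M : Machine) (w : List (Fin (M.m + 1))) (n : ℕ) :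
    ∃ j : ℕ, decodeS M ((stepS M)^[j] (initS M w)) = M.next^[n] (M.init w) := by
  induction n with
  | zero => exact ⟨0, decodeS_initS M w⟩
  | succ n ih =>
    obtain ⟨j, hj⟩ := ih
    obtain ⟨j', hj'⟩ := stepS_progress M _ ((stepS M)^[j] (initS M w)) le_rfl
    refine ⟨j' + 1 + j, ?_⟩
    rw [Function.iterate_add_apply, hj', hj, Function.iterate_succ_apply']

lemma stepS_decodes (M : Machine) (w : List (Fin (M.m + 1))) (j : ℕ) :
    ∃ n : ℕ, decodeS M ((stepS M)^[j] (initS M w)) = M.next^[n] (M.init w) := by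
  induction j with
  | zero => exact ⟨0, decodeS_initS M w⟩
  | succ j ih =>
    obtain ⟨n, hn⟩ := ih
    rw [Function.iterate_succ_apply']
    rcases h : ((stepS M)^[j] (initS M w)).top with s | g
    · refine ⟨n + 1, ?_⟩
      rw [decodeS_step_inl M _ s h, hn, Function.iterate_succ_apply']
    · refine ⟨n, ?_⟩
      rw [(decodeS_step_inr M _ g h).1, hn]

/-- The two-stack system reaches a halting state exactly when the machine halts. -/
theorem haltsOn_iff_stackS (M : Machine) (w : List (Fin (M.m + 1))) :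
    M.HaltsOn w ↔ ∃ n : ℕ, M.halting (((stepS M)^[n] (initS M w)).state) = true := by
  constructor
  · rintro ⟨n, hn⟩
    obtain ⟨j, hj⟩ := stepS_reaches M w n
    refine ⟨j, ?_⟩
    rw [← decodeS_state, hj]
    exact hn
  · rintro ⟨j, hj⟩
    obtain ⟨n, hn⟩ := stepS_decodes M w j
    refine ⟨n, ?_⟩
    rw [← hn, decodeS_state]
    exact hj

end Vale.Agent.Lib.P113
end

section
open scoped ContDiff
open MeasureTheory
namespace Vale.Agent.Lib.P113

/-- A continuous linear functional on `ℝ³` that vanishes on the coordinate vectors is zero. -/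
theorem pressure_clm_eq_zero (L : Pt →L[ℝ] ℝ) (h : ∀ j : Fin 3, L (Pi.single j 1) = 0) :
    L = 0 := by
  apply ContinuousLinearMap.coe_injective
  apply LinearMap.pi_ext
  intro j c
  have h1 : (Pi.single j c : Pt) = c • (Pi.single j 1 : Pt) := by
    rw [← Pi.single_smul, smul_eq_mul, mul_one]
  show L (Pi.single j c) = (0 : Pt →L[ℝ] ℝ) (Pi.single j c)
  rw [h1, map_smul, h j, smul_zero, zero_apply]

/-- A continuously differentiable function on `ℝ³` with vanishing coordinate derivatives and
vanishing mean over the unit cube is zero. -/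
theorem pressure_eq_zero_of_dX {p : Pt → ℝ} (hp : ContDiff ℝ 1 p)
    (hgrad : ∀ (i : Fin 3) (x : Pt), dX i p x = 0)
    (hmean : ∫ x in Set.Icc (0 : Pt) 1, p x = 0) : ∀ x : Pt, p x = 0 := by
  have hdiff : Differentiable ℝ p := hp.differentiable (by norm_num)
  have hfd : ∀ x, fderiv ℝ p x = 0 := by
    intro x
    refine pressure_clm_eq_zero _ (fun j => ?_)
    rw [← NSU.dX_eq_fderiv j (hdiff x)]
    exact hgrad j x
  have hconst : ∀ x, p x = p 0 := fun x => is_const_of_fderiv_eq_zero hdiff hfd x 0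
  have hvol : (volume : Measure Pt).real (Set.Icc (0 : Pt) 1) = 1 := by
    rw [Measure.real, Real.volume_Icc_pi]
    simp
  have h1 : ∫ x in Set.Icc (0 : Pt) 1, p x = p 0 := by
    have h2 : ∫ x in Set.Icc (0 : Pt) 1, p x = ∫ _x in Set.Icc (0 : Pt) 1, p 0 :=
      integral_congr_ae (Filter.Eventually.of_forall (fun x => hconst x))
    rw [h2, setIntegral_const, hvol, one_smul]
  intro x
  rw [hconst x, ← h1, hmean]

theorem ns_unique_pressure (ν : ℝ) (hν : 0 < ν) (f u : ℝ → Pt → Pt)
    (hu : ContDiff ℝ ∞ (fun q : ℝ × Pt => u q.1 q.2)) (hper : ∀ t, Periodic3 (u t))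
    (hsol : SolvesNS ν f u (fun _ _ => 0))
    (T : ℝ) (hT : 0 < T) (v : ℝ → Pt → Pt) (π : ℝ → Pt → ℝ) (hv : ClassicalOn ν f T v π) :
    ∀ t ∈ Set.Icc 0 T, ∀ x : Pt, π t x = 0 := by
  have huniq := ns_unique ν hν f u hu hper hsol T hT v π hv
  have hui1 : ∀ i, ContDiff ℝ 1 (fun q : ℝ × Pt => u q.1 q.2 i) :=
    fun i => (contDiff_pi.mp hu i).of_le (WithTop.coe_le_coe.mpr le_top)
  intro t ht
  have hvt : v t = u t := funext (fun x => huniq t ht x)
  refine pressure_eq_zero_of_dX (hv.smooth_π t ht) (fun i x => ?_) (hv.mean_π t ht)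
  have h1 := hv.momentum t ht x i
  have h2 := hsol.1 t ht.1 x i
  have hdt : derivWithin (fun s : ℝ => v s x i) (Set.Icc 0 T) t
      = deriv (fun s : ℝ => u s x i) t := by
    have hcongr : Set.EqOn (fun s : ℝ => v s x i) (fun s : ℝ => u s x i) (Set.Icc 0 T) := by
      intro s hs
      show v s x i = u s x i
      rw [huniq s hs x]
    rw [derivWithin_congr hcongr (hcongr ht)]
    have hdiff : DifferentiableAt ℝ (fun s : ℝ => u s x i) t :=
      (NSU.hasDerivAt_time_slice (hui1 i) t x).differentiableAt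
    exact hdiff.derivWithin ((uniqueDiffOn_Icc hT) t ht)
  have hz : dX i ((fun (_ : ℝ) (_ : Pt) => (0 : ℝ)) t) x = 0 := by
    unfold dX
    simp
  rw [hdt, hvt] at h1
  rw [hz] at h2
  linarith

end Vale.Agent.Lib.P113
end

section
open scoped ContDiff

namespace Vale.Agent.Lib.P113

/-- An affine map with positive slope, in node form. -/
lemma node_end (lam mu X : ℝ) (hpos : 0 < lam) (h1 : lam = 1 → mu = 0) :
    mu / (1 - lam) + (X - mu / (1 - lam)) * Real.exp (Real.log lam) = lam * X + mu := by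
  rw [Real.exp_log hpos]
  by_cases h : lam = 1
  · rw [h, h1 h]
    simp
  · have hne : (1 : ℝ) - lam ≠ 0 := fun h' => h (by linarith)
    field_simp
    ring

/-- The run of the two-stack system of `M` on the input `w`, in codes. -/
lemma stack_isRun (M : Machine) (w : List (Fin (M.m + 1))) :
    IsRun (haltS M) (fun κ => Real.log (lamX M κ)) (fun κ => Real.log (lamY M κ))
      (fun κ => muX M κ / (1 - lamX M κ)) (fun κ => muY M κ / (1 - lamY M κ))
      (psiAS M) (psiCS M)
      (fun n => encSX M ((stepS M)^[n] (initS M w)))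
      (fun n => encSY M ((stepS M)^[n] (initS M w)))
      (fun n => keyOf M ((stepS M)^[n] (initS M w))) where
  x_mem := fun n => encSX_mem M _
  y_mem := fun n => encSY_mem M _
  x_step := by
    intro n
    show encSX M ((stepS M)^[n + 1] (initS M w)) = _
    rw [Function.iterate_succ_apply', encSX_step,
      node_end _ _ _ (lamX_pos M _) (muX_of_lamX_one M _)]
  y_step := by
    intro n
    show encSY M ((stepS M)^[n + 1] (initS M w)) = _
    rw [Function.iterate_succ_apply', encSY_step,
      node_end _ _ _ (lamY_pos M _) (muY_of_lamY_one M _)]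
  src := fun n => psiAS_enc M _
  img := by
    intro n
    show psiCS M (encSX M ((stepS M)^[n + 1] (initS M w)))
      (encSY M ((stepS M)^[n + 1] (initS M w))) = _
    rw [Function.iterate_succ_apply']
    exact psiCS_enc M _

/-- Halting detection by a particle path of a forced Navier-Stokes flow from rest, for every
Turing machine and every input. -/
theorem main_all (ν : ℝ) (hν : 0 < ν) :
    ∃ (a : Pt) (O : Set Pt) (ϑ : ℝ → ℝ), IsOpen O ∧
      (∀ (p : Pt) (n : Fin 3 → ℤ), (fun i => p i + n i) ∈ O ↔ p ∈ O) ∧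
      ContDiff ℝ ∞ ϑ ∧
      ∀ M : Machine, ∃ G : ℝ → Pt → Pt,
        ContDiff ℝ ∞ (fun q : ℝ × Pt => G q.1 q.2) ∧ (∀ t, Periodic3 (G t)) ∧
        (∀ t x, G (t + 3) x = G t x) ∧
        ∀ w : List (Fin (M.m + 1)), ∃ (f u : ℝ → Pt → Pt) (X : ℝ → Pt),
          ContDiff ℝ ∞ (fun q : ℝ × Pt => f q.1 q.2) ∧ (∀ t, Periodic3 (f t)) ∧
          (∀ t, 0 ≤ t → t ≤ 1 → ∀ x, f t x = ϑ t • ![inputCode M w, 0, 0]) ∧
          (∀ t, 1 ≤ t → ∀ x, f t x = G t x) ∧
          ContDiff ℝ ∞ (fun q : ℝ × Pt => u q.1 q.2) ∧ (∀ t, Periodic3 (u t)) ∧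
          SolvesNS ν f u (fun _ _ => 0) ∧
          (∀ T : ℝ, 0 < T → ClassicalOn ν f T u (fun _ _ => 0)) ∧
          (∀ T : ℝ, 0 < T → ∀ (v : ℝ → Pt → Pt) (π : ℝ → Pt → ℝ), ClassicalOn ν f T v π →
            ∀ t ∈ Set.Icc 0 T, ∀ x, v t x = u t x ∧ π t x = 0) ∧
          X 0 = a ∧ (∀ t, 0 ≤ t → HasDerivAt X (u t (X t)) t) ∧
          (∀ Y : ℝ → Pt, Y 0 = a → (∀ t, 0 ≤ t → HasDerivAt Y (u t (Y t)) t) →
            ∀ t, 0 ≤ t → Y t = X t) ∧
          ((∃ t, 0 ≤ t ∧ X t ∈ O) ↔ M.HaltsOn w) := by
  refine ⟨0, haltZone, deriv thT, haltZone_open, haltZone_periodic,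
    (contDiff_infty_iff_deriv.mp thT_contDiff).2, ?_⟩
  intro M
  classical
  obtain ⟨G, hG1, hG2, hG3, hrun⟩ := flow_main ν (haltS M) (fun κ => Real.log (lamX M κ))
    (fun κ => Real.log (lamY M κ)) (fun κ => muX M κ / (1 - lamX M κ))
    (fun κ => muY M κ / (1 - lamY M κ)) (psiAS M) (psiCS M) (psiAS_contDiff M)
    (psiAS_periodic M) (psiCS_contDiff M) (psiCS_periodic M)
  refine ⟨G, hG1, hG2, hG3, ?_⟩
  intro w
  obtain ⟨f, u, X, h1, h2, hk, h3, h4, h5, h6, h7, h8, h9⟩ := hrun _ _ _ (stack_isRun M w)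
  refine ⟨f, u, X, h1, h2, ?_, h3, h4, h5, h6, ?_, ?_, h7, h8, ?_, ?_⟩
  · intro t ht0 ht1 x
    have := hk t ht0 ht1 x
    simp only [Function.iterate_zero, id_eq] at this
    rw [encSX_initS, encSY_initS] at this
    exact this
  · intro T hT
    exact classicalOn_of_smooth ν f u h4 h5 h6 T hT
  · intro T hT v π hv t ht x
    exact ⟨ns_unique ν hν f u h4 h5 h6 T hT v π hv t ht x,
      ns_unique_pressure ν hν f u h4 h5 h6 T hT v π hv t ht x⟩
  · intro Y hY0 hY
    exact traj_unique u h4 h5 Y X hY h8 (by rw [hY0, h7])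
  · rw [h9, haltsOn_iff_stackS]
    rfl

end Vale.Agent.Lib.P113
end
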